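import Mathlib

/-!
Basic definitions for the construction of ultraflat sign polynomials (result 75, S0100).
-/

set_option autoImplicit false

namespace Crest.Agent.R75

open Complex

/-- `ee x = exp (2 π i x)`. -/
noncomputable def ee (x : ℝ) : ℂ := Complex.exp (2 * Real.pi * x * Complex.I)

/-- The normalised oscillatory integral `√A ∫₀¹ e(A (u v - G v)) dv`. -/
noncomputable def J (G : ℝ → ℝ) (A u : ℝ) : ℂ :=
  (Real.sqrt A : ℂ) * ∫ v in (0:ℝ)..1, ee (A * (u * v - G v))

/-- A time profile: `T = G'` increases on `[0,1]` from `bot` to `top` with slope at least `h`. -/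
structure IsProf (G T T1 : ℝ → ℝ) (bot top h : ℝ) : Prop where
  hG : ∀ v, HasDerivAt G (T v) v
  hT : ∀ v, HasDerivAt T (T1 v) v
  cT1 : Continuous T1
  G0 : G 0 = 0
  T0 : T 0 = bot
  Tone : T 1 = top
  lower : ∀ v ∈ Set.Icc (0:ℝ) 1, h ≤ T1 v

/-- A multiplier sequence that does not increase the sup norm of real parts of analytic
trigonometric polynomials. -/
def Contr (c : ℕ → ℂ) : Prop :=
  ∀ (s : Finset ℕ) (α : ℕ → ℂ) (B : ℝ),
    (∀ x : ℝ, |(∑ n ∈ s, α n * ee (n * x)).re| ≤ B) →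
      ∀ x : ℝ, |(∑ n ∈ s, α n * c n * ee (n * x)).re| ≤ B

/-- The contribution of piece `p` (the interval `[x p, x (p+1)]`, traversed upwards in time for
even `p` and downwards for odd `p`) to the `k`-th coefficient. -/
noncomputable def pieceTerm (x : ℕ → ℝ) (G : ℕ → ℝ → ℝ) (N : ℕ) (b c : ℕ → ℝ) (k p : ℕ) : ℝ :=
  2 * Real.sqrt (x (p + 1) - x p) *
    (ee ((if p % 2 = 0 then k * x p else -(k * x (p + 1))) + c p) *
      J (G p) (N * (x (p + 1) - x p)) ((k - b p) / N)).re

lemma ee_eq (x : ℝ) : ee x = Complex.exp (((2 * Real.pi * x : ℝ) : ℂ) * Complex.I) := by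
  unfold ee; push_cast; ring_nf

@[simp] lemma ee_zero : ee 0 = 1 := by simp [ee]

lemma ee_add (x y : ℝ) : ee (x + y) = ee x * ee y := by
  unfold ee; rw [← Complex.exp_add]; congr 1; push_cast; ring

@[simp] lemma norm_ee (x : ℝ) : ‖ee x‖ = 1 := by
  rw [ee_eq]; exact Complex.norm_exp_ofReal_mul_I _

lemma ee_ne_zero (x : ℝ) : ee x ≠ 0 := Complex.exp_ne_zero _

lemma ee_neg (x : ℝ) : ee (-x) = (starRingEnd ℂ) (ee x) := by
  rw [ee_eq, ee_eq, ← Complex.exp_conj]; congr 1
  rw [map_mul, Complex.conj_ofReal, Complex.conj_I]; push_cast; ring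

lemma ee_neg' (x : ℝ) : ee (-x) = (ee x)⁻¹ := by
  unfold ee; rw [← Complex.exp_neg]; congr 1; push_cast; ring

lemma ee_mul_ee_neg (x : ℝ) : ee x * ee (-x) = 1 := by
  rw [← ee_add]; simp

lemma ee_sub (x y : ℝ) : ee (x - y) = ee x * ee (-y) := by
  rw [← ee_add]; ring_nf

@[simp] lemma ee_int (z : ℤ) : ee z = 1 := by
  unfold ee
  have := Complex.exp_int_mul_two_pi_mul_I z
  rw [← this]; congr 1; push_cast; ring

@[simp] lemma ee_nat (z : ℕ) : ee z = 1 := by
  have := ee_int z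
  simpa using this

@[simp] lemma ee_one : ee 1 = 1 := by
  have := ee_nat 1
  simpa using this

lemma ee_add_int (x : ℝ) (z : ℤ) : ee (x + z) = ee x := by rw [ee_add]; simp

lemma ee_nat_mul (n : ℕ) (x : ℝ) : ee (n * x) = ee x ^ n := by
  unfold ee; rw [← Complex.exp_nat_mul]; congr 1; push_cast; ring

lemma ee_sum {ι : Type*} (s : Finset ι) (f : ι → ℝ) : ee (∑ i ∈ s, f i) = ∏ i ∈ s, ee (f i) := by
  classical
  induction s using Finset.induction_on with
  | empty => simp
  | insert a s ha ih => rw [Finset.sum_insert ha, Finset.prod_insert ha, ee_add, ih]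

lemma ee_re (x : ℝ) : (ee x).re = Real.cos (2 * Real.pi * x) := by
  rw [ee_eq]; exact Complex.exp_ofReal_mul_I_re _

lemma ee_im (x : ℝ) : (ee x).im = Real.sin (2 * Real.pi * x) := by
  rw [ee_eq]; exact Complex.exp_ofReal_mul_I_im _

@[fun_prop] lemma continuous_ee : Continuous ee := by
  unfold ee; fun_prop

lemma hasDerivAt_ee (x : ℝ) : HasDerivAt ee (2 * Real.pi * Complex.I * ee x) x := by
  have h1 : HasDerivAt (fun x : ℝ => (2 * Real.pi * x * Complex.I : ℂ))
      (2 * Real.pi * Complex.I) x := by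
    have := ((Complex.ofRealCLM.hasDerivAt (x := x)).const_mul (2 * Real.pi : ℂ)).mul_const
      Complex.I
    simpa using this
  have := h1.cexp
  unfold ee
  convert this using 1
  ring

lemma HasDerivAt.ee_comp {f : ℝ → ℝ} {f' x : ℝ} (hf : HasDerivAt f f' x) :
    HasDerivAt (fun y => ee (f y)) (2 * Real.pi * Complex.I * f' * ee (f x)) x := by
  have := (hasDerivAt_ee (f x)).scomp x hf
  have e : (2 * Real.pi * Complex.I * f' * ee (f x)) = f' • (2 * Real.pi * Complex.I * ee (f x)) := by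
    rw [Complex.real_smul]; ring
  rw [e]
  exact this

/-- Every complex number of modulus one is `ee` of a real number. -/
lemma exists_ee_of_norm_one {z : ℂ} (hz : ‖z‖ = 1) : ∃ t : ℝ, ee t = z := by
  refine ⟨Complex.arg z / (2 * Real.pi), ?_⟩
  rw [ee_eq]
  have hpi : (2 * Real.pi) ≠ 0 := by positivity
  rw [mul_div_cancel₀ _ hpi]
  have := Complex.norm_mul_exp_arg_mul_I z
  rw [hz] at this
  simpa using this

lemma norm_ee_sub_one (x : ℝ) : ‖ee x - 1‖ = 2 * |Real.sin (Real.pi * x)| := by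
  rw [ee_eq, mul_comm _ Complex.I, Complex.norm_exp_I_mul_ofReal_sub_one]
  rw [show 2 * Real.pi * x / 2 = Real.pi * x by ring, Real.norm_eq_abs, abs_mul]
  simp

lemma norm_ee_sub_one_le (x : ℝ) : ‖ee x - 1‖ ≤ 2 * Real.pi * |x| := by
  rw [norm_ee_sub_one]
  have := Real.abs_sin_le_abs (x := Real.pi * x)
  rw [abs_mul, abs_of_pos Real.pi_pos] at this
  nlinarith

lemma norm_ee_sub_ee_le (x y : ℝ) : ‖ee x - ee y‖ ≤ 2 * Real.pi * |x - y| := by
  have : ee x - ee y = (ee (x - y) - 1) * ee y := by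
    rw [sub_mul, ← ee_add]; simp
  rw [this, norm_mul, norm_ee, mul_one]
  exact norm_ee_sub_one_le _

lemma four_mul_abs_le_norm_ee_sub_one {x : ℝ} (hx : |x| ≤ 1 / 2) : 4 * |x| ≤ ‖ee x - 1‖ := by
  rw [norm_ee_sub_one]
  have h1 : |Real.pi * x| ≤ Real.pi / 2 := by
    rw [abs_mul, abs_of_pos Real.pi_pos]
    have := Real.pi_pos
    nlinarith
  have h2 := Real.mul_abs_le_abs_sin h1
  rw [abs_mul, abs_of_pos Real.pi_pos] at h2
  have hpi := Real.pi_pos
  have h3 : 2 / Real.pi * (Real.pi * |x|) = 2 * |x| := by field_simp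
  linarith

/-- Geometric sums: `|∑_{j<A} e(jx)| ≤ 1/(2|x|)` for `0 < |x| ≤ 1/2`, in product form. -/
lemma abs_mul_norm_sum_ee_le {x : ℝ} (hx : |x| ≤ 1 / 2) (A : ℕ) :
    |x| * ‖∑ j ∈ Finset.range A, ee (j * x)‖ ≤ 1 / 2 := by
  have h1 : (∑ j ∈ Finset.range A, ee (j * x)) * (ee x - 1) = ee x ^ A - 1 := by
    simp_rw [ee_nat_mul]
    exact geom_sum_mul _ _
  have h2 : ‖ee x ^ A - 1‖ ≤ 2 := by
    calc ‖ee x ^ A - 1‖ ≤ ‖ee x ^ A‖ + ‖(1:ℂ)‖ := norm_sub_le _ _
      _ = 2 := by simp; norm_num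
  rw [← h1, norm_mul] at h2
  have h3 := four_mul_abs_le_norm_ee_sub_one hx
  have h4 := norm_nonneg (∑ j ∈ Finset.range A, ee (j * x))
  nlinarith

lemma norm_sum_ee_le {ι : Type*} (s : Finset ι) (f : ι → ℝ) : ‖∑ j ∈ s, ee (f j)‖ ≤ s.card := by
  calc ‖∑ j ∈ s, ee (f j)‖ ≤ ∑ j ∈ s, ‖ee (f j)‖ := norm_sum_le _ _
    _ = s.card := by simp

/-- Orthogonality on a period. -/
lemma integral_ee_int_mul (a : ℝ) (k : ℤ) :
    ∫ x in a..a + 1, ee (k * x) = if k = 0 then 1 else 0 := by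
  split_ifs with hk
  · subst hk; simp
  · have hd : ∀ x ∈ Set.uIcc a (a + 1), HasDerivAt
        (fun y : ℝ => (2 * Real.pi * Complex.I * k)⁻¹ * ee (k * y)) (ee (k * x)) x := by
      intro x _
      have h1 : HasDerivAt (fun y : ℝ => (k:ℝ) * y) k x := by
        simpa using (hasDerivAt_id x).const_mul (k:ℝ)
      have h2 := (HasDerivAt.ee_comp h1).const_mul ((2 * Real.pi * Complex.I * k)⁻¹)
      have hk' : (k:ℂ) ≠ 0 := by exact_mod_cast hk
      have hpi : (Real.pi:ℂ) ≠ 0 := by exact_mod_cast Real.pi_ne_zero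
      have hI := Complex.I_ne_zero
      have e : (2 * Real.pi * Complex.I * k : ℂ)⁻¹
          * (2 * Real.pi * Complex.I * ((k:ℝ):ℂ) * ee (k * x)) = ee (k * x) := by
        push_cast
        field_simp
      rw [e] at h2
      exact h2
    rw [intervalIntegral.integral_eq_sub_of_hasDerivAt hd]
    · rw [mul_add, mul_one, ee_add_int]; simp
    · apply Continuous.intervalIntegrable; fun_prop

/-- Orthogonality on a grid. -/
lemma sum_ee_grid (M : ℕ) (hM : 0 < M) (k : ℤ) :
    ∑ i ∈ Finset.range M, ee (k * i / M) = if (M:ℤ) ∣ k then (M:ℂ) else 0 := by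
  have hM' : (M:ℝ) ≠ 0 := by positivity
  have h0 : ∀ i : ℕ, ee (k * i / M) = ee (k / M) ^ i := by
    intro i; rw [← ee_nat_mul]; congr 1; ring
  simp_rw [h0]
  split_ifs with hk
  · obtain ⟨c, rfl⟩ := hk
    have : (((M:ℤ) * c : ℤ) : ℝ) / M = c := by push_cast; field_simp
    rw [this]; simp
  · have hne : ee (k / M) ≠ 1 := by
      intro h
      rw [ee_eq, Complex.exp_eq_one_iff] at h
      obtain ⟨n, hn⟩ := h
      apply hk
      refine ⟨n, ?_⟩
      have hI : (Complex.I) ≠ 0 := Complex.I_ne_zero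
      have h2 : ((2 * Real.pi * (k / M) : ℝ) : ℂ) = ((n * (2 * Real.pi) : ℝ) : ℂ) := by
        apply mul_right_cancel₀ hI
        rw [hn]; push_cast; ring
      have h3 : 2 * Real.pi * ((k:ℝ) / M) = n * (2 * Real.pi) := by exact_mod_cast h2
      have hpi := Real.pi_pos
      have h4 : (k:ℝ) = M * n := by
        field_simp at h3
        linarith
      exact_mod_cast h4
    rw [geom_sum_eq hne, ← ee_nat_mul]
    have : (M:ℝ) * (k / M) = k := by field_simp
    rw [this]; simp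

/-! ### Multipliers -/

lemma Contr.mul {c d : ℕ → ℂ} (hc : Contr c) (hd : Contr d) : Contr (fun n => c n * d n) := by
  intro s α B h x
  have := hd s (fun n => α n * c n) B (hc s α B h) x
  simpa [mul_assoc] using this

lemma contr_one : Contr (fun _ => 1) := by
  intro s α B h x
  simpa using h x

lemma contr_prod {ι : Type*} (s : Finset ι) (c : ι → ℕ → ℂ) (h : ∀ i ∈ s, Contr (c i)) :
    Contr (fun n => ∏ i ∈ s, c i n) := by
  classical
  induction s using Finset.induction_on with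
  | empty => simpa using contr_one
  | insert a s ha ih =>
    simp_rw [Finset.prod_insert ha]
    exact (h a (Finset.mem_insert_self _ _)).mul
      (ih fun i hi => h i (Finset.mem_insert_of_mem hi))

lemma contr_shift (t : ℝ) : Contr (fun n => ee (n * t)) := by
  intro s α B h x
  have := h (t + x)
  simpa [mul_add, ee_add, mul_assoc] using this

lemma contr_const {w : ℝ} (h0 : 0 ≤ w) (h1 : w ≤ 1) : Contr (fun _ => (w:ℂ)) := by
  intro s α B h x
  have h2 : (∑ n ∈ s, α n * (w:ℂ) * ee (n * x)) = (w:ℂ) * ∑ n ∈ s, α n * ee (n * x) := by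
    rw [Finset.mul_sum]; exact Finset.sum_congr rfl fun n _ => by ring
  rw [h2, Complex.re_ofReal_mul, abs_mul, abs_of_nonneg h0]
  have h3 := h x
  have h4 := abs_nonneg (∑ n ∈ s, α n * ee (n * x)).re
  nlinarith

lemma contr_dvd {a : ℕ} (ha : 0 < a) : Contr (fun n => if a ∣ n then 1 else 0) := by
  intro s α B h x
  have ha' : (a:ℂ) ≠ 0 := by exact_mod_cast ha.ne'
  have h1 : ∀ n : ℕ, (if a ∣ n then (1:ℂ) else 0)
      = ((1 / a : ℝ) : ℂ) * ∑ i ∈ Finset.range a, ee (n * (i / a)) := by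
    intro n
    have := sum_ee_grid a ha n
    simp only [Int.cast_natCast, Int.natCast_dvd_natCast] at this
    simp_rw [← mul_div_assoc]
    rw [this]
    split_ifs <;> simp [ha']
  have h2 : (∑ n ∈ s, α n * (if a ∣ n then (1:ℂ) else 0) * ee (n * x))
      = ((1 / a : ℝ) : ℂ) * ∑ i ∈ Finset.range a, ∑ n ∈ s, α n * ee (n * (i / a + x)) := by
    rw [Finset.sum_comm, Finset.mul_sum]
    refine Finset.sum_congr rfl fun n _ => ?_
    rw [h1 n, Finset.mul_sum, Finset.mul_sum, Finset.mul_sum, Finset.sum_mul]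
    refine Finset.sum_congr rfl fun i _ => ?_
    rw [mul_add, ee_add]; ring
  rw [h2, Complex.re_ofReal_mul, Complex.re_sum, abs_mul]
  have h3 : |∑ i ∈ Finset.range a, (∑ n ∈ s, α n * ee (n * (i / a + x))).re| ≤ a * B := by
    calc _ ≤ ∑ i ∈ Finset.range a, |(∑ n ∈ s, α n * ee (n * (i / a + x))).re| :=
          Finset.abs_sum_le_sum_abs _ _
      _ ≤ ∑ _i ∈ Finset.range a, B := Finset.sum_le_sum fun i _ => h _
      _ = a * B := by simp
  have ha'' : (0:ℝ) < a := by exact_mod_cast ha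
  rw [abs_of_pos (by positivity)]
  calc 1 / (a:ℝ) * _ ≤ 1 / (a:ℝ) * (a * B) := by gcongr
    _ = B := by field_simp

/-- Products of approximations. -/
lemma prod_approx (n : ℕ) (C ε : ℝ) (hε : 0 < ε) :
    ∃ η : ℝ, 0 < η ∧ ∀ (ι : Type) (s : Finset ι) (U V : ι → ℂ), s.card ≤ n →
      (∀ i ∈ s, ‖V i‖ ≤ C) → (∀ i ∈ s, ‖U i - V i‖ ≤ η) →
      ‖∏ i ∈ s, U i - ∏ i ∈ s, V i‖ ≤ ε := by
  set D : ℝ := |C| + 2 with hD
  have hD1 : 1 ≤ D := by have := abs_nonneg C; linarith
  refine ⟨min 1 (ε / ((n + 1) * D ^ n)), by positivity, ?_⟩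
  set η := min 1 (ε / ((n + 1) * D ^ n)) with hη
  have hη0 : 0 < η := by positivity
  have hη1 : η ≤ 1 := min_le_left _ _
  intro ι s U V hs hV hU
  have key : ∀ t : Finset ι, (∀ i ∈ t, ‖V i‖ ≤ C) → (∀ i ∈ t, ‖U i - V i‖ ≤ η) →
      ‖∏ i ∈ t, V i‖ ≤ D ^ t.card ∧
      ‖∏ i ∈ t, U i - ∏ i ∈ t, V i‖ ≤ t.card * D ^ t.card * η := by
    classical
    intro t
    induction t using Finset.induction_on with
    | empty => intro _ _; simp
    | insert a t ha ih =>
      intro hV hU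
      obtain ⟨ih1, ih2⟩ := ih (fun i hi => hV i (Finset.mem_insert_of_mem hi))
        (fun i hi => hU i (Finset.mem_insert_of_mem hi))
      have hVa := hV a (Finset.mem_insert_self _ _)
      have hUa := hU a (Finset.mem_insert_self _ _)
      have hC := le_abs_self C
      have hVa' : ‖V a‖ ≤ D := by linarith
      have hUa' : ‖U a‖ ≤ D := by
        have : ‖U a‖ ≤ ‖U a - V a‖ + ‖V a‖ := by
          simpa using norm_add_le (U a - V a) (V a)
        linarith
      rw [Finset.prod_insert ha, Finset.prod_insert ha, Finset.card_insert_of_notMem ha]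
      have hP : 0 ≤ D ^ t.card := by positivity
      constructor
      · rw [norm_mul, pow_succ, mul_comm]
        exact mul_le_mul ih1 hVa' (norm_nonneg _) hP
      · have e : U a * ∏ i ∈ t, U i - V a * ∏ i ∈ t, V i
            = U a * (∏ i ∈ t, U i - ∏ i ∈ t, V i) + (U a - V a) * ∏ i ∈ t, V i := by ring
        rw [e]
        calc _ ≤ ‖U a * (∏ i ∈ t, U i - ∏ i ∈ t, V i)‖ + ‖(U a - V a) * ∏ i ∈ t, V i‖ :=
              norm_add_le _ _
          _ ≤ D * (t.card * D ^ t.card * η) + η * D ^ t.card := by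
              rw [norm_mul, norm_mul]
              gcongr
          _ ≤ D * (t.card * D ^ t.card * η) + η * (D ^ t.card * D) := by
              gcongr
              exact le_mul_of_one_le_right hP hD1
          _ = ((t.card + 1 : ℕ) : ℝ) * D ^ (t.card + 1) * η := by
              push_cast; ring
  obtain ⟨_, h2⟩ := key s hV hU
  have h3 : (s.card : ℝ) * D ^ s.card ≤ (n + 1) * D ^ n := by
    have : (s.card : ℝ) ≤ n := by exact_mod_cast hs
    have h4 : D ^ s.card ≤ D ^ n := pow_le_pow_right₀ hD1 hs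
    have : (s.card : ℝ) ≤ n + 1 := by linarith
    gcongr
  have h5 : η ≤ ε / ((n + 1) * D ^ n) := min_le_right _ _
  calc _ ≤ _ := h2
    _ ≤ (n + 1) * D ^ n * (ε / ((n + 1) * D ^ n)) := by gcongr
    _ = ε := by field_simp

end Crest.Agent.R75
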