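import Crest.Agent.R75.Basic

/-!
The Fresnel integral with an explicit rate (for T2b of result 75).
-/

set_option autoImplicit false

namespace Crest.Agent.R75

open Set MeasureTheory Filter Topology

namespace Fresnel

lemma norm_cexp_le {b : ℂ} (hb : 0 ≤ b.re) (x : ℝ) : ‖Complex.exp (-b * (x : ℂ) ^ 2)‖ ≤ 1 := by
  rw [norm_cexp_neg_mul_sq, Real.exp_le_one_iff]
  nlinarith [sq_nonneg x]

lemma tail_le {b : ℂ} (hb : 0 ≤ b.re) (hb1 : 1 ≤ ‖b‖) {R X : ℝ} (hR : 0 < R) (hRX : R ≤ X) :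
    ‖∫ x in R..X, Complex.exp (-b * (x : ℂ) ^ 2)‖ ≤ 1 / R := by
  have hb0 : b ≠ 0 := by
    intro h; rw [h, norm_zero] at hb1; linarith
  have hpos : ∀ x ∈ uIcc R X, 0 < x := by
    intro x hx; rw [uIcc_of_le hRX] at hx; linarith [hx.1]
  set c : ℂ := -(2 * b)⁻¹ with hc
  have hcn : ‖c‖ ≤ 1 / 2 := by
    rw [hc, norm_neg, norm_inv, norm_mul, one_div]
    apply inv_anti₀ (by norm_num)
    simp only [Complex.norm_ofNat]
    linarith
  have hinv : ∀ x ∈ uIcc R X, HasDerivAt (fun y : ℝ => y⁻¹) (-(x ^ 2)⁻¹) x :=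
    fun x hx => hasDerivAt_inv (hpos x hx).ne'
  have hinv' : ∀ x ∈ uIcc R X, HasDerivAt (fun y : ℝ => -y⁻¹) ((x ^ 2)⁻¹) x :=
    fun x hx => HasDerivAt.congr_deriv (hinv x hx).neg (neg_neg _)
  have cq : ContinuousOn (fun x : ℝ => (x ^ 2)⁻¹) (uIcc R X) :=
    ContinuousOn.inv₀ (by fun_prop) fun x hx => pow_ne_zero _ (hpos x hx).ne'
  have hexp : ∀ x : ℝ, HasDerivAt (fun y : ℝ => Complex.exp (-b * (y : ℂ) ^ 2))
      (Complex.exp (-b * (x : ℂ) ^ 2) * (-b * (2 * x))) x := by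
    intro x
    have h1 : HasDerivAt (fun y : ℝ => -b * (y : ℂ) ^ 2) (-b * (2 * x)) x := by
      have := ((hasDerivAt_pow 2 x).ofReal_comp).const_mul (-b)
      simpa using this
    exact h1.cexp
  have hF : ∀ x ∈ uIcc R X,
      HasDerivAt (fun y : ℝ => c * (((y⁻¹ : ℝ) : ℂ) * Complex.exp (-b * (y : ℂ) ^ 2)))
      (-c * ((((x ^ 2)⁻¹ : ℝ) : ℂ) * Complex.exp (-b * (x : ℂ) ^ 2))
        + Complex.exp (-b * (x : ℂ) ^ 2)) x := by
    intro x hx
    have h1 := ((hinv x hx).ofReal_comp.mul (hexp x)).const_mul c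
    have h2 : (x : ℂ) ≠ 0 := by exact_mod_cast (hpos x hx).ne'
    refine HasDerivAt.congr_deriv h1 ?_
    rw [hc]
    push_cast
    field_simp
    ring
  have i1 : IntervalIntegrable
      (fun x : ℝ => -c * ((((x ^ 2)⁻¹ : ℝ) : ℂ) * Complex.exp (-b * (x : ℂ) ^ 2))) volume R X := by
    apply ContinuousOn.intervalIntegrable
    exact continuousOn_const.mul ((Complex.continuous_ofReal.comp_continuousOn cq).mul (by fun_prop))
  have i2 : IntervalIntegrable (fun x : ℝ => Complex.exp (-b * (x : ℂ) ^ 2)) volume R X := by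
    apply Continuous.intervalIntegrable; fun_prop
  have key := intervalIntegral.integral_eq_sub_of_hasDerivAt hF (i1.add i2)
  rw [intervalIntegral.integral_add i1 i2] at key
  have e : ∫ x in R..X, Complex.exp (-b * (x : ℂ) ^ 2)
      = c * (((X⁻¹ : ℝ) : ℂ) * Complex.exp (-b * (X : ℂ) ^ 2))
      - c * (((R⁻¹ : ℝ) : ℂ) * Complex.exp (-b * (R : ℂ) ^ 2))
      - ∫ x in R..X, -c * ((((x ^ 2)⁻¹ : ℝ) : ℂ) * Complex.exp (-b * (x : ℂ) ^ 2)) := by
    rw [← key]; ring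
  have hend : ∀ x : ℝ, 0 < x →
      ‖c * (((x⁻¹ : ℝ) : ℂ) * Complex.exp (-b * (x : ℂ) ^ 2))‖ ≤ 1 / 2 * x⁻¹ := by
    intro x hx
    rw [norm_mul, norm_mul, Complex.norm_real, Real.norm_of_nonneg (by positivity)]
    refine mul_le_mul hcn ?_ (by positivity) (by norm_num)
    exact mul_le_of_le_one_right (by positivity) (norm_cexp_le hb x)
  have hmid : ‖∫ x in R..X, -c * ((((x ^ 2)⁻¹ : ℝ) : ℂ) * Complex.exp (-b * (x : ℂ) ^ 2))‖
      ≤ 1 / 2 * (-X⁻¹ - -R⁻¹) := by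
    have h1 : ‖∫ x in R..X, -c * ((((x ^ 2)⁻¹ : ℝ) : ℂ) * Complex.exp (-b * (x : ℂ) ^ 2))‖
        ≤ ∫ x in R..X, 1 / 2 * (x ^ 2)⁻¹ := by
      refine intervalIntegral.norm_integral_le_of_norm_le hRX ?_
        ((cq.intervalIntegrable).const_mul _)
      refine Filter.Eventually.of_forall fun x _ => ?_
      rw [norm_mul, norm_mul, norm_neg, Complex.norm_real, Real.norm_of_nonneg (by positivity)]
      refine mul_le_mul hcn ?_ (by positivity) (by norm_num)
      exact mul_le_of_le_one_right (by positivity) (norm_cexp_le hb x)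
    rwa [intervalIntegral.integral_const_mul (1 / 2 : ℝ),
      intervalIntegral.integral_eq_sub_of_hasDerivAt hinv' cq.intervalIntegrable] at h1
  rw [e]
  have h4 := hend R hR
  have h5 := hend X (by linarith)
  calc _ ≤ ‖c * (((X⁻¹ : ℝ) : ℂ) * Complex.exp (-b * (X : ℂ) ^ 2))‖
        + ‖c * (((R⁻¹ : ℝ) : ℂ) * Complex.exp (-b * (R : ℂ) ^ 2))‖
        + ‖∫ x in R..X, -c * ((((x ^ 2)⁻¹ : ℝ) : ℂ) * Complex.exp (-b * (x : ℂ) ^ 2))‖ :=
        (norm_sub_le _ _).trans (add_le_add_left (norm_sub_le _ _) _)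
    _ ≤ R⁻¹ := by linarith
    _ = 1 / R := (one_div R).symm

lemma sym_tail_le {b : ℂ} (hb : 0 ≤ b.re) (hb1 : 1 ≤ ‖b‖) {R X : ℝ} (hR : 0 < R) (hRX : R ≤ X) :
    ‖(∫ x in (-R)..R, Complex.exp (-b * (x : ℂ) ^ 2))
      - ∫ x in (-X)..X, Complex.exp (-b * (x : ℂ) ^ 2)‖ ≤ 2 / R := by
  have hint : ∀ x y : ℝ,
      IntervalIntegrable (fun x : ℝ => Complex.exp (-b * (x : ℂ) ^ 2)) volume x y := fun x y => by
    apply Continuous.intervalIntegrable; fun_prop
  have e1 : ∫ x in (-X)..(-R), Complex.exp (-b * (x : ℂ) ^ 2)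
      = ∫ x in R..X, Complex.exp (-b * (x : ℂ) ^ 2) := by
    rw [← intervalIntegral.integral_comp_neg]
    simp
  rw [← intervalIntegral.integral_add_adjacent_intervals (hint (-X) R) (hint R X),
    ← intervalIntegral.integral_add_adjacent_intervals (hint (-X) (-R)) (hint (-R) R), e1]
  have := tail_le hb hb1 hR hRX
  set I := ∫ x in R..X, Complex.exp (-b * (x : ℂ) ^ 2)
  set K := ∫ x in (-R)..R, Complex.exp (-b * (x : ℂ) ^ 2)
  have e2 : K - (I + K + I) = -(2 * I) := by ring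
  rw [e2, norm_neg, norm_mul]
  simp only [Complex.norm_ofNat]
  calc 2 * ‖I‖ ≤ 2 * (1 / R) := by linarith
    _ = 2 / R := by ring

lemma gauss_le {b : ℂ} (hb : 0 < b.re) (hb1 : 1 ≤ ‖b‖) {R : ℝ} (hR : 0 < R) :
    ‖(∫ x in (-R)..R, Complex.exp (-b * (x : ℂ) ^ 2)) - (Real.pi / b) ^ (1 / 2 : ℂ)‖ ≤ 2 / R := by
  rw [← integral_gaussian_complex hb]
  have h1 := intervalIntegral_tendsto_integral (integrable_cexp_neg_mul_sq hb)
    tendsto_neg_atTop_atBot tendsto_id
  have h2 := ((tendsto_const_nhds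
    (x := ∫ x in (-R)..R, Complex.exp (-b * (x : ℂ) ^ 2))).sub h1).norm
  refine le_of_tendsto h2 ?_
  filter_upwards [eventually_ge_atTop R] with X hX
  exact sym_tail_le hb.le hb1 hR hX

end Fresnel

/-- The Fresnel integral with a rate. -/
theorem fresnel {R : ℝ} (hR : 0 < R) :
    ‖(∫ y in (-R)..R, ee (-(y ^ 2) / 2)) - ee (-1 / 8)‖ ≤ 2 / R := by
  have hpi : (Real.pi : ℂ) ≠ 0 := by exact_mod_cast Real.pi_ne_zero
  let g : ℝ → ℝ := fun ε => ‖(∫ x in (-R)..R,
    Complex.exp (-((ε : ℂ) + Real.pi * Complex.I) * (x : ℂ) ^ 2))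
      - (Real.pi / ((ε : ℂ) + Real.pi * Complex.I)) ^ (1 / 2 : ℂ)‖
  have e0 : ((Real.pi : ℂ) / (((0 : ℝ) : ℂ) + Real.pi * Complex.I)) = -Complex.I := by
    simp only [Complex.ofReal_zero, zero_add]
    field_simp
    simp
  have hg : ContinuousAt g 0 := by
    refine ContinuousAt.norm (ContinuousAt.sub ?_ ?_)
    · refine Continuous.continuousAt ?_
      apply intervalIntegral.continuous_parametric_intervalIntegral_of_continuous'
      fun_prop
    · refine ContinuousAt.cpow ?_ continuousAt_const ?_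
      · refine ContinuousAt.div continuousAt_const (by fun_prop) ?_
        simp [Real.pi_ne_zero]
      · rw [e0]
        right
        simp
  have hle : g 0 ≤ 2 / R := by
    refine le_of_tendsto (hg.tendsto.mono_left (nhdsWithin_le_nhds (s := Ioi 0))) ?_
    filter_upwards [self_mem_nhdsWithin] with ε hε
    refine Fresnel.gauss_le (by simpa using hε) ?_ hR
    refine le_trans ?_ (Complex.abs_im_le_norm _)
    simp only [Complex.add_im, Complex.ofReal_im, Complex.mul_im, Complex.ofReal_re, Complex.I_im,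
      mul_one, Complex.I_re, mul_zero, add_zero, zero_add]
    rw [abs_of_pos Real.pi_pos]
    linarith [Real.pi_gt_three]
  have e1 : (-Complex.I) ^ (1 / 2 : ℂ) = ee (-1 / 8) := by
    rw [Complex.cpow_def_of_ne_zero (by simp), Complex.log_neg_I, ee]
    congr 1
    push_cast
    ring
  have e2 : ∀ y : ℝ, ee (-(y ^ 2) / 2)
      = Complex.exp (-(((0 : ℝ) : ℂ) + Real.pi * Complex.I) * (y : ℂ) ^ 2) := by
    intro y
    rw [ee]
    congr 1
    push_cast
    ring
  simp only [g, e0, e1] at hle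
  simpa only [e2] using hle

end Crest.Agent.R75
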