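import Crest.Agent.R75.FirstDeriv
import Crest.Agent.R75.Fresnel

/-!
Uniform stationary phase for time profiles (T2b of result 75).
-/

set_option autoImplicit false

namespace Crest.Agent.R75

open Set MeasureTheory

namespace Prof

variable {G T T1 : ℝ → ℝ} {bot top h : ℝ}

lemma T_lower (P : IsProf G T T1 bot top h) {x y : ℝ} (hx : x ∈ Icc (0 : ℝ) 1)
    (hy : y ∈ Icc (0 : ℝ) 1) (hxy : x ≤ y) : h * (y - x) ≤ T y - T x := by
  have cT : Continuous T := continuous_iff_continuousAt.mpr fun x => (P.hT x).continuousAt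
  refine (convex_Icc (0 : ℝ) 1).mul_sub_le_image_sub_of_le_deriv cT.continuousOn
    (fun z _ => (P.hT z).differentiableAt.differentiableWithinAt) (fun z hz => ?_) x hx y hy hxy
  rw [(P.hT z).deriv]
  exact P.lower z (interior_subset hz)

lemma phase_deriv (P : IsProf G T T1 bot top h) (A u x : ℝ) :
    HasDerivAt (fun x => A * (u * x - G x)) (A * (u - T x)) x := by
  have := (((hasDerivAt_id x).const_mul u).sub (P.hG x)).const_mul A
  exact HasDerivAt.congr_deriv this (by ring)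

lemma phase_deriv2 (P : IsProf G T T1 bot top h) (A u x : ℝ) :
    HasDerivAt (fun x => A * (u - T x)) (-(A * T1 x)) x := by
  have := ((P.hT x).const_sub u).const_mul A
  exact HasDerivAt.congr_deriv this (by ring)

lemma phase_int (P : IsProf G T T1 bot top h) (A u a b : ℝ) :
    IntervalIntegrable (fun x => ee (A * (u * x - G x))) volume a b := by
  have cG : Continuous G := continuous_iff_continuousAt.mpr fun x => (P.hG x).continuousAt
  apply Continuous.intervalIntegrable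
  fun_prop

lemma first_bound (P : IsProf G T T1 bot top h) (hh : 0 < h) {A u a b μ : ℝ} (hA : 0 < A)
    (ha : 0 ≤ a) (hab : a ≤ b) (hb : b ≤ 1) (hμ : 0 < μ) (hu : ∀ x ∈ Icc a b, μ ≤ |u - T x|) :
    ‖∫ x in a..b, ee (A * (u * x - G x))‖ ≤ 1 / (A * μ) := by
  have := P.cT1
  refine first_deriv_test hab (mul_pos hA hμ) (phase_deriv P A u) (phase_deriv2 P A u)
    (by fun_prop) (fun x hx => ?_) fun x hx => ?_
  · have := P.lower x ⟨ha.trans hx.1, hx.2.trans hb⟩
    have : 0 ≤ A * T1 x := mul_nonneg hA.le (by linarith)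
    linarith
  · rw [abs_mul, abs_of_pos hA]
    exact mul_le_mul_of_nonneg_left (hu x hx) hA.le

lemma second_bound (P : IsProf G T T1 bot top h) {A u a b Θ : ℝ} (hA : 0 < A)
    (hab : a ≤ b) (hΘ : 0 < Θ) (hT : ∀ x ∈ Icc a b, Θ ≤ T1 x) :
    ‖∫ x in a..b, ee (A * (u * x - G x))‖ ≤ 4 / Real.sqrt (A * Θ) := by
  have := P.cT1
  refine second_deriv_test hab (mul_pos hA hΘ) (phase_deriv P A u) (phase_deriv2 P A u)
    (by fun_prop) fun x hx => ?_
  exact neg_le_neg (mul_le_mul_of_nonneg_left (hT x hx) hA.le)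

lemma norm_J_split (P : IsProf G T T1 bot top h) (A u a b : ℝ) :
    J G A u = (Real.sqrt A : ℂ) * ((∫ x in (0 : ℝ)..a, ee (A * (u * x - G x)))
      + (∫ x in a..b, ee (A * (u * x - G x))) + ∫ x in b..1, ee (A * (u * x - G x))) := by
  rw [J, intervalIntegral.integral_add_adjacent_intervals (phase_int P A u _ _) (phase_int P A u _ _),
    intervalIntegral.integral_add_adjacent_intervals (phase_int P A u _ _) (phase_int P A u _ _)]

lemma J_else (P : IsProf G T T1 bot top h) (hh : 0 < h) {A u d Θ : ℝ} (hA : 0 < A)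
    (hd : 0 < d) (hd4 : d ≤ 1 / 4) (hΘ : 0 < Θ) (hT0 : ∀ x ∈ Icc 0 (2 * d), Θ ≤ T1 x)
    (hT1 : ∀ x ∈ Icc (1 - 2 * d) 1, Θ ≤ T1 x)
    (hu : ∀ x ∈ Icc (2 * d) (1 - 2 * d), h * d ≤ |u - T x|) :
    ‖J G A u‖ ≤ 8 / Real.sqrt Θ + 1 / (Real.sqrt A * (h * d)) := by
  rw [norm_J_split P A u (2 * d) (1 - 2 * d), norm_mul, Complex.norm_real,
    Real.norm_of_nonneg (Real.sqrt_nonneg _)]
  have h1 := second_bound P (u := u) hA (by linarith : (0 : ℝ) ≤ 2 * d) hΘ hT0
  have h3 := second_bound P (u := u) hA (by linarith : 1 - 2 * d ≤ 1) hΘ hT1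
  have h2 := first_bound P hh hA (by linarith : (0 : ℝ) ≤ 2 * d) (by linarith) (by linarith)
    (mul_pos hh hd) hu
  have hs : 0 < Real.sqrt A := Real.sqrt_pos.mpr hA
  have hs' : 0 < Real.sqrt Θ := Real.sqrt_pos.mpr hΘ
  have hAs : A = Real.sqrt A * Real.sqrt A := (Real.mul_self_sqrt hA.le).symm
  rw [Real.sqrt_mul hA.le] at h1 h3
  calc _ ≤ Real.sqrt A * (4 / (Real.sqrt A * Real.sqrt Θ) + 1 / (A * (h * d))
        + 4 / (Real.sqrt A * Real.sqrt Θ)) := by
        refine mul_le_mul_of_nonneg_left ?_ hs.le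
        exact (norm_add_le _ _).trans (add_le_add ((norm_add_le _ _).trans (add_le_add h1 h2)) h3)
    _ = _ := by
        generalize Real.sqrt A = s at *
        subst hAs
        field_simp
        ring

lemma taylor_bound (P : IsProf G T T1 bot top h) {v ρ κ : ℝ} (hρ : 0 ≤ ρ) (hκ : 0 ≤ κ)
    (hT : ∀ x ∈ Icc (v - ρ) (v + ρ), |T1 x - T1 v| ≤ κ) {x : ℝ} (hx : x ∈ Icc (v - ρ) (v + ρ)) :
    |(T v * x - G x) - ((T v * v - G v) - T1 v * (x - v) ^ 2 / 2)| ≤ κ * ρ ^ 2 := by
  have hv : v ∈ Icc (v - ρ) (v + ρ) := ⟨by linarith, by linarith⟩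
  have habs : ∀ y ∈ Icc (v - ρ) (v + ρ), ‖y - v‖ ≤ ρ := fun y hy => by
    rw [Real.norm_eq_abs, abs_le]; constructor <;> linarith [hy.1, hy.2]
  have d1 : ∀ y, HasDerivAt (fun y => T v - T y + T1 v * (y - v)) (T1 v - T1 y) y := by
    intro y
    have := ((P.hT y).const_sub (T v)).add (((hasDerivAt_id y).sub_const v).const_mul (T1 v))
    exact HasDerivAt.congr_deriv this (by ring)
  have d0 : ∀ y, HasDerivAt (fun y => T v * y - G y + T1 v * (y - v) ^ 2 / 2)
      (T v - T y + T1 v * (y - v)) y := by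
    intro y
    have := (((hasDerivAt_id y).const_mul (T v)).sub (P.hG y)).add
      (((((hasDerivAt_id y).sub_const v).pow 2).const_mul (T1 v)).div_const 2)
    exact HasDerivAt.congr_deriv this (by simp; ring)
  have b1 : ∀ y ∈ Icc (v - ρ) (v + ρ), ‖T v - T y + T1 v * (y - v)‖ ≤ κ * ρ := by
    intro y hy
    have := (convex_Icc (v - ρ) (v + ρ)).norm_image_sub_le_of_norm_hasDerivWithin_le
      (fun z _ => (d1 z).hasDerivWithinAt) (C := κ)
      (fun z hz => by rw [Real.norm_eq_abs, abs_sub_comm]; exact hT z hz) hv hy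
    simp only [sub_self, mul_zero, add_zero, sub_zero] at this
    exact this.trans (mul_le_mul_of_nonneg_left (habs y hy) hκ)
  have := (convex_Icc (v - ρ) (v + ρ)).norm_image_sub_le_of_norm_hasDerivWithin_le
    (fun z _ => (d0 z).hasDerivWithinAt) b1 hv hx
  have h2 := this.trans (mul_le_mul_of_nonneg_left (habs x hx) (mul_nonneg hκ hρ))
  rw [Real.norm_eq_abs] at h2
  have e1 : (T v * x - G x) - ((T v * v - G v) - T1 v * (x - v) ^ 2 / 2)
      = T v * x - G x + T1 v * (x - v) ^ 2 / 2 - (T v * v - G v + T1 v * (v - v) ^ 2 / 2) := by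
    ring
  have e2 : κ * ρ ^ 2 = κ * ρ * ρ := by ring
  rw [e1, e2]
  exact h2

lemma J_main (P : IsProf G T T1 bot top h) (hh : 0 < h) {A R κ v : ℝ} (hA : 0 < A) (hR : 0 < R)
    (hκ : 0 ≤ κ) (h0 : 0 ≤ v - R / Real.sqrt A) (h1 : v + R / Real.sqrt A ≤ 1)
    (hT : ∀ x ∈ Icc (v - R / Real.sqrt A) (v + R / Real.sqrt A), |T1 x - T1 v| ≤ κ) :
    ‖J G A (T v) - ee (-1 / 8) * ((1 / Real.sqrt (T1 v) : ℝ) : ℂ) * ee (A * (T v * v - G v))‖
      ≤ 4 * Real.pi * κ * R ^ 3 + 4 / (h * R) := by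
  have hs : 0 < Real.sqrt A := Real.sqrt_pos.mpr hA
  have hAs : Real.sqrt A * Real.sqrt A = A := Real.mul_self_sqrt hA.le
  set s := Real.sqrt A with hsdef
  set ρ := R / s with hρ
  have hρ0 : 0 < ρ := by positivity
  have hv : v ∈ Icc (0 : ℝ) 1 := ⟨by linarith, by linarith⟩
  have hσ : h ≤ T1 v := P.lower v hv
  have hσ0 : 0 < T1 v := by linarith
  have ht : 0 < Real.sqrt (T1 v) := Real.sqrt_pos.mpr hσ0
  have htt : Real.sqrt (T1 v) * Real.sqrt (T1 v) = T1 v := Real.mul_self_sqrt hσ0.le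
  set t := Real.sqrt (T1 v) with htdef
  have b1 := first_bound P hh (u := T v) hA le_rfl h0 (by linarith) (mul_pos hh hρ0) fun x hx => by
    have := T_lower P ⟨hx.1, by linarith [hx.2]⟩ hv (by linarith [hx.2])
    refine le_trans ?_ (le_abs_self _)
    nlinarith [hx.2]
  have b3 := first_bound P hh (u := T v) hA (by linarith) h1 le_rfl (mul_pos hh hρ0) fun x hx => by
    have := T_lower P hv ⟨by linarith [hx.1], hx.2⟩ (by linarith [hx.1])
    refine le_trans ?_ (neg_le_abs _)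
    nlinarith [hx.1]
  set Φ := T v * v - G v with hΦ
  have b2 : ‖(∫ x in (v - ρ)..(v + ρ), ee (A * (T v * x - G x)))
      - ∫ x in (v - ρ)..(v + ρ), ee (A * (Φ - T1 v * (x - v) ^ 2 / 2))‖
      ≤ (2 * Real.pi * (A * (κ * ρ ^ 2))) * (2 * ρ) := by
    rw [← intervalIntegral.integral_sub (phase_int P _ _ _ _)
      (by apply Continuous.intervalIntegrable; fun_prop)]
    refine (intervalIntegral.norm_integral_le_of_norm_le_const
      (C := 2 * Real.pi * (A * (κ * ρ ^ 2))) fun x hx => ?_).trans ?_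
    · rw [uIoc_of_le (by linarith)] at hx
      refine (norm_ee_sub_ee_le _ _).trans ?_
      rw [← mul_sub, abs_mul, abs_of_pos hA]
      have := taylor_bound P hρ0.le hκ hT (Ioc_subset_Icc_self hx)
      have hpi := Real.pi_pos
      gcongr
    · rw [show v + ρ - (v - ρ) = 2 * ρ by ring, abs_of_pos (by positivity)]
  have e2 : ∫ x in (v - ρ)..(v + ρ), ee (A * (Φ - T1 v * (x - v) ^ 2 / 2))
      = ee (A * Φ) * ((((s * t)⁻¹ : ℝ) : ℂ) * ∫ y in (-(R * t))..(R * t), ee (-(y ^ 2) / 2)) := by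
    have e3 : ∀ x : ℝ, ee (A * (Φ - T1 v * (x - v) ^ 2 / 2))
        = ee (A * Φ) * ee (-((s * t * x - s * t * v) ^ 2) / 2) := by
      intro x
      rw [← ee_add]
      congr 1
      rw [← hAs, ← htt]
      ring
    simp_rw [e3]
    rw [intervalIntegral.integral_const_mul,
      intervalIntegral.integral_comp_mul_sub (fun y => ee (-(y ^ 2) / 2)) (mul_pos hs ht).ne',
      Complex.real_smul]
    congr 3
    · rw [hρ]; field_simp; ring
    · rw [hρ]; field_simp; ring
  have b4 := fresnel (mul_pos hR ht)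
  rw [norm_J_split P A (T v) (v - ρ) (v + ρ)]
  set I1 := ∫ x in (0 : ℝ)..(v - ρ), ee (A * (T v * x - G x))
  set I2 := ∫ x in (v - ρ)..(v + ρ), ee (A * (T v * x - G x))
  set I3 := ∫ x in (v + ρ)..1, ee (A * (T v * x - G x))
  rw [e2] at b2
  set F := ∫ y in (-(R * t))..(R * t), ee (-(y ^ 2) / 2)
  have hsC : (s : ℂ) ≠ 0 := by exact_mod_cast hs.ne'
  have htC : (t : ℂ) ≠ 0 := by exact_mod_cast ht.ne'
  have e4 : (s : ℂ) * (I1 + I2 + I3) - ee (-1 / 8) * ((1 / t : ℝ) : ℂ) * ee (A * Φ)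
      = (s : ℂ) * I1 + (s : ℂ) * I3 + (s : ℂ) * (I2 - ee (A * Φ) * ((((s * t)⁻¹ : ℝ) : ℂ) * F))
        + ((1 / t : ℝ) : ℂ) * (ee (A * Φ) * (F - ee (-1 / 8))) := by
    push_cast
    field_simp
    ring
  have hns : ‖(s : ℂ)‖ = s := by rw [Complex.norm_real, Real.norm_of_nonneg hs.le]
  have hnt : ‖((1 / t : ℝ) : ℂ)‖ = 1 / t := by
    rw [Complex.norm_real, Real.norm_of_nonneg (by positivity)]
  rw [e4]
  have c1 : s * (1 / (A * (h * ρ))) = 1 / (h * R) := by
    rw [hρ, ← hAs]; field_simp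
  have c2 : s * (2 * Real.pi * (A * (κ * ρ ^ 2)) * (2 * ρ)) = 4 * Real.pi * κ * R ^ 3 := by
    rw [hρ, ← hAs]; field_simp; ring
  have c3 : 1 / t * (2 / (R * t)) ≤ 2 / (h * R) := by
    have : 1 / t * (2 / (R * t)) = 2 / (T1 v * R) := by
      rw [← htt]; field_simp
    rw [this]
    gcongr
  calc _ ≤ ‖(s : ℂ) * I1‖ + ‖(s : ℂ) * I3‖
        + ‖(s : ℂ) * (I2 - ee (A * Φ) * ((((s * t)⁻¹ : ℝ) : ℂ) * F))‖
        + ‖((1 / t : ℝ) : ℂ) * (ee (A * Φ) * (F - ee (-1 / 8)))‖ :=
        (norm_add_le _ _).trans (add_le_add_left ((norm_add_le _ _).trans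
          (add_le_add_left (norm_add_le _ _) _)) _)
    _ ≤ s * (1 / (A * (h * ρ))) + s * (1 / (A * (h * ρ)))
        + s * (2 * Real.pi * (A * (κ * ρ ^ 2)) * (2 * ρ)) + 1 / t * (2 / (R * t)) := by
        simp only [norm_mul, hns, hnt, norm_ee, one_mul]
        gcongr
    _ ≤ _ := by
        rw [c1, c2]
        have : 4 / (h * R) = 1 / (h * R) + 1 / (h * R) + 2 / (h * R) := by ring
        linarith

theorem stat_phase (P : IsProf G T T1 bot top h) (hh : 0 < h) {Θ ε : ℝ} (hΘ : 0 < Θ)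
    (hΘ0 : Θ < T1 0) (hΘ1 : Θ < T1 1) (hε : 0 < ε) :
    ∃ w Φ : ℝ → ℝ, (∀ u, w u = 0 ∨ ∃ v ∈ Icc (0 : ℝ) 1, T v = u ∧ w u = 1 / Real.sqrt (T1 v)) ∧
      ∃ A₀ : ℝ, ∀ A ≥ A₀, ∀ u : ℝ,
        ‖J G A u - ee (-1 / 8) * (w u : ℂ) * ee (A * Φ u)‖ ≤ ε + 8 / Real.sqrt Θ := by
  classical
  have cT : Continuous T := continuous_iff_continuousAt.mpr fun x => (P.hT x).continuousAt
  obtain ⟨d, hd, hd4, hT0, hT1⟩ : ∃ d : ℝ, 0 < d ∧ d ≤ 1 / 4 ∧ (∀ x ∈ Icc 0 (2 * d), Θ ≤ T1 x) ∧
      ∀ x ∈ Icc (1 - 2 * d) 1, Θ ≤ T1 x := by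
    obtain ⟨d0, hd0, h0⟩ := Metric.continuous_iff.mp P.cT1 0 (T1 0 - Θ) (by linarith)
    obtain ⟨d1, hd1, h1⟩ := Metric.continuous_iff.mp P.cT1 1 (T1 1 - Θ) (by linarith)
    refine ⟨min (1 / 4) (min d0 d1 / 4), by positivity, min_le_left _ _, fun x hx => ?_,
      fun x hx => ?_⟩
    · have e1 : min (1 / 4) (min d0 d1 / 4) ≤ min d0 d1 / 4 := min_le_right _ _
      have e2 := min_le_left d0 d1
      have := h0 x (by rw [Real.dist_eq, abs_lt]; constructor <;> linarith [hx.1, hx.2])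
      rw [Real.dist_eq, abs_lt] at this
      linarith [this.1]
    · have e1 : min (1 / 4) (min d0 d1 / 4) ≤ min d0 d1 / 4 := min_le_right _ _
      have e2 := min_le_right d0 d1
      have := h1 x (by rw [Real.dist_eq, abs_lt]; constructor <;> linarith [hx.1, hx.2])
      rw [Real.dist_eq, abs_lt] at this
      linarith [this.1]
  set R : ℝ := 8 / (h * ε) with hR
  have hR0 : 0 < R := by positivity
  have hpi := Real.pi_pos
  set κ : ℝ := ε / (8 * Real.pi * R ^ 3) with hκ
  have hκ0 : 0 < κ := by positivity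
  obtain ⟨δ, hδ, hδ'⟩ := Metric.uniformContinuousOn_iff_le.mp
    (isCompact_Icc.uniformContinuousOn_of_continuous (P.cT1.continuousOn (s := Icc (0 : ℝ) 1)))
    κ hκ0
  let V : ℝ → ℝ := fun u => if hu : ∃ v ∈ Icc d (1 - d), T v = u then hu.choose else 0
  refine ⟨fun u => if ∃ v ∈ Icc d (1 - d), T v = u then 1 / Real.sqrt (T1 (V u)) else 0,
    fun u => u * V u - G (V u), fun u => ?_, ?_⟩
  · by_cases hu : ∃ v ∈ Icc d (1 - d), T v = u
    · right
      have hV : V u = hu.choose := dif_pos hu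
      obtain ⟨hv, hTv⟩ := hu.choose_spec
      rw [← hV] at hv hTv
      exact ⟨V u, ⟨by linarith [hv.1], by linarith [hv.2]⟩, hTv, if_pos hu⟩
    · left; exact if_neg hu
  set m : ℝ := max (R / min d δ) (1 / (ε * (h * d))) with hm
  have hm0 : 0 < m := lt_max_of_lt_right (by positivity)
  refine ⟨m ^ 2, fun A hA u => ?_⟩
  have hA0 : 0 < A := lt_of_lt_of_le (by positivity) hA
  have hs : m ≤ Real.sqrt A := Real.le_sqrt_of_sq_le hA
  have hs0 : 0 < Real.sqrt A := hm0.trans_le hs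
  have hΘ8 : 0 < 8 / Real.sqrt Θ := by have := Real.sqrt_pos.mpr hΘ; positivity
  by_cases hu : ∃ v ∈ Icc d (1 - d), T v = u
  · have hV : V u = hu.choose := dif_pos hu
    obtain ⟨hv, hTv⟩ := hu.choose_spec
    rw [← hV] at hv hTv
    simp only [if_pos hu]
    have hρ : R / Real.sqrt A ≤ min d δ := by
      have h1 : R / min d δ ≤ Real.sqrt A := (le_max_left _ _).trans hs
      rw [div_le_iff₀ (by positivity)] at h1
      rw [div_le_iff₀ hs0]
      linarith
    have hρ1 := hρ.trans (min_le_left _ _)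
    have hρ2 := hρ.trans (min_le_right _ _)
    have key := J_main P hh hA0 hR0 hκ0.le (v := V u) (by linarith [hv.1]) (by linarith [hv.2])
      fun x hx => by
        have := hδ' x ⟨by linarith [hv.1, hx.1], by linarith [hv.2, hx.2]⟩ (V u)
          ⟨by linarith [hv.1], by linarith [hv.2]⟩
          (by rw [Real.dist_eq, abs_le]; constructor <;> linarith [hx.1, hx.2])
        rwa [Real.dist_eq] at this
    rw [hTv] at key
    refine key.trans ?_
    have c1 : 4 * Real.pi * κ * R ^ 3 = ε / 2 := by rw [hκ]; field_simp; ring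
    have c2 : 4 / (h * R) = ε / 2 := by rw [hR]; field_simp; ring
    linarith
  · simp only [if_neg hu, Complex.ofReal_zero, mul_zero, zero_mul, sub_zero]
    have hdd : d ≤ 1 - d := by linarith
    have hu' : u ∉ Icc (T d) (T (1 - d)) := fun hmem =>
      hu (intermediate_value_Icc hdd cT.continuousOn hmem)
    have key := J_else P hh (u := u) hA0 hd hd4 hΘ hT0 hT1 fun x hx => by
      have hx' : x ∈ Icc (0 : ℝ) 1 := ⟨by linarith [hx.1], by linarith [hx.2]⟩
      rw [mem_Icc, not_and_or, not_le, not_le] at hu'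
      rcases hu' with hu' | hu'
      · have := T_lower P (x := d) ⟨hd.le, by linarith⟩ hx' (by linarith [hx.1])
        refine le_trans ?_ (neg_le_abs _)
        nlinarith [hx.1]
      · have := T_lower P (y := 1 - d) hx' ⟨by linarith, by linarith⟩ (by linarith [hx.2])
        refine le_trans ?_ (le_abs_self _)
        nlinarith [hx.2]
    refine key.trans ?_
    have h1 : 1 / (ε * (h * d)) ≤ Real.sqrt A := (le_max_right _ _).trans hs
    have h2 : 1 / (Real.sqrt A * (h * d)) ≤ ε := by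
      rw [div_le_iff₀ (by positivity)] at h1 ⊢
      linarith
    linarith

end Prof

/-- T2b: profiles with uniform stationary phase. -/
theorem prof_exists (bot top s h d η : ℝ) (hh : 0 < h) (hd : 0 < d) (hη : 0 < η)
    (h1 : bot + d ≤ s) (h2 : s + h + d ≤ top) :
    ∃ G T T1 w Φ : ℝ → ℝ, IsProf G T T1 bot top h ∧
      (∀ u, 0 ≤ w u ∧ w u ≤ 1 / Real.sqrt h) ∧
      (∀ u, u ∉ Set.Icc (s - d) (s + h + d) → w u ≤ η) ∧
      ∃ A₀ : ℝ, ∀ A ≥ A₀, ∀ u : ℝ,
        ‖J G A u - ee (-1 / 8) * (w u : ℂ) * ee (A * Φ u)‖ ≤ η := by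
  obtain ⟨n, hn⟩ := exists_nat_ge ((16 / η) ^ 2 / d)
  set p := top - s - h with hp
  set q := s - bot with hq
  have hpd : d ≤ p := by linarith
  have hqd : d ≤ q := by linarith
  set Θ : ℝ := d * (n + 1) with hΘ
  have hΘ0 : 0 < Θ := by positivity
  have hΘ1 : 16 / η ≤ Real.sqrt Θ := by
    apply Real.le_sqrt_of_sq_le
    rw [div_le_iff₀ hd] at hn
    nlinarith
  have hΘs : 0 < Real.sqrt Θ := Real.sqrt_pos.mpr hΘ0
  have hΘ2 : 8 / Real.sqrt Θ ≤ η / 2 := by
    rw [div_le_iff₀ hη] at hΘ1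
    rw [div_le_iff₀ hΘs]
    linarith
  let G : ℝ → ℝ := fun v => s * v + h * v ^ 2 / 2 + p * v ^ (n + 2) / (n + 2)
    + q * ((1 - v) ^ (n + 2) - 1) / (n + 2)
  let T : ℝ → ℝ := fun v => s + h * v + p * v ^ (n + 1) - q * (1 - v) ^ (n + 1)
  let T1 : ℝ → ℝ := fun v => h + p * ((n + 1) * v ^ n) + q * ((n + 1) * (1 - v) ^ n)
  have hn2 : (n : ℝ) + 2 ≠ 0 := by positivity
  have hlow : ∀ v ∈ Icc (0 : ℝ) 1, 0 ≤ p * ((n + 1) * v ^ n) ∧ 0 ≤ q * ((n + 1) * (1 - v) ^ n) := by
    intro v hv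
    have h3 := hv.1
    have h4 : 0 ≤ 1 - v := by linarith [hv.2]
    have h5 : 0 ≤ p := by linarith
    have h6 : 0 ≤ q := by linarith
    constructor <;> positivity
  have P : IsProf G T T1 bot top h :=
    { hG := fun v => by
        have := (((((hasDerivAt_id v).const_mul s).add
          (((hasDerivAt_pow 2 v).const_mul h).div_const 2)).add
          (((hasDerivAt_pow (n + 2) v).const_mul p).div_const (n + 2))).add
          ((((((hasDerivAt_id v).const_sub 1).pow (n + 2)).sub_const 1).const_mul q).div_const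
            (n + 2)))
        refine HasDerivAt.congr_deriv this ?_
        simp only [T, id]
        push_cast
        simp only [pow_one]
        field_simp
        ring
      hT := fun v => by
        have := ((((hasDerivAt_id v).const_mul h).const_add s).add
          ((hasDerivAt_pow (n + 1) v).const_mul p)).sub
          ((((hasDerivAt_id v).const_sub 1).pow (n + 1)).const_mul q)
        refine HasDerivAt.congr_deriv this ?_
        simp only [T1, id]
        push_cast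
        ring
      cT1 := by fun_prop
      G0 := by simp [G]
      T0 := by simp [T, hq]
      Tone := by simp [T, hp]
      lower := fun v hv => by
        have := hlow v hv
        simp only [T1]
        linarith [this.1, this.2] }
  have hn1 : (0 : ℝ) < n + 1 := by positivity
  obtain ⟨w, Φ, hw, A₀, hA⟩ := Prof.stat_phase P hh hΘ0 (ε := η / 2)
    (by
      have := (hlow 0 ⟨le_rfl, zero_le_one⟩).1
      simp only [T1, sub_zero, one_pow, mul_one]
      nlinarith)
    (by
      have := (hlow 1 ⟨zero_le_one, le_rfl⟩).2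
      simp only [T1, one_pow, mul_one]
      nlinarith)
    (by positivity)
  refine ⟨G, T, T1, w, Φ, P, fun u => ?_, fun u hu => ?_, A₀, fun A hA' u => ?_⟩
  · rcases hw u with e | ⟨v, hv, -, e⟩
    · rw [e]; exact ⟨le_rfl, by positivity⟩
    · rw [e]
      refine ⟨by positivity, one_div_le_one_div_of_le (Real.sqrt_pos.mpr hh) ?_⟩
      exact Real.sqrt_le_sqrt (P.lower v hv)
  · rcases hw u with e | ⟨v, hv, hTv, e⟩
    · rw [e]; exact hη.le
    · have h3 := hv.1
      have h4 : 0 ≤ 1 - v := by linarith [hv.2]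
      have h5 : 0 ≤ p := by linarith
      have h6 : 0 ≤ q := by linarith
      have hl := hlow v hv
      have key : Θ ≤ T1 v := by
        rw [mem_Icc, not_and_or, not_le, not_le, ← hTv] at hu
        simp only [T, T1] at hu ⊢
        have a1 : 0 ≤ p * v ^ (n + 1) := by positivity
        have a2 : 0 ≤ q * (1 - v) ^ (n + 1) := by positivity
        have a3 : p * v ^ (n + 1) ≤ p * v ^ n :=
          mul_le_mul_of_nonneg_left (pow_le_pow_of_le_one h3 hv.2 (Nat.le_succ n)) h5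
        have a4 : q * (1 - v) ^ (n + 1) ≤ q * (1 - v) ^ n :=
          mul_le_mul_of_nonneg_left (pow_le_pow_of_le_one h4 (by linarith) (Nat.le_succ n)) h6
        have a5 : 0 ≤ h * v := by positivity
        have a6 : h * v ≤ h := mul_le_of_le_one_right hh.le hv.2
        rcases hu with hu | hu
        · have : d ≤ q * (1 - v) ^ n := by linarith
          nlinarith [hl.1]
        · have : d ≤ p * v ^ n := by linarith
          nlinarith [hl.2]
      rw [e]
      have a7 : 1 / Real.sqrt (T1 v) ≤ 1 / Real.sqrt Θ :=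
        one_div_le_one_div_of_le hΘs (Real.sqrt_le_sqrt key)
      have a8 : 8 / Real.sqrt Θ = 8 * (1 / Real.sqrt Θ) := by ring
      have a9 : 0 < 1 / Real.sqrt Θ := by positivity
      linarith
  · linarith [hA A hA' u]

end Crest.Agent.R75
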