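import Crest.Agent.R75.InnerOneCore
import Crest.Agent.R75.Prof

/-! T3: flat chirp sums concentrated on one cell. -/

set_option autoImplicit false

namespace Crest.Agent.R75

open Finset

theorem inner_one (L : ℕ) (hL : 4 ≤ L) (h η : ℝ) (hh : 0 < h) (hh1 : h < 1) (hη : 0 < η) :
    ∃ (cell : ℝ → ZMod L) (w Φ : ℝ → ℝ) (γ : ℕ → ℕ → ℝ) (A₀ : ℕ),
      (∀ y, 0 ≤ w y ∧ w y ≤ 1 / Real.sqrt h) ∧
      ∀ A ≥ A₀, ∀ (y : ℝ) (r : ZMod L),
        ‖((1 / (L * Real.sqrt A) : ℝ) : ℂ) *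
            ∑ m ∈ range (A * L), ee (γ A m + m * (y - (r.val : ℝ) / L))
          - (if cell y = r then (w y : ℂ) * ee (A * Φ y) else 0)‖ ≤ η :=
  InnerOne.inner_one_of L hL h η hh hh1 hη
    (prof_exists 0 1 (2 * ((1 - h) / 4)) h ((1 - h) / 4) (η / 3) hh (by linarith) (by linarith)
      (by linarith) (by linarith))

end Crest.Agent.R75
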