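import Crest.Agent.R75.BlockAux
import Crest.Agent.R75.InnerOne

/-! One block of `k` torus dimensions. -/

set_option autoImplicit false

namespace Crest.Agent.R75

open Finset

theorem block (l k a : ℕ) (hl : l.Prime) (hl4 : 4 ≤ l) (hk : 1 ≤ k) (ha : a ∣ l - 1)
    (h η : ℝ) (hh : 0 < h) (hh1 : h < 1) (hη : 0 < η) :
    ∃ M₀ : ℕ, ∀ M ≥ M₀, ∃ (supp : ℕ → Finset (Fin k → ℤ)) (ψ : ℕ → (Fin k → ℤ) → ℝ),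
      (∀ n : ℕ, 1 ≤ n → ((supp n).card : ℝ)
        = ((n : ℝ) * M) ^ k * (if a ∣ n then 1 else (l : ℝ) ^ k - 1)) ∧
      (∀ n : ℕ, ∀ m ∈ supp n, (a ∣ n ↔ ∀ i, (l : ℤ) ∣ m i)) ∧
      ∀ y : Fin k → ℝ, ∃ c : ℕ → ℂ, Contr c ∧ (∀ n, ‖c n‖ ≤ 1) ∧ ∀ n : ℕ, 1 ≤ n →
        ‖((1 / Real.sqrt (((n : ℝ) * M) ^ k * (if a ∣ n then 1 else (l : ℝ) ^ k)) : ℝ) : ℂ) *
            ∑ m ∈ supp n, ee (ψ n m + ∑ i, (m i : ℝ) * y i)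
          - (((1 / Real.sqrt h) ^ k : ℝ) : ℂ) * c n‖ ≤ η :=
  block_of_inner_one inner_one l k a hl hl4 hk ha h η hh hh1 hη

end Crest.Agent.R75
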