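import Crest.Agent.R75.Gadget

/-! One block of torus dimensions, assuming the one-dimensional chirp sums. -/

set_option autoImplicit false

namespace Crest.Agent.R75

open Finset

namespace Block

lemma exists_polar (z : ℂ) : ∃ t : ℝ, z = (‖z‖ : ℂ) * ee t := by
  refine ⟨Complex.arg z / (2 * Real.pi), ?_⟩
  rw [ee_eq, mul_div_cancel₀ _ (by positivity : (2 * Real.pi) ≠ 0)]
  exact (Complex.norm_mul_exp_arg_mul_I z).symm

/-- The integers in `[0, N)`. -/
def seg (N : ℕ) : Finset ℤ := (range N).map Nat.castEmbedding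

lemma card_seg (N : ℕ) : (seg N).card = N := by simp [seg]

lemma card_seg_dvd (A l : ℕ) (hl : 0 < l) : ((seg (A * l)).filter fun m => (l : ℤ) ∣ m).card = A := by
  have : ((seg (A * l)).filter fun m => (l : ℤ) ∣ m) =
      (range A).map ⟨fun j : ℕ => ((l * j : ℕ) : ℤ), fun i j h => by
        have h' : l * i = l * j := Nat.cast_injective (R := ℤ) h
        exact Nat.eq_of_mul_eq_mul_left hl h'⟩ := by
    ext m
    simp only [seg, mem_filter, mem_map, mem_range, Nat.castEmbedding_apply,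
      Function.Embedding.coeFn_mk]
    constructor
    · rintro ⟨⟨j, hj, rfl⟩, hd⟩
      obtain ⟨c, rfl⟩ := Int.natCast_dvd_natCast.mp hd
      refine ⟨c, ?_, rfl⟩
      rw [mul_comm A] at hj
      exact Nat.lt_of_mul_lt_mul_left hj
    · rintro ⟨j, hj, rfl⟩
      refine ⟨⟨l * j, ?_, rfl⟩, by push_cast; exact dvd_mul_right _ _⟩
      rw [mul_comm A]
      exact Nat.mul_lt_mul_of_pos_left hj hl
  rw [this, card_map, card_range]

lemma ee_red (l : ℕ) [NeZero l] (m : ℤ) (r : ZMod l) :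
    ee (-(((m : ZMod l).val : ℝ) * (r.val : ℝ) / l)) = ee (-((m : ℝ) * ((r.val : ℝ) / l))) := by
  have hl : (l : ℝ) ≠ 0 := by exact_mod_cast NeZero.ne l
  have h1 : (((m : ZMod l).val : ℤ) : ℝ) = ((m % l : ℤ) : ℝ) := by rw [ZMod.val_intCast]
  have h2 : ((m % l : ℤ) : ℝ) = m - l * ((m / l : ℤ) : ℝ) := by
    rw [Int.emod_def]; push_cast; ring
  rw [Int.cast_natCast, h2] at h1
  rw [h1, ← ee_add_int (-((m : ℝ) * ((r.val : ℝ) / l))) (m / l * r.val)]
  congr 1
  rw [Int.cast_mul, Int.cast_natCast]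
  field_simp
  ring

end Block

open Block in
theorem block_of_inner_one
    (inner_one : ∀ (L : ℕ) (_ : 4 ≤ L) (h η : ℝ) (_ : 0 < h) (_ : h < 1) (_ : 0 < η),
      ∃ (cell : ℝ → ZMod L) (w Φ : ℝ → ℝ) (γ : ℕ → ℕ → ℝ) (A₀ : ℕ),
      (∀ y, 0 ≤ w y ∧ w y ≤ 1 / Real.sqrt h) ∧
      ∀ A ≥ A₀, ∀ (y : ℝ) (r : ZMod L),
        ‖((1 / (L * Real.sqrt A) : ℝ) : ℂ) *
            ∑ m ∈ range (A * L), ee (γ A m + m * (y - (r.val : ℝ) / L))
          - (if cell y = r then (w y : ℂ) * ee (A * Φ y) else 0)‖ ≤ η)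
    (l k a : ℕ) (hl : l.Prime) (hl4 : 4 ≤ l) (hk : 1 ≤ k) (ha : a ∣ l - 1)
    (h η : ℝ) (hh : 0 < h) (hh1 : h < 1) (hη : 0 < η) :
    ∃ M₀ : ℕ, ∀ M ≥ M₀, ∃ (supp : ℕ → Finset (Fin k → ℤ)) (ψ : ℕ → (Fin k → ℤ) → ℝ),
      (∀ n : ℕ, 1 ≤ n → ((supp n).card : ℝ)
        = ((n : ℝ) * M) ^ k * (if a ∣ n then 1 else (l : ℝ) ^ k - 1)) ∧
      (∀ n : ℕ, ∀ m ∈ supp n, (a ∣ n ↔ ∀ i, (l : ℤ) ∣ m i)) ∧
      ∀ y : Fin k → ℝ, ∃ c : ℕ → ℂ, Contr c ∧ (∀ n, ‖c n‖ ≤ 1) ∧ ∀ n : ℕ, 1 ≤ n →
        ‖((1 / Real.sqrt (((n : ℝ) * M) ^ k * (if a ∣ n then 1 else (l : ℝ) ^ k)) : ℝ) : ℂ) *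
            ∑ m ∈ supp n, ee (ψ n m + ∑ i, (m i : ℝ) * y i)
          - (((1 / Real.sqrt h) ^ k : ℝ) : ℂ) * c n‖ ≤ η := by
  classical
  have : Fact l.Prime := ⟨hl⟩
  have hl0 : (0 : ℝ) < l := by exact_mod_cast hl.pos
  have hsh : 0 < Real.sqrt h := Real.sqrt_pos.mpr hh
  obtain ⟨c, hc1, hc2, hc3⟩ := gauss_gadget l k a hk ha
  obtain ⟨η', hη', hprod⟩ := prod_approx k (1 / Real.sqrt h) (η / (l : ℝ) ^ k) (by positivity)
  obtain ⟨cell, w, Φ, γ, A₀, hw, hin⟩ := inner_one l hl4 h η' hh hh1 hη'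
  refine ⟨max A₀ 1, fun M hM => ?_⟩
  have hM1 : 1 ≤ M := le_trans (le_max_right _ _) hM
  have hMA : A₀ ≤ M := le_trans (le_max_left _ _) hM
  let G : ℕ → (Fin k → ℤ) → ℂ := fun n m => ∑ r : Fin k → ZMod l,
    c r n * ee (-∑ i, (((m i : ZMod l)).val : ℝ) * ((r i).val : ℝ) / l)
  choose t ht using fun n m => exists_polar (G n m)
  let box : ℕ → Finset (Fin k → ℤ) := fun n => Fintype.piFinset fun _ => seg (n * M * l)
  have hred : ∀ m : Fin k → ℤ, (fun i => (m i : ZMod l)) = 0 ↔ ∀ i, (l : ℤ) ∣ m i := fun m => by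
    simp only [funext_iff, Pi.zero_apply, ZMod.intCast_zmod_eq_zero_iff_dvd]
  have hG : ∀ n m, ‖G n m‖ = if (a ∣ n ↔ ∀ i, (l : ℤ) ∣ m i) then
      (if a ∣ n then (l : ℝ) ^ k else Real.sqrt ((l : ℝ) ^ k)) else 0 := by
    intro n m
    have h1 := hc3 n (fun i => (m i : ZMod l))
    simp only [hred] at h1
    rw [← Real.sqrt_sq (norm_nonneg (G n m))]
    simp only [G]
    rw [h1]
    by_cases h2 : a ∣ n <;> by_cases h3 : ∀ i, (l : ℤ) ∣ m i <;> simp [h2, h3]
  refine ⟨fun n => (box n).filter fun m => (a ∣ n ↔ ∀ i, (l : ℤ) ∣ m i),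
    fun n m => t n m + ∑ i, γ (n * M) (m i).toNat, fun n hn => ?_,
    fun n m hm => (mem_filter.mp hm).2, fun y => ?_⟩
  · have e1 : ((box n).filter fun m => ∀ i, (l : ℤ) ∣ m i).card = (n * M) ^ k := by
      have : ((box n).filter fun m => ∀ i, (l : ℤ) ∣ m i) =
          Fintype.piFinset fun _ : Fin k => (seg (n * M * l)).filter fun m => (l : ℤ) ∣ m := by
        ext m; simp [box, forall_and]
      rw [this, Fintype.card_piFinset]
      simp [card_seg_dvd _ _ hl.pos]
    have e2 : (box n).card = (n * M * l) ^ k := by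
      simp [box, Fintype.card_piFinset, card_seg]
    by_cases h2 : a ∣ n
    · simp only [h2, true_iff, if_true, e1]; push_cast; ring
    · simp only [h2, false_iff, if_false]
      have e3 := Finset.card_filter_add_card_filter_not (s := box n) (fun m => ∀ i, (l : ℤ) ∣ m i)
      rw [e1, e2] at e3
      have e4 : (((n * M) ^ k + ((box n).filter fun m => ¬ ∀ i, (l : ℤ) ∣ m i).card : ℕ) : ℝ) =
          (((n * M * l) ^ k : ℕ) : ℝ) := by rw [e3]
      push_cast at e4
      rw [mul_pow (n * M : ℝ)] at e4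
      linarith
  · have hW0 : 0 ≤ (∏ i, w (y i)) * Real.sqrt h ^ k :=
      mul_nonneg (prod_nonneg fun i _ => (hw _).1) (by positivity)
    have hW1 : (∏ i, w (y i)) * Real.sqrt h ^ k ≤ 1 := by
      have : (∏ i, w (y i)) * Real.sqrt h ^ k = ∏ i, (w (y i) * Real.sqrt h) := by
        rw [prod_mul_distrib]; simp
      rw [this]
      refine prod_le_one (fun i _ => mul_nonneg (hw _).1 hsh.le) fun i _ => ?_
      exact (le_div_iff₀ hsh).mp (hw _).2
    refine ⟨fun n => c (fun i => cell (y i)) n * (((∏ i, w (y i)) * Real.sqrt h ^ k : ℝ) : ℂ) *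
      ee (n * (M * ∑ i, Φ (y i))), ((hc1 _).mul (contr_const hW0 hW1)).mul (contr_shift _),
      fun n => ?_, fun n hn => ?_⟩
    · rw [norm_mul, norm_mul, norm_ee, mul_one, Complex.norm_real, Real.norm_eq_abs,
        abs_of_nonneg hW0]
      exact mul_le_one₀ (hc2 _ _) hW0 hW1
    · have hA : A₀ ≤ n * M := le_trans hMA (Nat.le_mul_of_pos_left M hn)
      have hA0 : (0 : ℝ) < (n : ℝ) * M := by
        have : (0 : ℝ) < n := by exact_mod_cast hn
        have : (0 : ℝ) < M := by exact_mod_cast hM1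
        positivity
      let U : (Fin k → ZMod l) → Fin k → ℂ := fun r i =>
        ((1 / (l * Real.sqrt ((n * M : ℕ) : ℝ)) : ℝ) : ℂ) *
          ∑ m ∈ range (n * M * l), ee (γ (n * M) m + m * (y i - ((r i).val : ℝ) / l))
      let V : (Fin k → ZMod l) → Fin k → ℂ := fun r i =>
        if cell (y i) = r i then (w (y i) : ℂ) * ee (((n * M : ℕ) : ℝ) * Φ (y i)) else 0
      have hUV : ∀ r, ‖∏ i, U r i - ∏ i, V r i‖ ≤ η / (l : ℝ) ^ k := fun r => by
        refine hprod (Fin k) univ (U r) (V r) (by simp) (fun i _ => ?_) fun i _ => hin _ hA _ _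
        simp only [V]
        split_ifs
        · rw [norm_mul, norm_ee, mul_one, Complex.norm_real, Real.norm_eq_abs,
            abs_of_nonneg (hw _).1]
          exact (hw _).2
        · rw [norm_zero]; positivity
      set K : ℝ := if a ∣ n then (l : ℝ) ^ k else Real.sqrt ((l : ℝ) ^ k) with hK
      have hK0 : 0 < K := by rw [hK]; split_ifs <;> positivity
      have hnorm : 1 / Real.sqrt (((n : ℝ) * M) ^ k * (if a ∣ n then 1 else (l : ℝ) ^ k)) =
          (1 / (l * Real.sqrt ((n * M : ℕ) : ℝ))) ^ k * K := by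
        have e1 : Real.sqrt (((n : ℝ) * M) ^ k) = Real.sqrt ((n : ℝ) * M) ^ k := by
          rw [Real.sqrt_eq_iff_mul_self_eq (by positivity) (by positivity), ← mul_pow,
            Real.mul_self_sqrt hA0.le]
        have e2 : 0 < Real.sqrt ((n : ℝ) * M) := Real.sqrt_pos.mpr hA0
        have e3 := Real.mul_self_sqrt (by positivity : (0 : ℝ) ≤ (l : ℝ) ^ k)
        have e4 : 0 < Real.sqrt ((l : ℝ) ^ k) := Real.sqrt_pos.mpr (by positivity)
        rw [Real.sqrt_mul (by positivity), e1, hK, div_pow, mul_pow, one_pow]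
        push_cast
        split_ifs
        · rw [Real.sqrt_one]; field_simp
        · field_simp
          rw [sq, e3]
      have hsum : (K : ℂ) * ∑ m ∈ (box n).filter fun m => (a ∣ n ↔ ∀ i, (l : ℤ) ∣ m i),
          ee (t n m + ∑ i, γ (n * M) (m i).toNat + ∑ i, (m i : ℝ) * y i) =
          ∑ m ∈ box n, G n m * ee (∑ i, γ (n * M) (m i).toNat + ∑ i, (m i : ℝ) * y i) := by
        rw [sum_filter, Finset.mul_sum]
        refine sum_congr rfl fun m _ => ?_
        rw [ht n m, hG, ← hK, add_assoc, ee_add]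
        by_cases hc : (a ∣ n ↔ ∀ i, (l : ℤ) ∣ m i)
        · rw [if_pos hc, if_pos hc, mul_assoc]
        · rw [if_neg hc, if_neg hc]; simp
      have hfac : ∀ r : Fin k → ZMod l, ∑ m ∈ box n,
          ee (-∑ i, (((m i : ZMod l)).val : ℝ) * ((r i).val : ℝ) / l) *
            ee (∑ i, γ (n * M) (m i).toNat + ∑ i, (m i : ℝ) * y i) =
          ∏ i, ∑ m ∈ range (n * M * l), ee (γ (n * M) m + m * (y i - ((r i).val : ℝ) / l)) := by
        intro r
        have e1 : ∀ i, ∑ m ∈ range (n * M * l), ee (γ (n * M) m + m * (y i - ((r i).val : ℝ) / l)) =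
            ∑ m ∈ seg (n * M * l), ee (γ (n * M) m.toNat + (m : ℝ) * (y i - ((r i).val : ℝ) / l)) := by
          intro i
          simp [seg, sum_map]
        simp only [e1]
        rw [Finset.prod_univ_sum]
        refine sum_congr rfl fun m _ => ?_
        rw [← sum_neg_distrib, ← sum_add_distrib, ee_sum, ee_sum, ← prod_mul_distrib]
        refine prod_congr rfl fun i _ => ?_
        rw [ee_red, ← ee_add]
        congr 1
        ring
      have hL : ((1 / Real.sqrt (((n : ℝ) * M) ^ k * (if a ∣ n then 1 else (l : ℝ) ^ k)) : ℝ) : ℂ) *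
          ∑ m ∈ (box n).filter fun m => (a ∣ n ↔ ∀ i, (l : ℤ) ∣ m i),
            ee (t n m + ∑ i, γ (n * M) (m i).toNat + ∑ i, (m i : ℝ) * y i) =
          ∑ r, c r n * ∏ i, U r i := by
        rw [hnorm, Complex.ofReal_mul, mul_assoc, hsum]
        simp only [G, Finset.sum_mul, U, prod_mul_distrib, ← hfac]
        rw [sum_comm, Finset.mul_sum]
        refine sum_congr rfl fun r _ => ?_
        rw [prod_const, card_univ, Fintype.card_fin, Complex.ofReal_pow, Finset.mul_sum,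
          Finset.mul_sum, Finset.mul_sum]
        exact sum_congr rfl fun m _ => by ring
      have hR : (((1 / Real.sqrt h) ^ k : ℝ) : ℂ) * (c (fun i => cell (y i)) n *
          (((∏ i, w (y i)) * Real.sqrt h ^ k : ℝ) : ℂ) * ee (n * (M * ∑ i, Φ (y i)))) =
          ∑ r, c r n * ∏ i, V r i := by
        rw [Finset.sum_eq_single (fun i => cell (y i))]
        · simp only [V, if_true, prod_mul_distrib, ← ee_sum, ← Finset.mul_sum]
          have e1 : (((1 / Real.sqrt h) ^ k : ℝ) : ℂ) * ((Real.sqrt h ^ k : ℝ) : ℂ) = 1 := by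
            rw [← Complex.ofReal_mul, ← mul_pow, one_div_mul_cancel hsh.ne']; simp
          rw [Complex.ofReal_mul, Complex.ofReal_prod, Nat.cast_mul, mul_assoc (n : ℝ)]
          linear_combination (c (fun i => cell (y i)) n * (∏ i, (w (y i) : ℂ)) *
            ee (n * (M * ∑ i, Φ (y i)))) * e1
        · intro r _ hr
          obtain ⟨i, hi⟩ := Function.ne_iff.mp hr
          rw [Finset.prod_eq_zero (mem_univ i) (by simp [V, Ne.symm hi]), mul_zero]
        · simp
      rw [hL, hR, ← sum_sub_distrib]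
      refine (norm_sum_le _ _).trans ?_
      calc ∑ r, ‖c r n * ∏ i, U r i - c r n * ∏ i, V r i‖ ≤ ∑ _r : Fin k → ZMod l, η / (l : ℝ) ^ k := by
            refine sum_le_sum fun r _ => ?_
            rw [← mul_sub, norm_mul]
            exact (mul_le_of_le_one_left (norm_nonneg _) (hc2 _ _)).trans (hUV r)
        _ = η := by
            rw [sum_const, card_univ, Fintype.card_fun, ZMod.card, Fintype.card_fin, nsmul_eq_mul]
            push_cast
            field_simp

end Crest.Agent.R75
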