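import Crest.Agent.R75.Basic

/-! Approximately equivariant colouring of `ZMod q` by random argmax frames. -/

set_option autoImplicit false

namespace Crest.Agent.R75

open Finset

namespace Coloring

/-- For a uniformly random permutation the strict maximiser is uniform. -/
theorem count_perm {β : Type} [DecidableEq β] {q : ℕ} (B I : Finset β) (hI : I ⊆ B)
    (hB : B.Nonempty) (p : β → Fin q) (hp : Set.InjOn p B) :
    I.card * Fintype.card (Equiv.Perm (Fin q)) ≤ B.card *
      (univ.filter fun π : Equiv.Perm (Fin q) =>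
        ∃ a ∈ I, ∀ b ∈ B, b ≠ a → π (p b) < π (p a)).card := by
  classical
  let S : β → Finset (Equiv.Perm (Fin q)) := fun a =>
    univ.filter fun π => ∀ b ∈ B, b ≠ a → π (p b) < π (p a)
  have hle : ∀ a ∈ B, ∀ a' ∈ B, (S a).card ≤ (S a').card := by
    intro a ha a' ha'
    refine Finset.card_le_card_of_injOn (fun π => π * Equiv.swap (p a) (p a')) ?_ ?_
    · intro π hπ
      simp only [S, coe_filter, mem_univ, true_and, Set.mem_ofPred_eq] at hπ ⊢
      intro b hb hba
      simp only [Equiv.Perm.mul_apply, Equiv.swap_apply_right]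
      by_cases h : b = a
      · subst h
        rw [Equiv.swap_apply_left]
        exact hπ a' ha' (Ne.symm hba)
      · rw [Equiv.swap_apply_of_ne_of_ne (fun e => h (hp hb ha e)) (fun e => hba (hp hb ha' e))]
        exact hπ b hb h
    · intro π _ π' _ h
      exact mul_right_cancel h
  obtain ⟨a₀, ha₀⟩ := hB
  have heq : ∀ a ∈ B, (S a).card = (S a₀).card := fun a ha =>
    le_antisymm (hle a ha a₀ ha₀) (hle a₀ ha₀ a ha)
  have hcover : (univ : Finset (Equiv.Perm (Fin q))) ⊆ B.biUnion S := by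
    intro π _
    obtain ⟨a, ha, hmax⟩ := B.exists_max_image (fun b => π (p b)) ⟨a₀, ha₀⟩
    refine mem_biUnion.2 ⟨a, ha, ?_⟩
    simp only [S, mem_filter, mem_univ, true_and]
    intro b hb hba
    exact lt_of_le_of_ne (hmax b hb) fun e => hba (hp hb ha (π.injective e))
  have h1 : Fintype.card (Equiv.Perm (Fin q)) ≤ B.card * (S a₀).card := by
    calc Fintype.card (Equiv.Perm (Fin q)) ≤ (B.biUnion S).card := card_le_card hcover
      _ ≤ ∑ a ∈ B, (S a).card := card_biUnion_le
      _ = B.card * (S a₀).card := by rw [sum_congr rfl heq, sum_const, smul_eq_mul]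
  have h2 : (univ.filter fun π : Equiv.Perm (Fin q) =>
      ∃ a ∈ I, ∀ b ∈ B, b ≠ a → π (p b) < π (p a)) = I.biUnion S := by
    ext π
    simp [S]
  have h3 : (I.biUnion S).card = I.card * (S a₀).card := by
    rw [card_biUnion, sum_congr rfl fun a ha => heq a (hI ha), sum_const, smul_eq_mul]
    intro a ha a' ha' hne
    rw [Function.onFun, Finset.disjoint_left]
    intro π h h'
    simp only [S, mem_filter, mem_univ, true_and] at h h'
    exact lt_asymm (h a' (hI ha') (Ne.symm hne)) (h' a (hI ha) hne)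
  rw [h2, h3]
  calc I.card * Fintype.card (Equiv.Perm (Fin q)) ≤ I.card * (B.card * (S a₀).card) :=
        Nat.mul_le_mul_left _ h1
    _ = B.card * (I.card * (S a₀).card) := by ring

/-- Averaging: one permutation works for a large fraction of the parameters. -/
theorem exists_perm {β G : Type} [DecidableEq β] {q : ℕ} (B I : Finset β) (hI : I ⊆ B)
    (hB : B.Nonempty) (T : Finset G) (p : G → β → Fin q) (hp : ∀ g ∈ T, Set.InjOn (p g) B) :
    ∃ (π : Equiv.Perm (Fin q)) (T' : Finset G), T' ⊆ T ∧ I.card * T.card ≤ B.card * T'.card ∧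
      ∀ g ∈ T', ∃ a ∈ I, ∀ b ∈ B, b ≠ a → π (p g b) < π (p g a) := by
  classical
  let r : G → Equiv.Perm (Fin q) → Prop := fun g π =>
    ∃ a ∈ I, ∀ b ∈ B, b ≠ a → π (p g b) < π (p g a)
  have h1 : ∑ _π : Equiv.Perm (Fin q), I.card * T.card ≤
      ∑ π : Equiv.Perm (Fin q), B.card * (T.filter fun g => r g π).card := by
    rw [← mul_sum univ (fun π => (T.filter fun g => r g π).card)]
    have : ∑ π : Equiv.Perm (Fin q), (T.filter fun g => r g π).card =
        ∑ g ∈ T, (univ.filter fun π => r g π).card := by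
      simp only [card_filter]
      exact sum_comm
    rw [this, mul_sum]
    calc ∑ _π : Equiv.Perm (Fin q), I.card * T.card
        = ∑ _g ∈ T, I.card * Fintype.card (Equiv.Perm (Fin q)) := by
          simp only [sum_const, card_univ, smul_eq_mul]; ring
      _ ≤ _ := sum_le_sum fun g hg => by
          convert count_perm B I hI hB (p g) (hp g hg)
  obtain ⟨π, -, hπ⟩ := exists_le_of_sum_le univ_nonempty h1
  exact ⟨π, _, filter_subset _ _, hπ, fun g hg => (mem_filter.1 hg).2⟩

/-- The cell of a residue. -/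
def cell {q : ℕ} [NeZero q] (b : ℕ) (x : ZMod q) : Fin q :=
  ⟨x.val / b, lt_of_le_of_lt (Nat.div_le_self _ _) (ZMod.val_lt x)⟩

theorem exists_of_cell_eq {q : ℕ} [NeZero q] {b : ℕ} (hb : 0 < b) {x y : ZMod q}
    (h : cell b x = cell b y) : ∃ d ∈ Icc (-(b : ℤ)) b, x - y = (d : ZMod q) := by
  have h1 : x.val / b = y.val / b := congrArg Fin.val h
  refine ⟨(x.val : ℤ) - y.val, ?_, by simp⟩
  have e1 := Nat.div_add_mod x.val b
  have e2 := Nat.div_add_mod y.val b
  have e3 := Nat.mod_lt x.val hb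
  have e4 := Nat.mod_lt y.val hb
  rw [h1] at e1
  rw [mem_Icc]
  generalize b * (y.val / b) = t at e1 e2
  omega

theorem exists_of_cell_ne {q : ℕ} [NeZero q] {b V : ℕ} (hb : 0 < b) {x : ZMod q} {j : ℤ}
    (hj : |j| ≤ V) (h : cell b (x + (j : ZMod q)) ≠ cell b x) :
    ∃ kr ∈ range (q / b + 2) ×ˢ Icc (-(V : ℤ)) V, x = ((kr.1 * b + kr.2 : ℤ) : ZMod q) := by
  have e1 := Nat.div_add_mod x.val b
  have e3 := Nat.mod_lt x.val hb
  have hx := ZMod.val_lt x
  have hk : x.val / b ≤ q / b := Nat.div_le_div_right hx.le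
  rw [abs_le] at hj
  by_cases h1 : x.val % b < V
  · refine ⟨(x.val / b, (x.val % b : ℕ)), ?_, ?_⟩
    · simp only [mem_product, mem_range, mem_Icc]; omega
    · have : ((x.val / b : ℕ) * b + (x.val % b : ℕ) : ℤ) = (x.val : ℤ) := by
        rw [mul_comm]; exact_mod_cast e1
      simp only [this]; simp
  by_cases h2 : b ≤ x.val % b + V
  · refine ⟨(x.val / b + 1, (x.val % b : ℕ) - b), ?_, ?_⟩
    · simp only [mem_product, mem_range, mem_Icc]; omega
    · have : (((x.val / b + 1 : ℕ)) * b + ((x.val % b : ℕ) - b) : ℤ) = (x.val : ℤ) := by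
        have : ((b * (x.val / b) + x.val % b : ℕ) : ℤ) = x.val := by rw [e1]
        push_cast at this ⊢
        linarith
      simp only [this]; simp
  by_cases h3 : q ≤ x.val + V
  · refine ⟨(0, (x.val : ℤ) - q), ?_, ?_⟩
    · simp only [mem_product, mem_range, mem_Icc]
      exact ⟨Nat.succ_pos _, by omega⟩
    · simp
  exfalso
  apply h
  have hle : x.val % b ≤ x.val := Nat.mod_le _ _
  obtain ⟨n, hn⟩ : ∃ n : ℕ, (n : ℤ) = x.val + j := ⟨(x.val + j).toNat, by omega⟩
  have hxj : x + j = (n : ZMod q) := by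
    have : ((n : ℤ) : ZMod q) = ((x.val + j : ℤ) : ZMod q) := by rw [hn]
    simpa using this.symm
  apply Fin.ext
  change (x + j).val / b = x.val / b
  rw [hxj, ZMod.val_natCast, Nat.mod_eq_of_lt (by omega)]
  apply Nat.div_eq_of_lt_le
  · rw [mul_comm]
    generalize b * (x.val / b) = t at e1
    omega
  · rw [add_mul, one_mul, mul_comm]
    generalize b * (x.val / b) = t at e1
    omega

variable {ι : Type} [Fintype ι]

/-- The integer attached to a sign and an exponent vector. -/
def pt (α : ι → ℤ) (a : Bool × (ι → ℕ)) : ℤ := (if a.1 then -1 else 1) * ∏ i, α i ^ a.2 i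

theorem pt_inj (α : ι → ℤ) (hα0 : ∀ i, α i ≠ 0)
    (hind : ∀ e e' : ι → ℕ, |∏ i, α i ^ e i| = |∏ i, α i ^ e' i| → e = e') :
    Function.Injective (pt α) := by
  rintro ⟨s, e⟩ ⟨s', e'⟩ h
  have habs : ∀ (s : Bool) (e : ι → ℕ), |pt α (s, e)| = |∏ i, α i ^ e i| := by
    intro s e
    cases s <;> simp [pt]
  have he : e = e' := hind e e' (by rw [← habs s, ← habs s', h])
  subst he
  have h0 : ∏ i, α i ^ e i ≠ 0 := prod_ne_zero_iff.2 fun i _ => pow_ne_zero _ (hα0 i)
  have := mul_right_cancel₀ h0 h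
  cases s <;> cases s' <;> simp_all

theorem pt_ne_zero (α : ι → ℤ) (hα0 : ∀ i, α i ≠ 0) (a : Bool × (ι → ℕ)) : pt α a ≠ 0 := by
  refine mul_ne_zero ?_ (prod_ne_zero_iff.2 fun i _ => pow_ne_zero _ (hα0 i))
  split_ifs <;> simp

theorem pt_succ [DecidableEq ι] (α : ι → ℤ) (s : Bool) (e : ι → ℕ) (i : ι) :
    pt α (s, e + Pi.single i 1) = pt α (s, e) * α i := by
  simp only [pt, Pi.add_apply, pow_add, prod_mul_distrib]
  have : ∏ x, α x ^ (Pi.single i 1 : ι → ℕ) x = α i := by
    rw [Finset.prod_eq_single i] <;> simp +contextual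
  rw [this, mul_assoc]

theorem pt_not (α : ι → ℤ) (s : Bool) (e : ι → ℕ) : pt α (!s, e) = -pt α (s, e) := by
  cases s <;> simp [pt]

theorem intCast_ne_zero {q : ℕ} {z : ℤ} (h0 : z ≠ 0) (h : |z| < q) : (z : ZMod q) ≠ 0 := by
  rw [Ne, ZMod.intCast_zmod_eq_zero_iff_dvd]
  intro hd
  exact h0 (Int.eq_zero_of_abs_lt_dvd hd h)

end Coloring

open Coloring in
/-- T5a (file R75/Coloring.lean): approximately equivariant colouring of `ZMod q`. -/
theorem coloring {ι : Type} [Fintype ι] (α : ι → ℤ) (hα0 : ∀ i, α i ≠ 0)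
    (hind : ∀ e e' : ι → ℕ, |∏ i, α i ^ e i| = |∏ i, α i ^ e' i| → e = e')
    {C : Type} [AddCommGroup C] (γ : ι → C) (ν : C) (hν : ν + ν = 0) (W : ℕ)
    (ε : ℝ) (hε : 0 < ε) :
    ∃ (q : ℕ) (_ : Fact q.Prime) (c : ZMod q → C) (Good : Finset (ZMod q)),
      (∀ i, (α i : ZMod q) ≠ 0) ∧ (1 - ε) * q ≤ Good.card ∧
      ∀ g ∈ Good, ∀ i, ∀ j : ℤ, |j| ≤ W →
        c (α i * g + j) = c g + γ i ∧ c (-(α i * g) + j) = c g + γ i + ν := by
  classical
  set L := Fintype.card ι
  set δ := min (ε / 2) 1 with hδ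
  have hδ0 : 0 < δ := by positivity
  have hδ1 : δ ≤ 1 := min_le_right _ _
  have hδε : δ ≤ ε / 2 := min_le_left _ _
  obtain ⟨H', hH'⟩ := exists_nat_gt (2 * L / δ)
  set H := H' + 1 with hH
  let box : Finset ℕ → Finset (Bool × (ι → ℕ)) := fun s => univ ×ˢ Fintype.piFinset fun _ => s
  have mem_box : ∀ s a, a ∈ box s ↔ ∀ i, a.2 i ∈ s := by
    intro s a
    simp [box]
  have card_box : ∀ s, (box s).card = 2 * s.card ^ L := by
    intro s
    simp [box, L]
  set Big := box (range (H + 1))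
  set Sm := box (range H)
  set In := box (Ico 1 H)
  have hIB : In ⊆ Big := fun a ha => by
    rw [mem_box] at ha ⊢
    intro i
    have := ha i
    simp only [mem_Ico, mem_range] at this ⊢
    omega
  have hSm : Sm.Nonempty := ⟨(true, 0), by rw [mem_box]; intro i; simp [hH]⟩
  have hBig : Big.Nonempty := ⟨(true, 0), by rw [mem_box]; intro i; simp⟩
  have hratio : (1 - δ) * Big.card ≤ In.card := by
    rw [card_box, card_box]
    simp only [card_range, Nat.card_Ico, hH, Nat.add_sub_cancel]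
    push_cast
    have hp : (0 : ℝ) < H' + 1 + 1 := by positivity
    have h1 := one_add_mul_le_pow (a := -(2 / ((H' : ℝ) + 1 + 1)))
      (by
        have : 2 / ((H' : ℝ) + 1 + 1) ≤ 2 := by
          rw [div_le_iff₀ hp]; nlinarith [Nat.cast_nonneg (α := ℝ) H']
        linarith) L
    have h2 : (1 + -(2 / ((H' : ℝ) + 1 + 1))) = H' / (H' + 1 + 1) := by field_simp; ring
    rw [h2, div_pow, le_div_iff₀ (by positivity)] at h1
    have h3 : L * (2 / ((H' : ℝ) + 1 + 1)) ≤ δ := by
      rw [div_lt_iff₀ hδ0] at hH'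
      rw [← mul_div_assoc, div_le_iff₀ hp]
      nlinarith
    have h4 : (0 : ℝ) ≤ ((H' : ℝ) + 1 + 1) ^ L := by positivity
    nlinarith
  set Z : ℕ := ∑ a ∈ Big, (pt α a).natAbs + ∑ i, (α i).natAbs
  have hZ : ∀ a ∈ Big, |pt α a| ≤ Z := by
    intro a ha
    have : (pt α a).natAbs ≤ Z :=
      (single_le_sum (f := fun a => (pt α a).natAbs) (fun _ _ => Nat.zero_le _) ha).trans
        (Nat.le_add_right _ _)
    rw [← Int.natCast_natAbs]
    exact_mod_cast this
  have hZ' : ∀ i, |α i| ≤ Z := by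
    intro i
    have : (α i).natAbs ≤ Z :=
      (single_le_sum (f := fun i => (α i).natAbs) (fun _ _ => Nat.zero_le _) (mem_univ i)).trans
        (Nat.le_add_left _ _)
    rw [← Int.natCast_natAbs]
    exact_mod_cast this
  set V := Z * W
  set n := Big.card
  obtain ⟨b', hb'⟩ := exists_nat_gt (2 * (n * (2 * V + 1)) / δ)
  set b := b' + 1
  have hb : 0 < b := Nat.succ_pos _
  obtain ⟨q₀, hq₀⟩ := exists_nat_gt (2 * (n * n * (2 * b + 1) + 2 * (n * (2 * V + 1))) / δ)
  obtain ⟨q, hq, hqp⟩ := Nat.exists_infinite_primes (q₀ + 2 * Z + 1)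
  have : Fact q.Prime := ⟨hqp⟩
  -- the two bad sets
  let Bad1 : Finset (ZMod q) := (Big.offDiag ×ˢ Icc (-(b : ℤ)) b).image
    fun x => (x.2 : ZMod q) * ((pt α x.1.1 - pt α x.1.2 : ℤ) : ZMod q)⁻¹
  let Bad2 : Finset (ZMod q) := (Big ×ˢ (range (q / b + 2) ×ˢ Icc (-(V : ℤ)) V)).image
    fun x => ((x.2.1 * b + x.2.2 : ℤ) : ZMod q) * ((pt α x.1 : ℤ) : ZMod q)⁻¹
  let T : Finset (ZMod q) := univ \ (Bad1 ∪ Bad2)
  have hc1 : Bad1.card ≤ n * n * (2 * b + 1) := by
    refine card_image_le.trans ?_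
    rw [card_product, offDiag_card, Int.card_Icc]
    exact Nat.mul_le_mul (Nat.sub_le _ _) (by omega)
  have hc2 : Bad2.card ≤ n * ((q / b + 2) * (2 * V + 1)) := by
    refine card_image_le.trans ?_
    rw [card_product, card_product (range _), card_range, Int.card_Icc]
    exact Nat.mul_le_mul le_rfl (Nat.mul_le_mul le_rfl (by omega))
  have hT : (1 - δ) * q ≤ T.card := by
    have h1 : q ≤ T.card + (Bad1.card + Bad2.card) := by
      have := card_sdiff_add_card_eq_card (subset_univ (Bad1 ∪ Bad2))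
      rw [card_univ, ZMod.card] at this
      have h2 := card_union_le Bad1 Bad2
      change (univ \ (Bad1 ∪ Bad2)).card + _ ≥ q
      omega
    have h1' : (q : ℝ) ≤ T.card + (Bad1.card + Bad2.card) := by exact_mod_cast h1
    have hc1' : (Bad1.card : ℝ) ≤ n * n * (2 * b + 1) := by exact_mod_cast hc1
    have hc2' : (Bad2.card : ℝ) ≤ n * (((q / b : ℕ) + 2) * (2 * V + 1)) := by exact_mod_cast hc2
    have h3 : ((q / b : ℕ) : ℝ) ≤ q / b := Nat.cast_div_le
    have hbR : (0 : ℝ) < b := by exact_mod_cast hb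
    have h4 : (n * (2 * V + 1) : ℝ) * (q / b) ≤ δ / 2 * q := by
      rw [div_lt_iff₀ hδ0] at hb'
      rw [← mul_div_assoc, div_le_iff₀ hbR]
      have : (b : ℝ) = b' + 1 := by simp [b]
      have hq0 : (0 : ℝ) ≤ q := Nat.cast_nonneg _
      rw [this]
      nlinarith
    have h5 : (n * n * (2 * b + 1) + 2 * (n * (2 * V + 1)) : ℝ) ≤ δ / 2 * q := by
      rw [div_lt_iff₀ hδ0] at hq₀
      have : (q₀ : ℝ) ≤ q := by exact_mod_cast (by omega : q₀ ≤ q)
      nlinarith
    have h6 : (0 : ℝ) ≤ n * (2 * V + 1) := by positivity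
    nlinarith
  have hT1 : ∀ g ∈ T, Set.InjOn (fun a => cell b ((pt α a : ZMod q) * g)) Big := by
    intro g hg a ha a' ha' h
    by_contra hne
    obtain ⟨d, hd, hdd⟩ := exists_of_cell_eq hb h
    have hu : ((pt α a - pt α a' : ℤ) : ZMod q) ≠ 0 := by
      refine intCast_ne_zero (sub_ne_zero.2 fun e => hne (pt_inj α hα0 hind e)) ?_
      have h1 := hZ a ha
      have h2 := hZ a' ha'
      have h3 := abs_sub (pt α a) (pt α a')
      omega
    refine (mem_sdiff.1 hg).2 (mem_union_left _ (mem_image.2 ⟨((a, a'), d), ?_, ?_⟩))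
    · exact mem_product.2 ⟨mem_offDiag.2 ⟨ha, ha', hne⟩, hd⟩
    · simp only
      rw [← hdd, mul_inv_eq_iff_eq_mul₀ hu]
      push_cast
      ring
  have hT2 : ∀ g ∈ T, ∀ a ∈ Big, ∀ j : ℤ, |j| ≤ V →
      cell b ((pt α a : ZMod q) * g + (j : ZMod q)) = cell b ((pt α a : ZMod q) * g) := by
    intro g hg a ha j hj
    by_contra hne
    obtain ⟨kr, hkr, hx⟩ := exists_of_cell_ne hb hj hne
    have hu : ((pt α a : ℤ) : ZMod q) ≠ 0 := by
      refine intCast_ne_zero (pt_ne_zero α hα0 a) ?_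
      have h1 := hZ a ha
      omega
    refine (mem_sdiff.1 hg).2 (mem_union_right _ (mem_image.2 ⟨(a, kr), ?_, ?_⟩))
    · exact mem_product.2 ⟨ha, hkr⟩
    · simp only
      rw [← hx, mul_inv_eq_iff_eq_mul₀ hu, mul_comm]
  obtain ⟨π, Good, hGT, hGc, hG⟩ := exists_perm Big In hIB hBig T
    (fun g a => cell b ((pt α a : ZMod q) * g)) hT1
  -- the chosen maximiser over the small box
  have hex := fun f : ZMod q =>
    Sm.exists_max_image (fun a => π (cell b ((pt α a : ZMod q) * f))) hSm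
  choose A hA hAmax using hex
  have hAeq : ∀ f : ZMod q, ∀ a ∈ Sm, (∀ a' ∈ Sm, a' ≠ a →
      π (cell b ((pt α a' : ZMod q) * f)) < π (cell b ((pt α a : ZMod q) * f))) → A f = a := by
    intro f a ha h
    by_contra hne
    exact absurd (hAmax f a ha) (not_le.2 (h _ (hA f) hne))
  let χ : Bool × (ι → ℕ) → C := fun a => ∑ i, a.2 i • γ i + if a.1 then ν else 0
  have hχ : ∀ s e i, χ (s, e + Pi.single i 1) = χ (s, e) + γ i := by
    intro s e i
    simp only [χ, Pi.add_apply, add_smul, sum_add_distrib]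
    have : ∑ x, (Pi.single i 1 : ι → ℕ) x • γ x = γ i := by
      rw [Finset.sum_eq_single i] <;> simp +contextual
    rw [this]
    abel
  have hχ' : ∀ s e, χ (!s, e) = χ (s, e) + ν := by
    intro s e
    cases s
    · simp [χ]
    · simp only [χ, Bool.not_true, Bool.false_eq_true, if_false, if_true, add_zero]
      rw [add_assoc, hν, add_zero]
  refine ⟨q, inferInstance, fun f => -χ (A f), Good, fun i => ?_, ?_, ?_⟩
  · refine intCast_ne_zero (hα0 i) ?_
    have := hZ' i
    omega
  · have h1 : (In.card : ℝ) * T.card ≤ n * Good.card := by exact_mod_cast hGc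
    have hn : (0 : ℝ) < n := by exact_mod_cast hBig.card_pos
    have hq0 : (0 : ℝ) ≤ q := Nat.cast_nonneg _
    have h2 : (1 - δ) * n * ((1 - δ) * q) ≤ In.card * T.card :=
      mul_le_mul hratio hT (mul_nonneg (by linarith) hq0) (Nat.cast_nonneg _)
    have h3 : (1 - δ) * ((1 - δ) * q) ≤ Good.card := by
      have : n * ((1 - δ) * ((1 - δ) * q)) ≤ n * (Good.card : ℝ) := by
        calc n * ((1 - δ) * ((1 - δ) * q)) = (1 - δ) * n * ((1 - δ) * q) := by ring
          _ ≤ _ := h2.trans h1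
      exact le_of_mul_le_mul_left this hn
    have h4 : 1 - ε ≤ (1 - δ) * (1 - δ) := by
      have := mul_nonneg hδ0.le hδ0.le
      linarith
    calc (1 - ε) * q ≤ (1 - δ) * (1 - δ) * q := mul_le_mul_of_nonneg_right h4 hq0
      _ = (1 - δ) * ((1 - δ) * q) := by ring
      _ ≤ _ := h3
  · intro g hg i j hj
    obtain ⟨⟨s, e⟩, ha, hmax⟩ := hG g hg
    have he : ∀ k, 1 ≤ e k ∧ e k < H := fun k => by simpa using (mem_box _ _).1 ha k
    obtain ⟨e', rfl⟩ : ∃ e' : ι → ℕ, e = e' + Pi.single i 1 := by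
      refine ⟨e - Pi.single i 1, ?_⟩
      funext k
      have := he k
      by_cases hk : k = i
      · subst hk; rw [Pi.add_apply, Pi.sub_apply, Pi.single_eq_same]; omega
      · rw [Pi.add_apply, Pi.sub_apply, Pi.single_eq_of_ne hk]; omega
    have hSB : Sm ⊆ Big := fun a ha => by
      rw [mem_box] at ha ⊢
      intro i
      have := ha i
      simp only [mem_range] at this ⊢
      omega
    have hup : ∀ a ∈ Sm, ∀ t : Bool, (t, a.2 + Pi.single i 1) ∈ Big := fun a ha t => by
      rw [mem_box] at ha ⊢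
      intro k
      have := ha k
      simp only [mem_range] at this ⊢
      by_cases hk : k = i
      · subst hk; simp only [Pi.add_apply, Pi.single_eq_same]; omega
      · simp only [Pi.add_apply, Pi.single_eq_of_ne hk]; omega
    have he' : ∀ t : Bool, (t, e') ∈ Sm := fun t => by
      rw [mem_box]
      intro k
      have := (he k).2
      simp only [Pi.add_apply] at this
      simp only [mem_range]
      omega
    have hjb : ∀ a ∈ Sm, |pt α a * j| ≤ V := fun a ha => by
      rw [abs_mul]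
      have := hZ a (hSB ha)
      calc |pt α a| * |j| ≤ Z * W := mul_le_mul this hj (abs_nonneg _) (by positivity)
        _ = V := by simp [V]
    have h0 : A g = (s, e' + Pi.single i 1) := by
      refine hAeq g _ ?_ fun a' ha' hne => hmax a' (hSB ha') hne
      rw [mem_box]
      intro k
      exact mem_range.2 (he k).2
    have c1 : ∀ a ∈ Sm, cell b ((pt α a : ZMod q) * ((α i : ZMod q) * g + (j : ZMod q))) =
        cell b ((pt α (a.1, a.2 + Pi.single i 1) : ZMod q) * g) := by
      intro a ha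
      rw [← hT2 g (hGT hg) _ (hup a ha a.1) _ (hjb a ha), pt_succ]
      congr 1
      push_cast
      ring
    have c2 : ∀ a ∈ Sm, cell b ((pt α a : ZMod q) * (-((α i : ZMod q) * g) + (j : ZMod q))) =
        cell b ((pt α (!a.1, a.2 + Pi.single i 1) : ZMod q) * g) := by
      intro a ha
      rw [← hT2 g (hGT hg) _ (hup a ha (!a.1)) _ (hjb a ha), pt_succ, pt_not]
      congr 1
      push_cast
      ring
    have h1 : A (α i * g + j) = (s, e') := by
      refine hAeq _ _ (he' s) fun a' ha' hne => ?_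
      rw [c1 a' ha', c1 _ (he' s)]
      refine hmax _ (hup a' ha' _) fun h => hne ?_
      simp only [Prod.mk.injEq, add_left_inj] at h
      exact Prod.ext h.1 h.2
    have h2 : A (-(α i * g) + j) = (!s, e') := by
      refine hAeq _ _ (he' _) fun a' ha' hne => ?_
      rw [c2 a' ha', c2 _ (he' _)]
      simp only [Bool.not_not]
      refine hmax _ (hup a' ha' _) fun h => hne ?_
      simp only [Prod.mk.injEq, add_left_inj] at h
      refine Prod.ext ?_ h.2
      rw [← h.1, Bool.not_not]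
    simp only [h0, h1, h2, hχ, hχ']
    constructor
    · abel
    · have : -ν = ν := neg_eq_of_add_eq_zero_right hν
      rw [neg_add, this]
      abel

end Crest.Agent.R75
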