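import Crest.Agent.R75.Basic

/-! Auxiliary constructions for T4b: the phase function, the zigzag and the step function. -/

set_option autoImplicit false

namespace Crest.Agent.R75

open Finset

namespace OuterAux

/-- distance to the nearest integer -/
noncomputable def nn (s : ℝ) : ℝ := |s - round s|

lemma nn_nonneg (s : ℝ) : 0 ≤ nn s := abs_nonneg _

lemma nn_le (s : ℝ) : nn s ≤ 1 / 2 := abs_sub_round s

lemma nn_sub_le (s s' : ℝ) : nn s - nn s' ≤ |s - s'| := by
  have h1 := round_le s (round s')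
  have h2 := abs_add_le (s - s') (s' - round s')
  rw [sub_add_sub_cancel] at h2
  unfold nn
  linarith

lemma nn_lip (s s' : ℝ) : |nn s - nn s'| ≤ |s - s'| := by
  rw [abs_le]
  have h1 := nn_sub_le s s'
  have h2 := nn_sub_le s' s
  rw [abs_sub_comm] at h2
  constructor <;> linarith

lemma continuous_nn : Continuous nn :=
  (LipschitzWith.of_dist_le_mul (K := 1) fun s s' => by
    simpa [Real.dist_eq] using nn_lip s s').continuous

lemma nn_neg (s : ℝ) : nn (-s) = nn s := by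
  have key : ∀ s : ℝ, nn (-s) ≤ nn s := by
    intro s
    have h1 := round_le (-s) (-round s)
    unfold nn
    refine h1.trans (le_of_eq ?_)
    rw [← abs_neg]
    congr 1
    push_cast
    ring
  refine le_antisymm (key s) ?_
  have := key (-s)
  rwa [neg_neg] at this

lemma nn_add_one (s : ℝ) : nn (s + 1) = nn s := by
  unfold nn
  rw [round_add_one]
  congr 1
  push_cast
  ring

lemma nn_eq {s : ℝ} (h0 : 0 ≤ s) (h1 : s ≤ 1 / 2) : nn s = s := by
  unfold nn
  rw [abs_sub_round_eq_min, Int.fract_eq_self.2 ⟨h0, by linarith⟩, min_eq_left (by linarith)]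

lemma phase {t₀ β : ℝ → ℝ} {L B : ℝ} (hL0 : 0 ≤ L) (hL : ∀ y y', |t₀ y - t₀ y'| ≤ L * |y - y'|)
    (hβ : Measurable β) (hB : ∀ y, |β y| ≤ B) (N : ℝ) (hN : 0 ≤ N) :
    ∃ Ψ : ℝ → ℝ, Continuous Ψ ∧ Ψ 0 = 0 ∧ (∀ θ, Ψ (-θ) = -Ψ θ) ∧
      (∀ θ, Ψ (θ + 1) = Ψ θ + 2 * Ψ (1 / 2)) ∧
      (∀ θ φ, |Ψ (θ + φ) - Ψ θ - N * t₀ (nn θ) * φ| ≤ (N * L * |φ| + B) * |φ|) ∧
      ∀ a b, 0 ≤ a → a ≤ b → b ≤ 1 / 2 → Ψ b - Ψ a = ∫ s in a..b, (N * t₀ s + β s) := by
  have ht₀ : Continuous t₀ :=
    (LipschitzWith.of_dist_le_mul (K := ⟨L, hL0⟩) fun s s' => by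
      rw [Real.dist_eq, Real.dist_eq]; exact hL s s').continuous
  set τ : ℝ → ℝ := fun s => N * t₀ (nn s) + β (nn s) with hτ
  have hi1 : ∀ a b, IntervalIntegrable (fun s => N * t₀ (nn s)) MeasureTheory.volume a b :=
    fun a b => (continuous_const.mul (ht₀.comp continuous_nn)).intervalIntegrable a b
  have hi2 : ∀ a b, IntervalIntegrable (fun s => β (nn s)) MeasureTheory.volume a b := by
    intro a b
    refine (intervalIntegrable_const (c := B)).mono_fun'
      (hβ.comp continuous_nn.measurable).aestronglyMeasurable ?_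
    exact Filter.Eventually.of_forall fun s => hB _
  have hi : ∀ a b, IntervalIntegrable τ MeasureTheory.volume a b :=
    fun a b => (hi1 a b).add (hi2 a b)
  have hsub : ∀ a b, (∫ s in (0:ℝ)..b, τ s) - ∫ s in (0:ℝ)..a, τ s = ∫ s in a..b, τ s :=
    fun a b => intervalIntegral.integral_interval_sub_left (hi _ _) (hi _ _)
  have hodd : ∀ θ, ∫ s in (0:ℝ)..(-θ), τ s = -∫ s in (0:ℝ)..θ, τ s := by
    intro θ
    have h1 := intervalIntegral.integral_comp_neg (a := 0) (b := θ) τ
    have h2 : (fun s => τ (-s)) = τ := by funext s; simp only [hτ, nn_neg]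
    rw [h2, neg_zero] at h1
    rw [h1, intervalIntegral.integral_symm]
  refine ⟨fun θ => ∫ s in (0:ℝ)..θ, τ s, intervalIntegral.continuous_primitive hi 0, by simp,
    hodd, ?_, ?_, ?_⟩
  · intro θ
    have hp : Function.Periodic τ 1 := fun s => by simp only [hτ, nn_add_one]
    have h1 := hp.intervalIntegral_add_eq θ (-(1 / 2))
    rw [← hsub θ, ← hsub (-(1 / 2)), hodd, show -(1 / 2 : ℝ) + 1 = 1 / 2 by norm_num] at h1
    simp only
    linarith
  · intro θ φ
    simp only
    rw [hsub]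
    have h1 : N * t₀ (nn θ) * φ = ∫ _s in θ..θ + φ, N * t₀ (nn θ) := by simp; ring
    rw [h1, ← intervalIntegral.integral_sub (hi _ _) intervalIntegrable_const]
    have h2 := intervalIntegral.norm_integral_le_of_norm_le_const (a := θ) (b := θ + φ)
      (C := N * L * |φ| + B) (f := fun s => τ s - N * t₀ (nn θ)) (by
        intro s hs
        have a1 : |s - θ| ≤ |φ| := by
          have := Set.abs_sub_left_of_mem_uIcc (Set.uIoc_subset_uIcc hs)
          simpa using this
        have a2 : |t₀ (nn s) - t₀ (nn θ)| ≤ L * |φ| :=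
          (hL _ _).trans (mul_le_mul_of_nonneg_left ((nn_lip s θ).trans a1) hL0)
        have a3 : τ s - N * t₀ (nn θ) = N * (t₀ (nn s) - t₀ (nn θ)) + β (nn s) := by
          simp only [hτ]; ring
        rw [Real.norm_eq_abs, a3]
        refine (abs_add_le _ _).trans (add_le_add ?_ (hB _))
        rw [abs_mul, abs_of_nonneg hN, mul_assoc]
        exact mul_le_mul_of_nonneg_left a2 hN)
    simpa using h2
  · intro a b ha hab hb
    simp only
    rw [hsub]
    apply intervalIntegral.integral_congr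
    intro s hs
    rw [Set.uIcc_of_le hab] at hs
    simp only [hτ]
    rw [nn_eq (by linarith [hs.1]) (by linarith [hs.2])]

lemma x_mono {P : ℕ} {x : ℕ → ℝ} (hx : ∀ p < P, x p < x (p + 1)) {p q : ℕ} (hpq : p ≤ q)
    (hq : q ≤ P) : x p ≤ x q := by
  induction q, hpq using Nat.le_induction with
  | base => exact le_rfl
  | succ q _ ih => exact (ih (by omega)).trans (hx q (by omega)).le

lemma exists_piece {P : ℕ} {x : ℕ → ℝ} (hP : 0 < P) {y : ℝ} (h0 : x 0 ≤ y) (h1 : y ≤ x P) :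
    ∃ p < P, x p ≤ y ∧ y ≤ x (p + 1) := by
  induction P with
  | zero => omega
  | succ P ih =>
    by_cases h : x P ≤ y
    · exact ⟨P, Nat.lt_succ_self _, h, h1⟩
    · rcases Nat.eq_zero_or_pos P with rfl | hP'
      · exact absurd h0 h
      · obtain ⟨p, hp, h'⟩ := ih hP' (le_of_lt (not_le.1 h))
        exact ⟨p, by omega, h'⟩

lemma zigzag {P : ℕ} {x : ℕ → ℝ} (hx : ∀ p < P, x p < x (p + 1)) (U : ℕ → ℝ → ℝ) (lev : ℕ → ℝ)
    (hU0 : ∀ p < P, U p 0 = lev p) (hU1 : ∀ p < P, U p 1 = lev (p + 1))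
    (hlip : ∀ p < P, ∃ K, 0 ≤ K ∧ ∀ v ∈ Set.Icc (0:ℝ) 1, ∀ v' ∈ Set.Icc (0:ℝ) 1,
      |U p v - U p v'| ≤ K * |v - v'|) :
    ∃ (t₀ : ℝ → ℝ) (L : ℝ), 0 ≤ L ∧ (∀ y y', |t₀ y - t₀ y'| ≤ L * |y - y'|) ∧
      ∀ p < P, ∀ y, x p ≤ y → y ≤ x (p + 1) → t₀ y = U p ((y - x p) / (x (p + 1) - x p)) := by
  choose! K hK0 hK using hlip
  set cl : ℝ → ℝ := fun v => max 0 (min 1 v) with hcl
  have hclm : ∀ v, cl v ∈ Set.Icc (0:ℝ) 1 :=
    fun v => ⟨le_max_left _ _, max_le zero_le_one (min_le_left _ _)⟩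
  have hcll : ∀ v v', |cl v - cl v'| ≤ |v - v'| := by
    intro v v'
    have := ((LipschitzWith.id.const_min (1:ℝ)).const_max 0).dist_le_mul v v'
    simpa [hcl, Real.dist_eq] using this
  refine ⟨fun y => lev 0 + ∑ p ∈ range P, (U p (cl ((y - x p) / (x (p + 1) - x p))) - lev p),
    ∑ p ∈ range P, K p / (x (p + 1) - x p), ?_, ?_, ?_⟩
  · apply sum_nonneg
    intro p hp
    have := hx p (mem_range.1 hp)
    exact div_nonneg (hK0 p (mem_range.1 hp)) (by linarith)
  · intro y y'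
    simp only
    rw [add_sub_add_left_eq_sub, ← sum_sub_distrib, sum_mul]
    refine (abs_sum_le_sum_abs _ _).trans (sum_le_sum fun p hp => ?_)
    have hp' := mem_range.1 hp
    have hγ : 0 < x (p + 1) - x p := by linarith [hx p hp']
    rw [sub_sub_sub_cancel_right]
    refine (hK p hp' _ (hclm _) _ (hclm _)).trans ?_
    rw [div_mul_eq_mul_div, mul_div_assoc]
    refine mul_le_mul_of_nonneg_left ((hcll _ _).trans (le_of_eq ?_)) (hK0 p hp')
    rw [← sub_div, abs_div, abs_of_pos hγ, sub_sub_sub_cancel_right]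
  · intro p hp y h1 h2
    simp only
    have hγ : 0 < x (p + 1) - x p := by linarith [hx p hp]
    have e1 : ∑ q ∈ range P, (U q (cl ((y - x q) / (x (q + 1) - x q))) - lev q) =
        ∑ q ∈ range (p + 1), (U q (cl ((y - x q) / (x (q + 1) - x q))) - lev q) := by
      symm
      apply sum_subset (range_subset_range.2 (by omega))
      intro q hq hq'
      have hq1 := mem_range.1 hq
      have hq2 : p + 1 ≤ q := by simpa using hq'
      have hγq : 0 < x (q + 1) - x q := by linarith [hx q hq1]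
      have a1 : (y - x q) / (x (q + 1) - x q) ≤ 0 :=
        div_nonpos_of_nonpos_of_nonneg (by linarith [x_mono hx hq2 hq1.le]) hγq.le
      have a2 : cl ((y - x q) / (x (q + 1) - x q)) = 0 :=
        max_eq_left ((min_le_right _ _).trans a1)
      rw [a2, hU0 q hq1, sub_self]
    have e2 : ∑ q ∈ range p, (U q (cl ((y - x q) / (x (q + 1) - x q))) - lev q) =
        ∑ q ∈ range p, (lev (q + 1) - lev q) := by
      apply sum_congr rfl
      intro q hq
      have hq1 := mem_range.1 hq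
      have hγq : 0 < x (q + 1) - x q := by linarith [hx q (by omega)]
      have a1 : 1 ≤ (y - x q) / (x (q + 1) - x q) := by
        rw [le_div_iff₀ hγq]
        linarith [x_mono hx (show q + 1 ≤ p by omega) hp.le]
      have a2 : cl ((y - x q) / (x (q + 1) - x q)) = 1 := by
        simp only [hcl]
        rw [min_eq_left a1, max_eq_right zero_le_one]
      rw [a2, hU1 q (by omega)]
    have e3 : cl ((y - x p) / (x (p + 1) - x p)) = (y - x p) / (x (p + 1) - x p) := by
      simp only [hcl]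
      rw [min_eq_right (by rw [div_le_one hγ]; linarith),
        max_eq_right (div_nonneg (by linarith) hγ.le)]
    rw [e1, sum_range_succ, e2, sum_range_sub, e3]
    ring

lemma stepfun {P : ℕ} {x : ℕ → ℝ} (hx : ∀ p < P, x p < x (p + 1)) (b : ℕ → ℝ) :
    ∃ β : ℝ → ℝ, Measurable β ∧ (∀ y, |β y| ≤ ∑ p ∈ range P, |b p|) ∧
      ∀ p < P, ∀ y ∈ Set.Ioc (x p) (x (p + 1)), β y = b p := by
  refine ⟨fun y => ∑ p ∈ range P, (Set.Ioc (x p) (x (p + 1))).indicator (fun _ => b p) y,
    ?_, ?_, ?_⟩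
  · exact Finset.measurable_sum _ fun p _ => measurable_const.indicator measurableSet_Ioc
  · intro y
    refine (abs_sum_le_sum_abs _ _).trans (sum_le_sum fun p _ => ?_)
    by_cases h : y ∈ Set.Ioc (x p) (x (p + 1))
    · rw [Set.indicator_of_mem h]
    · rw [Set.indicator_of_notMem h, abs_zero]; exact abs_nonneg _
  · intro p hp y hy
    simp only
    rw [sum_eq_single p, Set.indicator_of_mem hy]
    · intro q hq hqp
      have hq' := mem_range.1 hq
      apply Set.indicator_of_notMem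
      intro h
      rcases lt_or_gt_of_ne hqp with h' | h'
      · linarith [x_mono hx (show q + 1 ≤ p by omega) hp.le, h.2, hy.1]
      · linarith [x_mono hx (show p + 1 ≤ q by omega) hq'.le, h.1, hy.2]
    · intro h
      exact absurd (mem_range.2 hp) h

lemma prof_mem {G T T1 : ℝ → ℝ} {bot top h : ℝ} (hh : 0 < h) (H : IsProf G T T1 bot top h)
    {v : ℝ} (hv : v ∈ Set.Icc (0:ℝ) 1) : bot ≤ T v ∧ T v ≤ top := by
  have hm : MonotoneOn T (Set.Icc 0 1) := by
    apply monotoneOn_of_deriv_nonneg (convex_Icc 0 1)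
    · exact fun y _ => (H.hT y).continuousAt.continuousWithinAt
    · exact fun y _ => (H.hT y).differentiableAt.differentiableWithinAt
    · intro y hy
      rw [(H.hT y).deriv]
      linarith [H.lower y (interior_subset hy)]
  rw [← H.T0, ← H.Tone]
  exact ⟨hm ⟨le_rfl, zero_le_one⟩ hv hv.1, hm hv ⟨zero_le_one, le_rfl⟩ hv.2⟩

lemma prof_lip {G T T1 : ℝ → ℝ} {bot top h : ℝ} (H : IsProf G T T1 bot top h) :
    ∃ K, 0 ≤ K ∧ ∀ v ∈ Set.Icc (0:ℝ) 1, ∀ v' ∈ Set.Icc (0:ℝ) 1, |T v - T v'| ≤ K * |v - v'| := by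
  obtain ⟨K, hK⟩ := (isCompact_Icc (a := (0:ℝ)) (b := 1)).exists_bound_of_continuousOn
    H.cT1.continuousOn
  refine ⟨K, (norm_nonneg _).trans (hK 0 ⟨le_rfl, zero_le_one⟩), fun v hv v' hv' => ?_⟩
  exact (convex_Icc 0 1).norm_image_sub_le_of_norm_hasDerivWithin_le
    (fun y _ => (H.hT y).hasDerivWithinAt) hK hv' hv

end OuterAux

end Crest.Agent.R75
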