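import Crest.Agent.R75.Kernel
import Crest.Agent.R75.OuterAux

/-! T4b: the unimodular zigzag function and its Fourier coefficients. -/

set_option autoImplicit false

namespace Crest.Agent.R75

open Finset

namespace Outer

open OuterAux

lemma coeff_eq {Ψ : ℝ → ℝ} (hc : Continuous Ψ) (hodd : ∀ θ, Ψ (-θ) = -Ψ θ) (k : ℝ) :
    ∫ s in (-1 / 2 : ℝ)..(1 / 2), ee (Ψ s) * ee (-(k * s)) =
      ((2 * ∫ s in (0 : ℝ)..(1 / 2), Real.cos (2 * Real.pi * (k * s - Ψ s)) : ℝ) : ℂ) := by
  have hi : ∀ a b, IntervalIntegrable (fun s => ee (Ψ s) * ee (-(k * s))) MeasureTheory.volume a b :=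
    fun a b => Continuous.intervalIntegrable (by fun_prop) a b
  rw [← intervalIntegral.integral_add_adjacent_intervals (hi _ 0) (hi _ _)]
  have h1 := intervalIntegral.integral_comp_neg (a := 0) (b := 1 / 2)
    (fun s => ee (Ψ s) * ee (-(k * s)))
  rw [neg_zero, show -(1 / 2 : ℝ) = -1 / 2 by norm_num] at h1
  rw [← h1, ← intervalIntegral.integral_add (Continuous.intervalIntegrable (by fun_prop) _ _)
    (hi _ _), ← intervalIntegral.integral_const_mul, ← intervalIntegral.integral_ofReal]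
  congr 1
  funext s
  rw [hodd, ← ee_add, ← ee_add, show -Ψ s + -(k * -s) = k * s - Ψ s by ring,
    show Ψ s + -(k * s) = -(k * s - Ψ s) by ring, ee_neg, Complex.add_conj, ee_re]

lemma re_J (G : ℝ → ℝ) (hG : Continuous G) (A u α : ℝ) :
    (ee α * J G A u).re =
      Real.sqrt A * ∫ v in (0 : ℝ)..1, Real.cos (2 * Real.pi * (α + A * (u * v - G v))) := by
  unfold J
  rw [mul_left_comm, Complex.re_ofReal_mul, ← intervalIntegral.integral_const_mul]
  congr 1
  have := Complex.reCLM.intervalIntegral_comp_comm (μ := MeasureTheory.volume) (a := 0) (b := 1)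
    (f := fun v => ee α * ee (A * (u * v - G v))) (Continuous.intervalIntegrable (by fun_prop) _ _)
  simp only [Complex.reCLM_apply] at this
  rw [← this]
  congr 1
  funext v
  rw [← ee_add, ee_re]

lemma piece_phase {Ψ t₀ β G U : ℝ → ℝ} {N a a' b : ℝ} (ha : 0 ≤ a) (haa' : a < a')
    (ha' : a' ≤ 1 / 2)
    (hΨ : ∀ a b, 0 ≤ a → a ≤ b → b ≤ 1 / 2 → Ψ b - Ψ a = ∫ s in a..b, (N * t₀ s + β s))
    (hG : ∀ v, HasDerivAt G (U v) v) (hU : Continuous U)
    (ht : ∀ y, a ≤ y → y ≤ a' → t₀ y = U ((y - a) / (a' - a)))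
    (hβ : ∀ y ∈ Set.Ioc a a', β y = b) {v : ℝ} (hv : v ∈ Set.Icc (0:ℝ) 1) :
    Ψ (a + (a' - a) * v) = Ψ a + (a' - a) * (N * (G v - G 0) + b * v) := by
  have hγ : 0 < a' - a := by linarith
  have h1 : 0 ≤ (a' - a) * v := mul_nonneg hγ.le hv.1
  have h2 : (a' - a) * v ≤ a' - a := by nlinarith [hv.2]
  have h3 := hΨ a (a + (a' - a) * v) ha (by linarith) (by linarith)
  have h4 : ∫ s in a..a + (a' - a) * v, (N * t₀ s + β s) =
      ∫ s in a..a + (a' - a) * v, (N * U ((s - a) / (a' - a)) + b) := by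
    apply intervalIntegral.integral_congr_ae
    refine Filter.Eventually.of_forall fun s hs => ?_
    rw [Set.uIoc_of_le (by linarith)] at hs
    rw [ht s hs.1.le (by linarith [hs.2]), hβ s ⟨hs.1, by linarith [hs.2]⟩]
  have h5 : ∀ s ∈ Set.uIcc a (a + (a' - a) * v), HasDerivAt
      (fun s => (a' - a) * (N * G ((s - a) / (a' - a))) + b * s)
      (N * U ((s - a) / (a' - a)) + b) s := by
    intro s _
    have d1 : HasDerivAt (fun s => (s - a) / (a' - a)) (1 / (a' - a)) s :=
      ((hasDerivAt_id s).sub_const a).div_const _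
    have d2 := (((hG _).comp s d1).const_mul N).const_mul (a' - a)
    have d3 := d2.add ((hasDerivAt_id s).const_mul b)
    have e : (a' - a) * (N * (U ((s - a) / (a' - a)) * (1 / (a' - a)))) + b * 1 =
        N * U ((s - a) / (a' - a)) + b := by field_simp
    rw [e] at d3
    exact d3
  rw [h4, intervalIntegral.integral_eq_sub_of_hasDerivAt h5
    (Continuous.intervalIntegrable (by fun_prop) _ _)] at h3
  rw [add_sub_cancel_left, mul_div_cancel_left₀ _ hγ.ne', sub_self, zero_div] at h3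
  linarith

end Outer

open Outer OuterAux in
/-- T4b: the unimodular zigzag function and its Fourier coefficients. -/
theorem outer (P : ℕ) (x : ℕ → ℝ) (hP : 0 < P) (hx0 : x 0 = 0) (hxP : x P = 1 / 2)
    (hx : ∀ p < P, x p < x (p + 1)) (bot top : ℝ) (hbot : 0 < bot) (htop : top < 1)
    (G T T1 : ℕ → ℝ → ℝ) (h : ℕ → ℝ) (hh : ∀ p < P, 0 < h p)
    (hG : ∀ p < P, IsProf (G p) (T p) (T1 p) bot top (h p))
    (main : ℕ → Prop) (hm0 : ¬ main 0) (hmP : ¬ main (P - 1))
    (hadj : ∀ p, main p → ¬ main (p + 1)) (ε : ℝ) (hε : 0 < ε) :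
    ∃ (B : ℝ) (N₀ : ℕ), ∀ N ≥ N₀, ∀ c : ℕ → ℝ, ∃ v b c' : ℕ → ℝ,
      (∀ k, 0 ≤ v k ∧ v k ≤ 1) ∧ (∀ p < P, |b p| ≤ B) ∧
      (∀ p < P, main p → b p = 0 ∧ c' p = c p) ∧
      ∀ θ : ℝ, |‖∑ k ∈ range N,
          ((v k * ∑ p ∈ range P, pieceTerm x G N b c' k p : ℝ) : ℂ) * ee (k * θ)‖
            - Real.sqrt N| ≤ ε * Real.sqrt N := by
  classical
  have hγ : ∀ p < P, 0 < x (p + 1) - x p := fun p hp => by linarith [hx p hp]
  have hxl : ∀ p ≤ P, 0 ≤ x p ∧ x p ≤ 1 / 2 := fun p hp =>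
    ⟨hx0 ▸ x_mono hx (Nat.zero_le p) hp, hxP ▸ x_mono hx hp le_rfl⟩
  -- the zigzag
  set U : ℕ → ℝ → ℝ := fun p v => if p % 2 = 0 then T p v else T p (1 - v) with hU
  obtain ⟨t₀, L, hL0, hL, ht₀⟩ := zigzag hx U (fun p => if p % 2 = 0 then bot else top)
    (fun p hp => by
      simp only [hU]
      split_ifs
      · exact (hG p hp).T0
      · rw [sub_zero]; exact (hG p hp).Tone)
    (fun p hp => by
      simp only [hU]
      by_cases h2 : p % 2 = 0
      · rw [if_pos h2, if_neg (by omega)]; exact (hG p hp).Tone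
      · rw [if_neg h2, if_pos (by omega), sub_self]; exact (hG p hp).T0)
    (fun p hp => by
      obtain ⟨K, hK0, hK⟩ := prof_lip (hG p hp)
      refine ⟨K, hK0, fun v hv v' hv' => ?_⟩
      simp only [hU]
      split_ifs
      · exact hK v hv v' hv'
      · have := hK (1 - v) ⟨by linarith [hv.2], by linarith [hv.1]⟩ (1 - v')
          ⟨by linarith [hv'.2], by linarith [hv'.1]⟩
        rwa [sub_sub_sub_cancel_left, abs_sub_comm v' v] at this)
  have ht₀m : ∀ y, 0 ≤ y → y ≤ 1 / 2 → bot ≤ t₀ y ∧ t₀ y ≤ top := by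
    intro y h0 h1
    obtain ⟨p, hp, h2, h3⟩ := exists_piece (x := x) hP (hx0 ▸ h0) (hxP ▸ h1)
    rw [ht₀ p hp y h2 h3]
    have hv : (y - x p) / (x (p + 1) - x p) ∈ Set.Icc (0:ℝ) 1 :=
      ⟨div_nonneg (by linarith) (hγ p hp).le, by rw [div_le_one (hγ p hp)]; linarith⟩
    simp only [hU]
    split_ifs
    · exact prof_mem (hh p hp) (hG p hp) hv
    · exact prof_mem (hh p hp) (hG p hp) ⟨by linarith [hv.2], by linarith [hv.1]⟩
  set B : ℝ := ∑ p ∈ range P, 1 / (x (p + 1) - x p) with hB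
  have hB0 : 0 ≤ B := sum_nonneg fun p hp => by have := hγ p (mem_range.1 hp); positivity
  set δ : ℝ := min (bot / 2) (1 - top) with hδ
  have hδ0 : 0 < δ := lt_min (by linarith) (by linarith)
  obtain ⟨N₀, hN₀⟩ := kernel_approx δ (2 * Real.pi * (L + B + 1)) ε hδ0 hε
  refine ⟨B, max N₀ (⌈2 / bot⌉₊ + 1), fun N hN c => ?_⟩
  obtain ⟨v, hv, hker⟩ := hN₀ N (le_of_max_le_left hN)
  have hN1 : 2 / bot + 1 ≤ N := by
    have h1 : ((⌈2 / bot⌉₊ + 1 : ℕ) : ℝ) ≤ N := by exact_mod_cast le_of_max_le_right hN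
    push_cast at h1
    linarith [Nat.le_ceil (2 / bot)]
  have hN2 : (0 : ℝ) < N := by have : 0 < 2 / bot := by positivity
                               linarith
  have hN3 : 2 ≤ N * bot := by
    have : 2 / bot ≤ N := by linarith
    rwa [div_le_iff₀ hbot] at this
  -- targets
  set y : ℕ → ℝ := fun p => if p % 2 = 0 then -c p else c p - N * (x (p + 1) - x p) * G p 1 with hy
  set e : ℕ → ℝ := fun p => if main p ∧ p < P then y p else
    if 0 < p ∧ main (p - 1) then y (p - 1) + N * (x (p - 1 + 1) - x (p - 1)) * G (p - 1) 1 else 0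
    with he
  set b : ℕ → ℝ := fun p =>
    Int.fract (e (p + 1) - e p - N * (x (p + 1) - x p) * G p 1) / (x (p + 1) - x p) with hb
  have hbb : ∀ p < P, |b p| ≤ 1 / (x (p + 1) - x p) := by
    intro p hp
    simp only [hb]
    rw [abs_div, abs_of_pos (hγ p hp), abs_of_nonneg (Int.fract_nonneg _)]
    exact div_le_div_of_nonneg_right (Int.fract_lt_one _).le (hγ p hp).le
  have hemain : ∀ p < P, main p → e p = y p ∧
      e (p + 1) = y p + N * (x (p + 1) - x p) * G p 1 := by
    intro p hp hm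
    simp only [he]
    rw [if_pos ⟨hm, hp⟩, if_neg (fun h => hadj p hm h.1), if_pos ⟨Nat.succ_pos _, hm⟩]
    exact ⟨rfl, rfl⟩
  obtain ⟨β, hβm, hβb, hβ⟩ := stepfun hx b
  have hβB : ∀ y, |β y| ≤ B := fun y =>
    (hβb y).trans (sum_le_sum fun p hp => hbb p (mem_range.1 hp))
  obtain ⟨Ψ, hΨc, hΨ0, hodd, hper, hinc, hΨ⟩ := phase hL0 hL hβm hβB N hN2.le
  have hGc : ∀ p < P, Continuous (G p) := fun p hp =>
    continuous_iff_continuousAt.2 fun v => ((hG p hp).hG v).continuousAt
  have hTc : ∀ p < P, Continuous (T p) := fun p hp =>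
    continuous_iff_continuousAt.2 fun v => ((hG p hp).hT v).continuousAt
  -- the phase on each piece
  have heven : ∀ p < P, p % 2 = 0 → ∀ w ∈ Set.Icc (0:ℝ) 1,
      Ψ (x p + (x (p + 1) - x p) * w) = Ψ (x p) + (x (p + 1) - x p) * (N * G p w + b p * w) := by
    intro p hp h2 w hw
    have := piece_phase (hxl p hp.le).1 (hx p hp) (hxl (p + 1) hp).2 hΨ (hG p hp).hG (hTc p hp)
      (fun y h0 h1 => by rw [ht₀ p hp y h0 h1]; simp only [hU]; rw [if_pos h2]) (hβ p hp) hw
    rwa [(hG p hp).G0, sub_zero] at this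
  have hodd0 : ∀ p < P, ¬ p % 2 = 0 → ∀ w ∈ Set.Icc (0:ℝ) 1,
      Ψ (x p + (x (p + 1) - x p) * w) =
        Ψ (x p) + (x (p + 1) - x p) * (N * (G p 1 - G p (1 - w)) + b p * w) := by
    intro p hp h2 w hw
    have := piece_phase (G := fun v => -G p (1 - v)) (U := fun v => T p (1 - v))
      (hxl p hp.le).1 (hx p hp) (hxl (p + 1) hp).2 hΨ
      (fun v => by
        have d1 : HasDerivAt (fun v : ℝ => 1 - v) (-1) v := (hasDerivAt_id v).const_sub 1
        have d2 := (((hG p hp).hG (1 - v)).comp v d1).neg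
        rw [mul_neg, mul_one, neg_neg] at d2
        exact d2) ((hTc p hp).comp (by fun_prop))
      (fun y h0 h1 => by rw [ht₀ p hp y h0 h1]; simp only [hU]; rw [if_neg h2]) (hβ p hp) hw
    rw [this]
    simp only [sub_zero]
    ring
  have hnext : ∀ p < P, Ψ (x (p + 1)) = Ψ (x p) + (x (p + 1) - x p) * (N * G p 1 + b p) := by
    intro p hp
    by_cases h2 : p % 2 = 0
    · have := heven p hp h2 1 ⟨zero_le_one, le_rfl⟩
      rwa [mul_one, add_sub_cancel, mul_one] at this
    · have := hodd0 p hp h2 1 ⟨zero_le_one, le_rfl⟩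
      rwa [mul_one, add_sub_cancel, mul_one, sub_self, (hG p hp).G0, sub_zero] at this
  have hodd1 : ∀ p < P, ¬ p % 2 = 0 → ∀ w ∈ Set.Icc (0:ℝ) 1,
      Ψ (x (p + 1) - (x (p + 1) - x p) * w) =
        Ψ (x (p + 1)) - (x (p + 1) - x p) * (N * G p w + b p * w) := by
    intro p hp h2 w hw
    have := hodd0 p hp h2 (1 - w) ⟨by linarith [hw.2], by linarith [hw.1]⟩
    rw [show x (p + 1) - (x (p + 1) - x p) * w = x p + (x (p + 1) - x p) * (1 - w) by ring, this,
      hnext p hp, sub_sub_cancel]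
    ring
  have hint : ∀ p ≤ P, ∃ z : ℤ, Ψ (x p) = e p + z := by
    intro p hp
    induction p with
    | zero =>
      refine ⟨0, ?_⟩
      simp only [he]
      rw [hx0, hΨ0, if_neg (fun h => hm0 h.1), if_neg (fun h => lt_irrefl _ h.1)]
      simp
    | succ p ih =>
      obtain ⟨z, hz⟩ := ih (by omega)
      refine ⟨z - ⌊e (p + 1) - e p - N * (x (p + 1) - x p) * G p 1⌋, ?_⟩
      have h1 : (x (p + 1) - x p) * b p =
          Int.fract (e (p + 1) - e p - N * (x (p + 1) - x p) * G p 1) := by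
        simp only [hb]
        rw [mul_div_cancel₀ _ (hγ p hp).ne']
      rw [hnext p hp, mul_add, h1, hz, Int.fract]
      push_cast
      ring
  set c' : ℕ → ℝ := fun p => if main p then c p else
    if p % 2 = 0 then -Ψ (x p) else Ψ (x (p + 1)) with hc'
  have hc'e : ∀ p < P, ∃ z : ℤ, c' p = (if p % 2 = 0 then -Ψ (x p) else Ψ (x (p + 1))) + z := by
    intro p hp
    simp only [hc']
    by_cases hm : main p
    · rw [if_pos hm]
      obtain ⟨e1, e2⟩ := hemain p hp hm
      by_cases h2 : p % 2 = 0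
      · obtain ⟨z, hz⟩ := hint p hp.le
        refine ⟨z, ?_⟩
        rw [if_pos h2, hz, e1]
        simp only [hy]
        rw [if_pos h2]
        ring
      · obtain ⟨z, hz⟩ := hint (p + 1) hp
        refine ⟨-z, ?_⟩
        rw [if_neg h2, hz, e2]
        simp only [hy]
        rw [if_neg h2]
        push_cast
        ring
    · exact ⟨0, by rw [if_neg hm]; simp⟩
  refine ⟨v, b, c', hv, fun p hp => (hbb p hp).trans ?_, fun p hp hm => ⟨?_, ?_⟩, fun θ => ?_⟩
  · exact single_le_sum (f := fun p => 1 / (x (p + 1) - x p))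
      (fun q hq => by have := hγ q (mem_range.1 hq); positivity) (mem_range.2 hp)
  · obtain ⟨e1, e2⟩ := hemain p hp hm
    simp only [hb]
    rw [e1, e2]
    simp
  · simp only [hc']
    rw [if_pos hm]
  -- coefficients
  have hpiece : ∀ k : ℕ, ∀ p < P, pieceTerm x G N b c' k p = Real.sqrt N *
      (2 * ∫ s in x p..x (p + 1), Real.cos (2 * Real.pi * (k * s - Ψ s))) := by
    intro k p hp
    obtain ⟨z, hz⟩ := hc'e p hp
    unfold pieceTerm
    rw [hz, ← add_assoc, ee_add_int, re_J _ (hGc p hp), Real.sqrt_mul hN2.le]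
    have hs : Real.sqrt (x (p + 1) - x p) * Real.sqrt (x (p + 1) - x p) = x (p + 1) - x p :=
      Real.mul_self_sqrt (hγ p hp).le
    by_cases h2 : p % 2 = 0
    · rw [if_pos h2, if_pos h2]
      have h3 := intervalIntegral.smul_integral_comp_add_mul (a := 0) (b := 1)
        (fun s => Real.cos (2 * Real.pi * (k * s - Ψ s))) (x (p + 1) - x p) (x p)
      rw [mul_zero, add_zero, mul_one, add_sub_cancel, smul_eq_mul] at h3
      rw [← h3]
      have h4 : ∫ w in (0:ℝ)..1, Real.cos (2 * Real.pi * (k * (x p + (x (p + 1) - x p) * w) -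
          Ψ (x p + (x (p + 1) - x p) * w))) = ∫ w in (0:ℝ)..1, Real.cos (2 * Real.pi *
            (k * x p + -Ψ (x p) + N * (x (p + 1) - x p) * ((k - b p) / N * w - G p w))) := by
        apply intervalIntegral.integral_congr
        intro w hw
        rw [Set.uIcc_of_le zero_le_one] at hw
        simp only
        rw [heven p hp h2 w hw]
        congr 2
        field_simp
        ring
      rw [h4]
      linear_combination (2 * Real.sqrt N * ∫ w in (0:ℝ)..1, Real.cos (2 * Real.pi *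
            (k * x p + -Ψ (x p) + N * (x (p + 1) - x p) * ((k - b p) / N * w - G p w)))) * hs
    · rw [if_neg h2, if_neg h2]
      have h3 := intervalIntegral.smul_integral_comp_sub_mul (a := 0) (b := 1)
        (fun s => Real.cos (2 * Real.pi * (k * s - Ψ s))) (x (p + 1) - x p) (x (p + 1))
      rw [mul_zero, sub_zero, mul_one, sub_sub_cancel, smul_eq_mul] at h3
      rw [← h3]
      have h4 : ∫ w in (0:ℝ)..1, Real.cos (2 * Real.pi * (k * (x (p + 1) - (x (p + 1) - x p) * w) -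
          Ψ (x (p + 1) - (x (p + 1) - x p) * w))) = ∫ w in (0:ℝ)..1, Real.cos (2 * Real.pi *
            (-(k * x (p + 1)) + Ψ (x (p + 1)) +
              N * (x (p + 1) - x p) * ((k - b p) / N * w - G p w))) := by
        apply intervalIntegral.integral_congr
        intro w hw
        rw [Set.uIcc_of_le zero_le_one] at hw
        simp only
        rw [hodd1 p hp h2 w hw, ← Real.cos_neg]
        congr 1
        field_simp
        ring
      rw [h4]
      linear_combination (2 * Real.sqrt N * ∫ w in (0:ℝ)..1, Real.cos (2 * Real.pi *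
            (-(k * x (p + 1)) + Ψ (x (p + 1)) +
              N * (x (p + 1) - x p) * ((k - b p) / N * w - G p w)))) * hs
  have hcoef : ∀ k : ℕ, ((v k * ∑ p ∈ range P, pieceTerm x G N b c' k p : ℝ) : ℂ) =
      (Real.sqrt N : ℂ) * ((v k : ℂ) *
        ∫ s in (-1 / 2 : ℝ)..(1 / 2), ee (Ψ s) * ee (-(k * s))) := by
    intro k
    rw [coeff_eq hΨc hodd, sum_congr rfl fun p hp => hpiece k p (mem_range.1 hp), ← mul_sum,
      ← mul_sum, intervalIntegral.sum_integral_adjacent_intervals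
        (fun p _ => Continuous.intervalIntegrable (by fun_prop) _ _), hx0, hxP]
    push_cast
    ring
  have happ := hker (fun s => ee (Ψ s)) (by fun_prop) (fun θ => by
      obtain ⟨z, hz⟩ := hint P le_rfl
      have h1 : e P = 0 := by
        simp only [he]
        rw [if_neg (fun h => lt_irrefl _ h.2), if_neg (fun h => hmP h.2)]
      rw [hxP, h1, zero_add] at hz
      rw [hper, hz, show (2 : ℝ) * z = ((2 * z : ℤ) : ℝ) by push_cast; ring, ee_add_int])
    (fun θ => by simp) (fun θ => by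
      obtain ⟨a1, a2⟩ := ht₀m (nn θ) (nn_nonneg θ) (nn_le θ)
      have a3 : 0 ≤ N * t₀ (nn θ) := mul_nonneg hN2.le (by linarith)
      have a4 := Nat.floor_le a3
      have a5 := Nat.lt_floor_add_one (N * t₀ (nn θ))
      have a6 : δ ≤ bot / 2 := min_le_left _ _
      have a7 : δ ≤ 1 - top := min_le_right _ _
      refine ⟨⌊N * t₀ (nn θ)⌋₊, by nlinarith, by nlinarith, fun φ => ?_⟩
      rw [← ee_add]
      refine (norm_ee_sub_ee_le _ _).trans ?_
      rw [mul_assoc (2 * Real.pi)]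
      apply mul_le_mul_of_nonneg_left _ (by positivity)
      have b1 := hinc θ φ
      have b2 : |(N * t₀ (nn θ) - ⌊N * t₀ (nn θ)⌋₊) * φ| ≤ |φ| := by
        rw [abs_mul]
        apply mul_le_of_le_one_left (abs_nonneg _)
        rw [abs_le]; constructor <;> linarith
      have b3 := abs_add_le (Ψ (θ + φ) - Ψ θ - N * t₀ (nn θ) * φ)
        ((N * t₀ (nn θ) - ⌊N * t₀ (nn θ)⌋₊) * φ)
      rw [show Ψ (θ + φ) - Ψ θ - N * t₀ (nn θ) * φ + (N * t₀ (nn θ) - ⌊N * t₀ (nn θ)⌋₊) * φ =
        Ψ (θ + φ) - (Ψ θ + ⌊N * t₀ (nn θ)⌋₊ * φ) by ring] at b3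
      rw [← sq_abs φ]
      have b4 := abs_nonneg φ
      have b5 : 0 ≤ N * |φ| ^ 2 := by positivity
      nlinarith [mul_nonneg hB0 b5, mul_nonneg hL0 b4]) θ
  simp only [hcoef, mul_assoc]
  rw [← mul_sum, norm_mul, Complex.norm_real, Real.norm_eq_abs, abs_of_nonneg (Real.sqrt_nonneg _)]
  simp only [mul_assoc] at happ
  have h1 := (abs_norm_sub_norm_le _ _).trans happ
  rw [norm_ee] at h1
  rw [← mul_sub_one, abs_mul, abs_of_nonneg (Real.sqrt_nonneg _), mul_comm]
  exact mul_le_mul_of_nonneg_right h1 (Real.sqrt_nonneg _)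

end Crest.Agent.R75
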