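import Crest.Agent.R75.Coloring

/-!
Task T5b for result 75: near-perfect packing of the arcs swept by the lines.
-/

set_option autoImplicit false

namespace Crest.Agent.R75

open Finset

namespace Packing

/-- A shift `x₀` making the numbers `n i * x₀ + μ i` multiplicatively independent. -/
lemma exists_shift {ι : Type} [Fintype ι] (n : ι → ℕ) (μ : ι → ℤ) (hn : ∀ i, 1 ≤ n i)
    (hnp : ∀ i i', i ≠ i' → (n i : ℤ) * μ i' ≠ (n i' : ℤ) * μ i) :
    ∃ x : ℤ, (∀ i, (n i : ℤ) * x + μ i ≠ 0) ∧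
      ∀ e e' : ι → ℕ, |∏ i, ((n i : ℤ) * x + μ i) ^ e i| = |∏ i, ((n i : ℤ) * x + μ i) ^ e' i| →
        e = e' := by
  classical
  set M : ℕ := ∑ i, n i + ∑ i, ∑ i', ((n i : ℤ) * μ i' - (n i' : ℤ) * μ i).natAbs with hM
  set idx := Fintype.equivFin ι
  set p : ι → ℕ := fun i => Nat.nth Nat.Prime (M + (idx i : ℕ)) with hp
  have hpp : ∀ i, (p i).Prime := fun i => Nat.prime_nth_prime _
  have hpM : ∀ i, M < p i := fun i => by
    have := Nat.add_two_le_nth_prime (M + (idx i : ℕ))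
    simp only [hp]; omega
  have hpinj : Function.Injective p := by
    intro i i' h
    have h1 := Nat.nth_injective Nat.infinite_setOfPred_prime h
    have h2 : (idx i : ℕ) = idx i' := by omega
    exact idx.injective (Fin.ext h2)
  have hnM : ∀ i, n i ≤ M := fun i => by
    have : n i ≤ ∑ i, n i := Finset.single_le_sum (f := n) (fun _ _ => Nat.zero_le _) (mem_univ i)
    omega
  have hdM : ∀ i i', ((n i : ℤ) * μ i' - (n i' : ℤ) * μ i).natAbs ≤ M := fun i i' => by
    have h1 : ((n i : ℤ) * μ i' - (n i' : ℤ) * μ i).natAbs ≤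
        ∑ i', ((n i : ℤ) * μ i' - (n i' : ℤ) * μ i).natAbs :=
      Finset.single_le_sum (f := fun i' => ((n i : ℤ) * μ i' - (n i' : ℤ) * μ i).natAbs)
        (fun _ _ => Nat.zero_le _) (mem_univ i')
    have h2 : ∑ i', ((n i : ℤ) * μ i' - (n i' : ℤ) * μ i).natAbs ≤
        ∑ i, ∑ i', ((n i : ℤ) * μ i' - (n i' : ℤ) * μ i).natAbs :=
      Finset.single_le_sum (f := fun i => ∑ i', ((n i : ℤ) * μ i' - (n i' : ℤ) * μ i).natAbs)
        (fun _ _ => Nat.zero_le _) (mem_univ i)
    omega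
  have hcop : Set.Pairwise ((univ : Finset ι) : Set ι) (Function.onFun Nat.Coprime p) := by
    intro i _ i' _ hne
    exact (Nat.coprime_primes (hpp i) (hpp i')).2 (fun h => hne (hpinj h))
  obtain ⟨k, hk⟩ := Nat.chineseRemainderOfFinset
    (fun i => ((-(μ i : ZMod (p i))) * ((n i : ZMod (p i)))⁻¹).val) p univ
    (fun i _ => (hpp i).ne_zero) hcop
  set T : ℕ := ∑ i, (μ i).natAbs + 1 with hT
  set x : ℕ := k + (∏ i, p i) * T with hx
  have hxT : T ≤ x := by
    have : 1 ≤ ∏ i, p i := Finset.one_le_prod' (fun i _ => (hpp i).one_le)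
    have : T ≤ (∏ i, p i) * T := Nat.le_mul_of_pos_left _ this
    omega
  have hpos : ∀ i, 0 < (n i : ℤ) * x + μ i := fun i => by
    have h1 : (μ i).natAbs ≤ ∑ i, (μ i).natAbs :=
      Finset.single_le_sum (f := fun i => (μ i).natAbs) (fun _ _ => Nat.zero_le _) (mem_univ i)
    have h2 : x ≤ n i * x := Nat.le_mul_of_pos_left _ (hn i)
    have h3 : ((n i * x : ℕ) : ℤ) = (n i : ℤ) * x := by push_cast; ring
    omega
  have hdvd : ∀ i, (p i : ℤ) ∣ (n i : ℤ) * x + μ i := fun i => by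
    have : Fact (p i).Prime := ⟨hpp i⟩
    rw [← ZMod.intCast_zmod_eq_zero_iff_dvd]
    have h1 : (k : ZMod (p i)) = (-(μ i : ZMod (p i))) * ((n i : ZMod (p i)))⁻¹ := by
      have := (ZMod.natCast_eq_natCast_iff _ _ _).2 (hk i (mem_univ i))
      rw [this, ZMod.natCast_zmod_val]
    have h2 : ((∏ i, p i : ℕ) : ZMod (p i)) = 0 := by
      rw [ZMod.natCast_eq_zero_iff]
      exact Finset.dvd_prod_of_mem p (mem_univ i)
    have h3 : (n i : ZMod (p i)) ≠ 0 := by
      rw [Ne, ZMod.natCast_eq_zero_iff]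
      exact Nat.not_dvd_of_pos_of_lt (hn i) (lt_of_le_of_lt (hnM i) (hpM i))
    have h4 : (x : ZMod (p i)) = k := by
      rw [hx, Nat.cast_add, Nat.cast_mul, h2]; simp
    push_cast
    rw [h4, h1]
    field_simp
    ring
  have hndvd : ∀ i i', i ≠ i' → ¬ (p i : ℤ) ∣ (n i' : ℤ) * x + μ i' := fun i i' hne h => by
    have h1 : (p i : ℤ) ∣ (n i : ℤ) * μ i' - (n i' : ℤ) * μ i := by
      have : (n i : ℤ) * μ i' - (n i' : ℤ) * μ i =
          (n i : ℤ) * ((n i' : ℤ) * x + μ i') - (n i' : ℤ) * ((n i : ℤ) * x + μ i) := by ring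
      rw [this]
      exact dvd_sub (Dvd.dvd.mul_left h _) (Dvd.dvd.mul_left (hdvd i) _)
    have h2 : p i ∣ ((n i : ℤ) * μ i' - (n i' : ℤ) * μ i).natAbs := Int.natCast_dvd.1 h1
    have h3 : 0 < ((n i : ℤ) * μ i' - (n i' : ℤ) * μ i).natAbs :=
      Int.natAbs_pos.2 (sub_ne_zero.2 (hnp i i' hne))
    exact Nat.not_dvd_of_pos_of_lt h3 (lt_of_le_of_lt (hdM i i') (hpM i)) h2
  refine ⟨x, fun i => (hpos i).ne', fun e e' h => ?_⟩
  set β : ι → ℕ := fun i => ((n i : ℤ) * x + μ i).natAbs with hβ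
  have hβ0 : ∀ i, β i ≠ 0 := fun i => Int.natAbs_ne_zero.2 (hpos i).ne'
  have hprod : ∀ e : ι → ℕ, |∏ i, ((n i : ℤ) * x + μ i) ^ e i| = ((∏ i, β i ^ e i : ℕ) : ℤ) := by
    intro e
    rw [Finset.abs_prod]
    push_cast
    refine Finset.prod_congr rfl fun i _ => ?_
    rw [abs_pow]
    simp [hβ]
  rw [hprod, hprod] at h
  have h' : ∏ i, β i ^ e i = ∏ i, β i ^ e' i := by exact_mod_cast h
  have hfac : ∀ (e : ι → ℕ) (i : ι),
      (∏ j, β j ^ e j).factorization (p i) = e i * (β i).factorization (p i) := by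
    intro e i
    rw [Nat.factorization_prod (fun j _ => pow_ne_zero _ (hβ0 j))]
    rw [Finsupp.finsetSum_apply, Finset.sum_eq_single i]
    · rw [Nat.factorization_pow]; simp
    · intro j _ hj
      rw [Nat.factorization_pow]
      have : ¬ p i ∣ β j := fun hd => hndvd i j hj.symm (Int.natCast_dvd.2 hd)
      simp [Nat.factorization_eq_zero_of_not_dvd this]
    · simp
  funext i
  have h1 := hfac e i
  rw [h', hfac e' i] at h1
  have h2 : 0 < (β i).factorization (p i) :=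
    (hpp i).factorization_pos_of_dvd (hβ0 i) (Int.natCast_dvd.1 (hdvd i))
  exact (Nat.eq_of_mul_eq_mul_right h2 h1).symm

/-- Splitting the index set into groups of equal `n` and size at most `B / n`. -/
lemma exists_groups {ι : Type} [Fintype ι] (K B : ℕ) (n : ι → ℕ) (hn : ∀ i, 1 ≤ n i ∧ n i ≤ K)
    (hB : ∀ k, 1 ≤ k → k ≤ K → k ∣ B) (hB0 : 0 < B) :
    ∃ (s : ℕ) (grp pos : ι → ℕ), (∀ i, grp i < s) ∧ (∀ i, pos i < B / n i) ∧
      (∀ i i', grp i = grp i' → n i = n i') ∧
      (∀ i i', grp i = grp i' → pos i = pos i' → i = i') ∧ B * s ≤ ∑ i, n i + K * B := by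
  classical
  set idx := Fintype.equivFin ι
  set m : ℕ → ℕ := fun k => (univ.filter (fun i => n i = k)).card with hm
  set e : ι → ℕ := fun i => (univ.filter (fun i' => n i' = n i ∧ idx i' < idx i)).card with he
  have hd : ∀ i, 0 < B / n i := fun i =>
    Nat.div_pos (Nat.le_of_dvd hB0 (hB _ (hn i).1 (hn i).2)) (hn i).1
  have hem : ∀ i, e i ≤ m (n i) := fun i => by
    apply Finset.card_le_card
    intro j hj
    simp only [mem_filter, mem_univ, true_and] at hj ⊢
    exact hj.1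
  have hlt : ∀ i i', n i = n i' → idx i < idx i' → e i < e i' := fun i i' h1 h2 => by
    apply Finset.card_lt_card
    rw [Finset.ssubset_iff_of_subset]
    · refine ⟨i, ?_, ?_⟩
      · simp [h1, h2]
      · simp
    · intro j hj
      simp only [mem_filter, mem_univ, true_and] at hj ⊢
      exact ⟨hj.1.trans h1, hj.2.trans h2⟩
  have heinj : ∀ i i', n i = n i' → e i = e i' → i = i' := fun i i' h1 h2 => by
    rcases lt_trichotomy (idx i) (idx i') with h | h | h
    · have := hlt i i' h1 h; omega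
    · exact idx.injective h
    · have := hlt i' i h1.symm h; omega
  set lab : ι → ℕ × ℕ := fun i => (n i, e i / (B / n i)) with hlab
  set Γ : Finset (ℕ × ℕ) := univ.image lab with hΓ
  have hmem : ∀ i, lab i ∈ Γ := fun i => Finset.mem_image_of_mem _ (mem_univ i)
  have hg : ∀ i i', (Γ.equivFin ⟨lab i, hmem i⟩ : ℕ) = Γ.equivFin ⟨lab i', hmem i'⟩ →
      lab i = lab i' := fun i i' h => by
    have := Γ.equivFin.injective (Fin.ext h)
    exact congrArg Subtype.val this
  refine ⟨Γ.card, fun i => (Γ.equivFin ⟨lab i, hmem i⟩ : ℕ), fun i => e i % (B / n i),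
    fun i => Fin.is_lt _, fun i => Nat.mod_lt _ (hd i), fun i i' h => ?_, fun i i' h h' => ?_, ?_⟩
  · exact congrArg Prod.fst (hg i i' h)
  · have h1 := hg i i' h
    have h2 : n i = n i' := congrArg Prod.fst h1
    have h3 : e i / (B / n i) = e i' / (B / n i') := congrArg Prod.snd h1
    apply heinj i i' h2
    simp only at h'
    rw [← Nat.div_add_mod (e i) (B / n i), ← Nat.div_add_mod (e i') (B / n i'), h3, h', h2]
  · have hsub : Γ ⊆ (Icc 1 K).biUnion
        (fun k => (range (m k / (B / k) + 1)).image (fun t => (k, t))) := by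
      intro z hz
      obtain ⟨i, -, rfl⟩ := Finset.mem_image.1 hz
      simp only [mem_biUnion, mem_Icc, mem_image, mem_range]
      refine ⟨n i, hn i, e i / (B / n i), ?_, rfl⟩
      exact Nat.lt_succ_of_le (Nat.div_le_div_right (hem i))
    have hcard : Γ.card ≤ ∑ k ∈ Icc 1 K, (m k / (B / k) + 1) := by
      refine (Finset.card_le_card hsub).trans (Finset.card_biUnion_le.trans ?_)
      refine Finset.sum_le_sum fun k _ => ?_
      exact Finset.card_image_le.trans (by simp)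
    have hS : ∑ i, n i = ∑ k ∈ Icc 1 K, k * m k := by
      rw [← Finset.sum_fiberwise_of_maps_to (s := univ) (t := Icc 1 K) (g := n)
        (fun i _ => mem_Icc.2 (hn i))]
      refine Finset.sum_congr rfl fun k _ => ?_
      rw [Finset.sum_congr rfl (g := fun _ => k) (fun i hi => (mem_filter.1 hi).2)]
      simp [hm, mul_comm]
    calc B * Γ.card ≤ B * ∑ k ∈ Icc 1 K, (m k / (B / k) + 1) := Nat.mul_le_mul_left _ hcard
      _ = ∑ k ∈ Icc 1 K, B * (m k / (B / k) + 1) := Finset.mul_sum _ _ _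
      _ ≤ ∑ k ∈ Icc 1 K, (k * m k + B) := by
        refine Finset.sum_le_sum fun k hk => ?_
        obtain ⟨d, hd⟩ := hB k (mem_Icc.1 hk).1 (mem_Icc.1 hk).2
        have hk0 : 0 < k := (mem_Icc.1 hk).1
        have : B / k = d := by rw [hd]; exact Nat.mul_div_cancel_left d hk0
        rw [this, mul_add, mul_one]
        apply Nat.add_le_add_right
        rw [hd, mul_assoc]
        exact Nat.mul_le_mul_left _ (Nat.mul_div_le _ _)
      _ = ∑ i, n i + K * B := by
        rw [Finset.sum_add_distrib, hS]; simp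

lemma split_cong (B q : ℕ) (hB : 0 < B) (X X' r r' : ℤ) (h0 : 0 ≤ r) (h1 : r < B) (h0' : 0 ≤ r')
    (h1' : r' < B) (h : ((B * q : ℕ) : ℤ) ∣ (B * X + r) - (B * X' + r')) :
    r = r' ∧ (X : ZMod q) = (X' : ZMod q) := by
  obtain ⟨t, ht⟩ := h
  push_cast at ht
  have hB' : (0 : ℤ) < B := by exact_mod_cast hB
  have h2 : r - r' = B * (q * t - X + X') := by linear_combination ht
  have h3 : q * t - X + X' = 0 := by
    by_contra hne
    rcases lt_or_gt_of_ne hne with h | h
    · have : (B : ℤ) * (q * t - X + X') ≤ B * (-1) := by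
        apply mul_le_mul_of_nonneg_left _ hB'.le; omega
      omega
    · have : (B : ℤ) * 1 ≤ B * (q * t - X + X') := by
        apply mul_le_mul_of_nonneg_left _ hB'.le; omega
      omega
  refine ⟨by rw [h3] at h2; omega, ?_⟩
  have : X = X' + q * t := by omega
  rw [this]; push_cast; simp

/-- The integer position of the first cell of slot `g`, index `i`. -/
def posF {ι : Type} (B q s : ℕ) (n : ι → ℕ) (α : ι → ℤ) (c : ZMod q → ZMod B × ZMod s × ZMod 2)
    (g : ZMod q) (i : ι) : ℤ := B * α i * g.val + n i * (c g).1.val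

lemma cells_sep {ι : Type} (K B q s : ℕ) (hB0 : 0 < B) [Fact q.Prime] (n : ι → ℕ)
    (hn : ∀ i, 1 ≤ n i ∧ n i ≤ K) (hnB : ∀ i, n i ∣ B) (α : ι → ℤ)
    (hα : ∀ i, (α i : ZMod q) ≠ 0) (grp pos : ι → ℕ) (hgs : ∀ i, grp i < s)
    (hpos : ∀ i, pos i < B / n i) (hgn : ∀ i i', grp i = grp i' → n i = n i')
    (hgp : ∀ i i', grp i = grp i' → pos i = pos i' → i = i')
    (c : ZMod q → ZMod B × ZMod s × ZMod 2) (Sl : Finset (ZMod q))
    (hSl : ∀ g ∈ Sl, ∀ g' ∈ Sl, (c g).2 = (c g').2)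
    (hc : ∀ g ∈ Sl, ∀ i, ∀ j : ℤ, |j| ≤ K →
      c (α i * g + j) = c g + ((pos i : ZMod B), (grp i : ZMod s), 0) ∧
      c (-(α i * g) + j) = c g + ((pos i : ZMod B), (grp i : ZMod s), 0) + (0, 0, 1))
    (g : ZMod q) (hg : g ∈ Sl) (g' : ZMod q) (hg' : g' ∈ Sl) (i i' : ι) (j j' : ℕ)
    (hj : j < n i) (hj' : j' < n i') :
    (((B * q : ℕ) : ℤ) ∣ (posF B q s n α c g i + j) - (posF B q s n α c g' i' + j') →
      g = g' ∧ i = i') ∧
    ¬ ((B * q : ℕ) : ℤ) ∣ (posF B q s n α c g i + j) + (posF B q s n α c g' i' + j') + 1 := by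
  have : NeZero B := ⟨hB0.ne'⟩
  have hdec : ∀ (g : ZMod q) (i : ι) (j : ℕ), posF B q s n α c g i + j =
      B * (α i * g.val + ((n i * (c g).1.val + j) / B : ℕ)) +
        ((n i * (c g).1.val + j) % B : ℕ) := by
    intro g i j
    have := Nat.div_add_mod (n i * (c g).1.val + j) B
    have h2 : ((B * ((n i * (c g).1.val + j) / B) + (n i * (c g).1.val + j) % B : ℕ) : ℤ) =
      ((n i * (c g).1.val + j : ℕ) : ℤ) := by rw [this]
    simp only [posF]
    rw [Nat.cast_add, Nat.cast_mul, Nat.cast_add, Nat.cast_mul] at h2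
    linear_combination -h2
  have hcar : ∀ (g : ZMod q) (i : ι) (j : ℕ), j < n i → (n i * (c g).1.val + j) / B < n i := by
    intro g i j hj
    rw [Nat.div_lt_iff_lt_mul hB0]
    have h1 : (c g).1.val + 1 ≤ B := ZMod.val_lt _
    have h2 := Nat.mul_le_mul_left (n i) h1
    rw [mul_add] at h2
    omega
  have hrem : ∀ t : ℕ, ((t % B : ℕ) : ℤ) < B := fun t => by exact_mod_cast Nat.mod_lt t hB0
  obtain ⟨u, hu⟩ : ∃ u, u = (n i * (c g).1.val + j) / B := ⟨_, rfl⟩
  obtain ⟨u', hu'⟩ : ∃ u', u' = (n i' * (c g').1.val + j') / B := ⟨_, rfl⟩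
  have huK : u < K := hu ▸ lt_of_lt_of_le (hcar g i j hj) (hn i).2
  have huK' : u' < K := hu' ▸ lt_of_lt_of_le (hcar g' i' j' hj') (hn i').2
  have h2 := hSl g hg g' hg'
  constructor
  · intro h
    rw [hdec, hdec, ← hu, ← hu'] at h
    obtain ⟨hr, hX⟩ := split_cong B q hB0 _ _ _ _ (Int.natCast_nonneg _) (hrem _)
      (Int.natCast_nonneg _) (hrem _) h
    have hX' : (α i : ZMod q) * g + ((u : ℤ) : ZMod q) = α i' * g' + ((u' : ℤ) : ZMod q) := by
      simpa using hX
    have e1 := (hc g hg i u (by rw [abs_of_nonneg (Int.natCast_nonneg _)]; omega)).1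
    have e2 := (hc g' hg' i' u' (by rw [abs_of_nonneg (Int.natCast_nonneg _)]; omega)).1
    rw [hX', e2] at e1
    have e3 := congrArg (fun z => z.2.1) e1
    have e4 := congrArg (fun z => z.1) e1
    simp only [Prod.fst_add, Prod.snd_add] at e3 e4
    rw [h2] at e3
    have e5 : grp i = grp i' := by
      have := congrArg ZMod.val (add_left_cancel e3)
      rw [ZMod.val_cast_of_lt (hgs i), ZMod.val_cast_of_lt (hgs i')] at this
      exact this.symm
    have hnn := hgn i i' e5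
    obtain ⟨d, hd⟩ := hnB i
    have hni : 0 < n i := (hn i).1
    have hBd : B / n i = d := by rw [hd]; exact Nat.mul_div_cancel_left d hni
    have hr' : (n i * (c g).1.val + j) ≡ (n i * (c g').1.val + j') [MOD B] := by
      have : (n i * (c g).1.val + j) % B = (n i' * (c g').1.val + j') % B := by exact_mod_cast hr
      rw [← hnn] at this
      exact this
    have hjj : j = j' := by
      have h3 : (n i * (c g).1.val + j) ≡ (n i * (c g').1.val + j') [MOD n i] :=
        hr'.of_dvd ⟨d, hd⟩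
      unfold Nat.ModEq at h3
      rw [Nat.mul_add_mod, Nat.mul_add_mod, Nat.mod_eq_of_lt hj,
        Nat.mod_eq_of_lt (hnn ▸ hj')] at h3
      exact h3
    subst hjj
    have h4 : (c g).1.val ≡ (c g').1.val [MOD d] := by
      have h5 := Nat.ModEq.add_right_cancel' j hr'
      exact Nat.ModEq.mul_left_cancel' hni.ne' (h5.of_dvd (dvd_of_eq hd.symm))
    have h5 : (c g').1.val + pos i' ≡ (c g).1.val + pos i [MOD B] := by
      rw [← ZMod.natCast_eq_natCast_iff]
      simpa using e4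
    have h6 : pos i = pos i' := by
      have h7 : (c g').1.val + pos i' ≡ (c g).1.val + pos i [MOD d] :=
        h5.of_dvd ⟨n i, by rw [hd, mul_comm]⟩
      have h8 : pos i' ≡ pos i [MOD d] := Nat.ModEq.add_left_cancel h4.symm h7
      have h9 := hpos i
      have h10 := hpos i'
      rw [← hnn] at h10
      rw [hBd] at h9 h10
      exact (Nat.ModEq.eq_of_lt_of_lt h8 h10 h9).symm
    have hii := hgp i i' e5 h6
    subst hii
    have h7 : (c g').1 = (c g).1 := add_right_cancel e4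
    have h8 : u = u' := by rw [hu, hu', h7]
    rw [h8] at hX'
    exact ⟨mul_left_cancel₀ (hα i) (add_right_cancel hX'), rfl⟩
  · intro h
    rw [hdec, hdec, ← hu, ← hu'] at h
    have h' : ((B * q : ℕ) : ℤ) ∣ (B * (α i * g.val + (u : ℕ)) +
        ((n i * (c g).1.val + j) % B : ℕ)) - (B * (-(α i' * g'.val) + (-(u' : ℤ) - 1)) +
        (B - 1 - ((n i' * (c g').1.val + j') % B : ℕ))) := by
      convert h using 1
      ring
    have hr' := hrem (n i' * (c g').1.val + j')
    have hr0 := Int.natCast_nonneg ((n i' * (c g').1.val + j') % B)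
    obtain ⟨-, hX⟩ := split_cong B q hB0 _ _ _ _ (Int.natCast_nonneg _) (hrem _)
      (by omega) (by omega) h'
    have hX' : (α i : ZMod q) * g + ((u : ℤ) : ZMod q) =
        -(α i' * g') + ((-(u' : ℤ) - 1 : ℤ) : ZMod q) := by
      simpa using hX
    have e1 := (hc g hg i u (by rw [abs_of_nonneg (Int.natCast_nonneg _)]; omega)).1
    have e2 := (hc g' hg' i' (-(u' : ℤ) - 1) (by rw [abs_le]; constructor <;> omega)).2
    rw [hX', e2] at e1
    have e3 := congrArg (fun z => z.2.2) e1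
    simp only [Prod.snd_add] at e3
    rw [h2] at e3
    simp at e3

end Packing

set_option maxHeartbeats 1600000 in
open Packing in
theorem packing {ι : Type} [Fintype ι] (K : ℕ) (hK : 1 ≤ K) (n : ι → ℕ) (μ : ι → ℤ)
    (hn : ∀ i, 1 ≤ n i ∧ n i ≤ K)
    (hnp : ∀ i i', i ≠ i' → (n i : ℤ) * μ i' ≠ (n i' : ℤ) * μ i)
    (ε : ℝ) (hε : 0 < ε) (hε1 : ε < 1)
    (hS : ((K * K.factorial : ℕ) : ℝ) ≤ ε * ∑ i, (n i : ℝ)) :
    ∃ (a : ℝ) (R : ℕ) (ω η : Fin R → ℝ) (l : Fin R × ι → ℝ) (up : Fin R × ι → Bool),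
      0 < a ∧ 1 - 3 * ε ≤ 2 * R * (∑ i, (n i : ℝ)) * a ∧
      (∀ q, 0 < l q ∧ l q + n q.2 * a < 1 / 2) ∧
      (∀ q q', q ≠ q' → l q + n q.2 * a < l q' ∨ l q' + n q'.2 * a < l q) ∧
      (∀ q, up q = true → ∃ z : ℤ, l q = n q.2 * ω q.1 + μ q.2 * η q.1 + z) ∧
      (∀ q, up q = false → ∃ z : ℤ, l q + n q.2 * a = -(n q.2 * ω q.1 + μ q.2 * η q.1) + z) := by
  classical
  obtain ⟨x, hx0, hind⟩ := exists_shift n μ (fun i => (hn i).1) hnp
  set B := K.factorial with hBdef
  have hB0 : 0 < B := Nat.factorial_pos K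
  have hB : ∀ k, 1 ≤ k → k ≤ K → k ∣ B := fun k h1 h2 => Nat.dvd_factorial h1 h2
  obtain ⟨s, grp, pos, hgs, hpos, hgn, hgp, hs⟩ := exists_groups K B n hn hB hB0
  set S : ℝ := ∑ i, (n i : ℝ) with hSdef
  have hKB : (0 : ℝ) < ((K * B : ℕ) : ℝ) := by exact_mod_cast Nat.mul_pos hK hB0
  have hS0 : 0 < S := by
    by_contra h
    have : ε * S ≤ 0 := mul_nonpos_of_nonneg_of_nonpos hε.le (not_lt.1 h)
    linarith
  have hs0 : 0 < s := by
    by_contra h
    have he : IsEmpty ι := ⟨fun i => by have := hgs i; omega⟩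
    simp [hSdef] at hS0
  have : NeZero s := ⟨hs0.ne'⟩
  set α : ι → ℤ := fun i => (n i : ℤ) * x + μ i with hα
  obtain ⟨q, hq, c, Good, hαq, hGood, hc⟩ := coloring α hx0 hind
    (C := ZMod B × ZMod s × ZMod 2) (fun i => ((pos i : ZMod B), (grp i : ZMod s), 0)) (0, 0, 1)
    (by ext <;> simp; rfl) K ε hε
  have hq0 : 0 < q := hq.out.pos
  -- pigeonhole
  obtain ⟨y, -, hy⟩ : ∃ y ∈ (univ : Finset (ZMod s × ZMod 2)),
      (Good.card : ℝ) / (2 * s) ≤ ((Good.filter (fun g => (c g).2 = y)).card : ℝ) := by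
    have h1 : ∑ _y ∈ (univ : Finset (ZMod s × ZMod 2)), (Good.card : ℝ) / (2 * s) ≤
        ∑ y ∈ (univ : Finset (ZMod s × ZMod 2)),
          ((Good.filter (fun g => (c g).2 = y)).card : ℝ) := by
      rw [← Nat.cast_sum, ← Finset.card_eq_sum_card_fiberwise (fun _ _ => mem_univ _)]
      have : (0 : ℝ) < s := by exact_mod_cast hs0
      simp only [sum_const, card_univ, Fintype.card_prod, ZMod.card, nsmul_eq_mul]
      apply le_of_eq
      push_cast
      field_simp
    exact Finset.exists_le_of_sum_le univ_nonempty h1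
  set Sl := Good.filter (fun g => (c g).2 = y) with hSl
  have hsep := cells_sep K B q s hB0 n hn (fun i => hB _ (hn i).1 (hn i).2) α hαq grp pos hgs hpos
    hgn hgp c Sl
    (fun g hg g' hg' => (mem_filter.1 hg).2.trans (mem_filter.1 hg').2.symm)
    (fun g hg => hc g (mem_filter.1 hg).1)
  set Q : ℕ := B * q with hQ
  have hQ0 : 0 < Q := Nat.mul_pos hB0 hq0
  have hQz : (0 : ℤ) < Q := by exact_mod_cast hQ0
  have hQr : (0 : ℝ) < Q := by exact_mod_cast hQ0
  set sl : Fin Sl.card → ZMod q := fun r => (Sl.equivFin.symm r : ZMod q) with hsl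
  have hslm : ∀ r, sl r ∈ Sl := fun r => (Sl.equivFin.symm r).2
  have hsli : Function.Injective sl := fun r r' h => Sl.equivFin.symm.injective (Subtype.ext h)
  set F : Fin Sl.card × ι → ℤ := fun z => posF B q s n α c (sl z.1) z.2 with hF
  set f : Fin Sl.card × ι → ℤ := fun z => F z % Q with hf
  have hf0 : ∀ z, 0 ≤ f z := fun z => Int.emod_nonneg _ hQz.ne'
  have hfQ : ∀ z, f z < Q := fun z => Int.emod_lt_of_pos _ hQz
  have hFf : ∀ z, F z = Q * (F z / Q) + f z := fun z => (Int.mul_ediv_add_emod _ _).symm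
  have hFf' : ∀ z, (F z : ℝ) = Q * ((F z / Q : ℤ) : ℝ) + f z := fun z => by
    have h := congrArg (Int.cast : ℤ → ℝ) (hFf z)
    rwa [Int.cast_add, Int.cast_mul, Int.cast_natCast] at h
  have hA : ∀ z z' : Fin Sl.card × ι, ∀ j j' : ℤ, 0 ≤ j → j < n z.2 → 0 ≤ j' → j' < n z'.2 →
      (Q : ℤ) ∣ (f z + j) - (f z' + j') → z = z' := by
    intro z z' j j' h1 h2 h3 h4 h
    lift j to ℕ using h1
    lift j' to ℕ using h3
    have := (hsep _ (hslm z.1) _ (hslm z'.1) z.2 z'.2 j j' (by exact_mod_cast h2)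
      (by exact_mod_cast h4)).1 (by
        show (Q : ℤ) ∣ (F z + j) - (F z' + j')
        rw [hFf z, hFf z']
        have : (Q : ℤ) * (F z / Q) + f z + j - (Q * (F z' / Q) + f z' + j') =
          Q * (F z / Q - F z' / Q) + ((f z + j) - (f z' + j')) := by ring
        rw [this]
        exact dvd_add (dvd_mul_right _ _) h)
    exact Prod.ext (hsli this.1) this.2
  have hBB : ∀ z z' : Fin Sl.card × ι, ∀ j j' : ℤ, 0 ≤ j → j < n z.2 → 0 ≤ j' → j' < n z'.2 →
      ¬ (Q : ℤ) ∣ (f z + j) + (f z' + j') + 1 := by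
    intro z z' j j' h1 h2 h3 h4 h
    lift j to ℕ using h1
    lift j' to ℕ using h3
    apply (hsep _ (hslm z.1) _ (hslm z'.1) z.2 z'.2 j j' (by exact_mod_cast h2)
      (by exact_mod_cast h4)).2
    show (Q : ℤ) ∣ (F z + j) + (F z' + j') + 1
    rw [hFf z, hFf z']
    have : (Q : ℤ) * (F z / Q) + f z + j + (Q * (F z' / Q) + f z' + j') + 1 =
      Q * (F z / Q + F z' / Q) + ((f z + j) + (f z' + j') + 1) := by ring
    rw [this]
    exact dvd_add (dvd_mul_right _ _) h
  have hn1 : ∀ i, (1 : ℤ) ≤ n i := fun i => by exact_mod_cast (hn i).1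
  have hBt : ∀ z : Fin Sl.card × ι, ∀ t : ℤ, 0 ≤ t → t ≤ 2 * n z.2 - 2 →
      ¬ (Q : ℤ) ∣ 2 * f z + t + 1 := by
    intro z t h1 h2 h
    apply hBB z z (t / 2) (t - t / 2) (by omega) (by omega) (by omega) (by omega)
    convert h using 1
    ring
  set up : Fin Sl.card × ι → Bool := fun z => decide (2 * f z < Q) with hup
  have hupT : ∀ z, 2 * f z < Q → 2 * (f z + n z.2) ≤ Q := by
    intro z h
    by_contra h'
    apply hBt z (Q - 2 * f z - 1) (by omega) (by omega)
    exact ⟨1, by ring⟩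
  have hupF : ∀ z, f z + n z.2 ≤ Q := by
    intro z
    by_contra h'
    have := hfQ z
    apply hBt z (2 * Q - 2 * f z - 1) (by omega) (by omega)
    exact ⟨2, by ring⟩
  set φ : Fin Sl.card × ι → ℤ := fun z => if 2 * f z < Q then f z else Q - f z - n z.2 with hφ
  have hφ0 : ∀ z, 0 ≤ φ z := fun z => by
    have := hf0 z
    have := hupF z
    simp only [hφ]; split_ifs <;> omega
  have hφ1 : ∀ z, 2 * (φ z + n z.2) ≤ Q := fun z => by
    have := hupT z
    simp only [hφ]; split_ifs <;> omega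
  have hφsep : ∀ z z', z ≠ z' → φ z + n z.2 ≤ φ z' ∨ φ z' + n z'.2 ≤ φ z := by
    intro z z' hne
    by_contra h
    push Not at h
    obtain ⟨h1, h2⟩ := h
    have a1 := hn1 z.2
    have a2 := hn1 z'.2
    obtain ⟨m, hm1, hm2, hm3, hm4⟩ : ∃ m : ℤ, φ z ≤ m ∧ m < φ z + n z.2 ∧ φ z' ≤ m ∧
        m < φ z' + n z'.2 := ⟨max (φ z) (φ z'), by omega, by omega, by omega, by omega⟩
    simp only [hφ] at hm1 hm2 hm3 hm4
    by_cases c1 : 2 * f z < Q <;> by_cases c2 : 2 * f z' < Q <;>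
      simp only [c1, c2, if_true, if_false] at hm1 hm2 hm3 hm4
    · exact hne (hA z z' (m - f z) (m - f z') (by omega) (by omega) (by omega) (by omega)
        ⟨0, by ring⟩)
    · exact hBB z z' (m - f z) (Q - 1 - m - f z') (by omega) (by omega) (by omega) (by omega)
        ⟨1, by ring⟩
    · exact hBB z z' (Q - 1 - m - f z) (m - f z') (by omega) (by omega) (by omega) (by omega)
        ⟨1, by ring⟩
    · exact hne (hA z z' (Q - 1 - m - f z) (Q - 1 - m - f z') (by omega) (by omega) (by omega)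
        (by omega) ⟨0, by ring⟩)
  have hnr : ∀ i, (1 : ℝ) ≤ n i := fun i => by exact_mod_cast (hn i).1
  have hBr : (0 : ℝ) < B := by exact_mod_cast hB0
  have hqr : (0 : ℝ) < q := by exact_mod_cast hq0
  have hQe : (Q : ℝ) = B * q := by rw [hQ]; push_cast; ring
  have hFr : ∀ z : Fin Sl.card × ι, (n z.2 : ℝ) *
      (((x : ℝ) * (sl z.1).val * B + (c (sl z.1)).1.val + ε / 2) / Q) +
      μ z.2 * (((sl z.1).val : ℝ) / q) = (F z + n z.2 * (ε / 2)) / Q := by
    intro z
    simp only [hF, posF, hα]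
    rw [hQe]
    push_cast
    field_simp
    ring
  refine ⟨(1 - ε) / Q, Sl.card,
    fun r => ((x : ℝ) * (sl r).val * B + (c (sl r)).1.val + ε / 2) / Q,
    fun r => ((sl r).val : ℝ) / q, fun z => (φ z + n z.2 * (ε / 2)) / Q, up,
    div_pos (by linarith) hQr, ?_, fun z => ⟨?_, ?_⟩, fun z z' hne => ?_, fun z hz => ?_,
    fun z hz => ?_⟩
  · have hsr : (0 : ℝ) < s := by exact_mod_cast hs0
    have h1 : (B : ℝ) * s ≤ S + (K * B : ℕ) := by
      rw [hSdef]; exact_mod_cast hs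
    have h2 : (B : ℝ) * s ≤ (1 + ε) * S := by linarith
    have h3 : (1 - ε) * q ≤ 2 * s * (Sl.card : ℝ) := by
      rw [div_le_iff₀ (by positivity)] at hy
      linarith
    rw [hQe, mul_div_assoc', le_div_iff₀ (by positivity)]
    have h4 : (1 - 3 * ε) * (1 + ε) ≤ (1 - ε) * (1 - ε) := by nlinarith
    have hR : (0 : ℝ) ≤ Sl.card := Nat.cast_nonneg _
    have h5 : (1 - ε) * (B * q) ≤ (1 + ε) * (2 * Sl.card * S) := by
      calc (1 - ε) * (B * q) = B * ((1 - ε) * q) := by ring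
        _ ≤ B * (2 * s * Sl.card) := mul_le_mul_of_nonneg_left h3 hBr.le
        _ = (B * s) * (2 * Sl.card) := by ring
        _ ≤ ((1 + ε) * S) * (2 * Sl.card) := mul_le_mul_of_nonneg_right h2 (by linarith)
        _ = _ := by ring
    have h6 : (1 + ε) * ((1 - 3 * ε) * (B * q)) ≤ (1 + ε) * (2 * Sl.card * S * (1 - ε)) := by
      calc (1 + ε) * ((1 - 3 * ε) * (B * q)) = ((1 - 3 * ε) * (1 + ε)) * (B * q) := by ring
        _ ≤ ((1 - ε) * (1 - ε)) * (B * q) := mul_le_mul_of_nonneg_right h4 (by positivity)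
        _ = (1 - ε) * ((1 - ε) * (B * q)) := by ring
        _ ≤ (1 - ε) * ((1 + ε) * (2 * Sl.card * S)) :=
          mul_le_mul_of_nonneg_left h5 (by linarith)
        _ = _ := by ring
    exact le_of_mul_le_mul_left h6 (by linarith)
  · have h1 : (0 : ℝ) ≤ φ z := by exact_mod_cast hφ0 z
    have := hnr z.2
    positivity
  · have h1 : 2 * ((φ z : ℝ) + n z.2) ≤ Q := by exact_mod_cast hφ1 z
    have := hnr z.2
    rw [mul_div_assoc', ← add_div, div_lt_iff₀ hQr]
    nlinarith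
  · have a1 := hnr z.2
    have a2 := hnr z'.2
    rcases hφsep z z' hne with h | h
    · left
      have h1 : (φ z : ℝ) + n z.2 ≤ φ z' := by exact_mod_cast h
      rw [mul_div_assoc', ← add_div, div_lt_div_iff_of_pos_right hQr]
      nlinarith
    · right
      have h1 : (φ z' : ℝ) + n z'.2 ≤ φ z := by exact_mod_cast h
      rw [mul_div_assoc', ← add_div, div_lt_div_iff_of_pos_right hQr]
      nlinarith
  · have h1 : 2 * f z < Q := by simpa [hup] using hz
    refine ⟨-(F z / Q), ?_⟩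
    rw [hFr z]
    have h2 : (F z : ℝ) = Q * ((F z / Q : ℤ) : ℝ) + f z := hFf' z
    simp only [hφ, h1, if_true]
    rw [Int.cast_neg]
    field_simp
    linarith
  · have h1 : ¬ 2 * f z < Q := by simpa [hup] using hz
    refine ⟨F z / Q + 1, ?_⟩
    rw [hFr z]
    have h2 : (F z : ℝ) = Q * ((F z / Q : ℤ) : ℝ) + f z := hFf' z
    simp only [hφ, h1, if_false]
    rw [Int.cast_add, Int.cast_sub, Int.cast_sub, Int.cast_natCast, Int.cast_natCast, Int.cast_one]
    field_simp
    linarith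

end Crest.Agent.R75
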