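import Crest.Agent.R75.Basic

/-!
Arranging disjoint oriented intervals into an alternating sequence of pieces, and time slots.
-/

set_option autoImplicit false

namespace Crest.Agent.R75

open Finset

namespace Pieces

lemma exists_between_finset {κ : Type} (s : Finset κ) (f : κ → ℝ) (y : ℝ) (hy : 0 < y)
    (h : ∀ q ∈ s, f q < y) : ∃ X : ℝ, 0 < X ∧ X < y ∧ ∀ q ∈ s, f q < X := by
  classical
  induction s using Finset.induction_on with
  | empty => exact ⟨y / 2, by positivity, by linarith, by simp⟩
  | insert a s ha ih =>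
    obtain ⟨X, h0, h1, h2⟩ := ih fun q hq => h q (mem_insert_of_mem hq)
    have h3 := h a (mem_insert_self _ _)
    refine ⟨max X ((f a + y) / 2), lt_max_of_lt_left h0, max_lt h1 (by linarith), ?_⟩
    intro q hq
    rcases mem_insert.1 hq with rfl | hq
    · exact lt_max_of_lt_right (by linarith)
    · exact lt_max_of_lt_left (h2 q hq)

end Pieces

theorem pieces {κ : Type} [DecidableEq κ] (l r : κ → ℝ) (up : κ → Bool) (s : Finset κ) :
    ∀ X : ℝ, 0 < X → (∀ q ∈ s, 0 < l q ∧ l q < r q ∧ r q < X) →
      (∀ q ∈ s, ∀ q' ∈ s, q ≠ q' → r q < l q' ∨ r q' < l q) →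
      ∃ (P : ℕ) (x : ℕ → ℝ) (idx : κ → ℕ), 0 < P ∧ P % 2 = 0 ∧ x 0 = 0 ∧ x P = X ∧
        (∀ p < P, x p < x (p + 1)) ∧
        ∀ q ∈ s, 0 < idx q ∧ idx q + 1 < P ∧ x (idx q) = l q ∧ x (idx q + 1) = r q ∧
          (idx q % 2 = 0 ↔ up q = true) := by
  induction s using Finset.induction_on_max_value l with
  | empty =>
    intro X hX _ _
    refine ⟨2, fun p => p * (X / 2), fun _ => 0, by norm_num, by norm_num, by simp,
      by push_cast; ring, ?_, by simp⟩
    intro p _
    push_cast
    nlinarith
  | insert a s ha hmax ih =>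
    intro X hX h0 hd
    have hra : ∀ q ∈ s, r q < l a := by
      intro q hq
      have hne : q ≠ a := fun h => ha (h ▸ hq)
      rcases hd q (mem_insert_of_mem hq) a (mem_insert_self _ _) hne with h | h
      · exact h
      · have := hmax q hq
        have := (h0 a (mem_insert_self _ _)).2.1
        linarith
    obtain ⟨hla, hlr, hrX⟩ := h0 a (mem_insert_self _ _)
    obtain ⟨X', hX'0, hX'1, hX'2⟩ := Pieces.exists_between_finset s r (l a) hla hra
    obtain ⟨P, x, idx, hP, hP2, hx0, hxP, hx, hidx⟩ := ih X' hX'0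
      (fun q hq => ⟨(h0 q (mem_insert_of_mem hq)).1, (h0 q (mem_insert_of_mem hq)).2.1,
        hX'2 q hq⟩)
      (fun q hq q' hq' hne => hd q (mem_insert_of_mem hq) q' (mem_insert_of_mem hq') hne)
    -- the four new break points
    obtain ⟨y1, y2, y3, i0, hy1, hy2, hy3, hy4, hi0, hpar⟩ :
        ∃ (y1 y2 y3 : ℝ) (i0 : ℕ), X' < y1 ∧ y1 < y2 ∧ y2 < y3 ∧ y3 < X ∧
          ((i0 = P + 1 ∧ y1 = l a ∧ y2 = r a) ∨ (i0 = P + 2 ∧ y2 = l a ∧ y3 = r a)) ∧
          (i0 % 2 = 0 ↔ up a = true) := by
      cases hu : up a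
      · exact ⟨l a, r a, (r a + X) / 2, P + 1, hX'1, hlr, by linarith, by linarith,
          Or.inl ⟨rfl, rfl, rfl⟩, by simp; omega⟩
      · exact ⟨(X' + l a) / 2, l a, r a, P + 2, by linarith, by linarith, hlr, hrX,
          Or.inr ⟨rfl, rfl, rfl⟩, by simp; omega⟩
    let x' : ℕ → ℝ := fun p => if p ≤ P then x p else if p = P + 1 then y1
      else if p = P + 2 then y2 else if p = P + 3 then y3 else X
    have e0 : ∀ p ≤ P, x' p = x p := fun p hp => by simp [x', hp]
    have e1 : x' (P + 1) = y1 := by simp [x']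
    have e2 : x' (P + 2) = y2 := by simp [x']
    have e3 : x' (P + 3) = y3 := by simp [x']
    have e4 : x' (P + 4) = X := by simp [x']
    refine ⟨P + 4, x', fun q => if q = a then i0 else idx q, by omega, by omega,
      by rw [e0 0 (Nat.zero_le _), hx0], e4, ?_, ?_⟩
    · intro p hp
      by_cases h1 : p < P
      · rw [e0 p h1.le, e0 (p + 1) h1]; exact hx p h1
      · have : p = P ∨ p = P + 1 ∨ p = P + 2 ∨ p = P + 3 := by omega
        rcases this with rfl | rfl | rfl | rfl
        · rw [e0 p le_rfl, e1, hxP]; exact hy1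
        · rw [e1, e2]; exact hy2
        · rw [e2, e3]; exact hy3
        · rw [e3, e4]; exact hy4
    · intro q hq
      rcases mem_insert.1 hq with rfl | hq
      · simp only [if_true]
        rcases hi0 with ⟨h1, h2, h3⟩ | ⟨h1, h2, h3⟩
        · subst h1
          exact ⟨by omega, by omega, by rw [e1, h2], by rw [e2, h3], hpar⟩
        · subst h1
          exact ⟨by omega, by omega, by rw [e2, h2], by rw [e3, h3], hpar⟩
      · have hne : q ≠ a := fun h => ha (h ▸ hq)
        simp only [if_neg hne]
        obtain ⟨h1, h2, h3, h4, h5⟩ := hidx q hq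
        exact ⟨h1, by omega, by rw [e0 _ (by omega), h3], by rw [e0 _ (by omega), h4], h5⟩

theorem slots {σ : Type} [Fintype σ] (h : σ → ℝ) (hh : ∀ j, 0 < h j) (bot top : ℝ)
    (hsum : bot + ∑ j, h j < top) :
    ∃ (d : ℝ) (s : σ → ℝ), 0 < d ∧ (∀ j, bot + d ≤ s j ∧ s j + h j + d ≤ top) ∧
      ∀ j j', j ≠ j' → s j + h j + 4 * d < s j' ∨ s j' + h j' + 4 * d < s j := by
  classical
  set n := Fintype.card σ with hn
  set e := Fintype.equivFin σ
  set D : ℝ := (top - bot - ∑ j, h j) / (n + 1) with hD
  have hD0 : 0 < D := by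
    apply div_pos
    · linarith
    · positivity
  have hDn : (n + 1) * D = top - bot - ∑ j, h j := by
    rw [hD]; field_simp
  let s : σ → ℝ := fun j => bot + D + ∑ j' ∈ univ.filter (fun j' => e j' < e j), (h j' + D)
  have key : ∀ j j', e j < e j' → s j + h j + D ≤ s j' := by
    intro j j' hjj
    have h1 : insert j (univ.filter (fun i => e i < e j)) ⊆ univ.filter (fun i => e i < e j') := by
      intro i hi
      rcases mem_insert.1 hi with rfl | hi
      · simpa using hjj
      · simp only [mem_filter, mem_univ, true_and] at hi ⊢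
        exact hi.trans hjj
    have h2 := sum_le_sum_of_subset_of_nonneg (f := fun i => h i + D) h1
      (fun i _ _ => by have := hh i; positivity)
    rw [sum_insert (by simp)] at h2
    simp only [s]
    linarith
  refine ⟨D / 5, s, by positivity, fun j => ⟨?_, ?_⟩, fun j j' hne => ?_⟩
  · have : 0 ≤ ∑ j' ∈ univ.filter (fun j' => e j' < e j), (h j' + D) :=
      sum_nonneg fun i _ => by have := hh i; positivity
    simp only [s]; linarith
  · have h1 : insert j (univ.filter (fun i => e i < e j)) ⊆ univ := subset_univ _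
    have h2 := sum_le_sum_of_subset_of_nonneg (f := fun i => h i + D) h1
      (fun i _ _ => by have := hh i; positivity)
    rw [sum_insert (by simp), sum_add_distrib (s := univ), sum_const, card_univ,
      nsmul_eq_mul] at h2
    rw [hn] at hDn
    simp only [s]
    linarith
  · have hne' : e j ≠ e j' := fun h => hne (e.injective h)
    rcases lt_or_gt_of_ne hne' with h1 | h1
    · left; have := key j j' h1; linarith
    · right; have := key j' j h1; linarith

end Crest.Agent.R75
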