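import Crest.Agent.R75.Inner
import Crest.Agent.R75.Packing
import Crest.Agent.R75.Prof
import Crest.Agent.R75.Outer
import Crest.Agent.R75.Pieces

/-!
Bounded real coefficients with flat transform.
-/

set_option autoImplicit false

namespace Crest.Agent.R75

open Finset

namespace Flat

/-- The main term of a piece. -/
noncomputable def mainTerm (γ t w A Φ : ℝ) : ℝ :=
  2 * Real.sqrt γ * (ee t * (ee (-1 / 8) * (w : ℂ) * ee (A * Φ))).re

lemma mainTerm_eq (γ t w A Φ : ℝ) :
    mainTerm γ t w A Φ
      = 2 * Real.sqrt γ * w * Real.cos (2 * Real.pi * (t + -1 / 8 + A * Φ)) := by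
  unfold mainTerm
  have : ee t * (ee (-1 / 8) * (w : ℂ) * ee (A * Φ)) = (w : ℂ) * ee (t + -1 / 8 + A * Φ) := by
    rw [ee_add, ee_add]; ring
  rw [this, Complex.re_ofReal_mul, ee_re]; ring

lemma abs_mainTerm_le (γ t w A Φ : ℝ) (hw : 0 ≤ w) :
    |mainTerm γ t w A Φ| ≤ 2 * Real.sqrt γ * w := by
  rw [mainTerm_eq, abs_mul]
  have h1 : 0 ≤ 2 * Real.sqrt γ * w := by positivity
  rw [abs_of_nonneg h1]
  exact mul_le_of_le_one_right h1 (Real.abs_cos_le_one _)

lemma abs_sub_mainTerm_le (γ t w A Φ η : ℝ) (z : ℂ)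
    (h : ‖z - ee (-1 / 8) * (w : ℂ) * ee (A * Φ)‖ ≤ η) :
    |2 * Real.sqrt γ * (ee t * z).re - mainTerm γ t w A Φ| ≤ 2 * Real.sqrt γ * η := by
  unfold mainTerm
  rw [← mul_sub, ← Complex.sub_re, ← mul_sub, abs_mul, abs_of_nonneg (by positivity)]
  gcongr
  calc _ ≤ ‖ee t * (z - ee (-1 / 8) * (w : ℂ) * ee (A * Φ))‖ := Complex.abs_re_le_norm _
    _ ≤ η := by rw [norm_mul, norm_ee, one_mul]; exact h

lemma inv_sqrt_le {y : ℝ} (h0 : 0 ≤ y) (h1 : y ≤ 1 / 2) : 1 / Real.sqrt (1 - y) ≤ 1 + y := by
  have h2 : 0 < Real.sqrt (1 - y) := Real.sqrt_pos.2 (by linarith)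
  rw [div_le_iff₀ h2]
  have h3 : 1 / (1 + y) ≤ Real.sqrt (1 - y) := by
    apply Real.le_sqrt_of_sq_le
    rw [div_pow, div_le_iff₀ (by positivity)]
    nlinarith [mul_nonneg h0 h0, mul_nonneg (mul_nonneg h0 h0) h0]
  rw [div_le_iff₀ (by positivity)] at h3
  linarith

lemma amp_le {a R S y : ℝ} (ha : 0 < a) (hR : 0 < R) (hS : 0 ≤ S) (hy : 0 < y)
    (h : R * S * a ≤ 1 / 2) :
    2 * Real.sqrt a * (1 / Real.sqrt (y / R)) * Real.sqrt (S / 2) ≤ 1 / Real.sqrt y := by
  refine le_of_sq_le_sq ?_ (by positivity)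
  rw [mul_pow, mul_pow, mul_pow, div_pow, div_pow, Real.sq_sqrt ha.le,
    Real.sq_sqrt (by positivity), Real.sq_sqrt (by positivity), Real.sq_sqrt hy.le]
  have e : 2 ^ 2 * a * (1 ^ 2 / (y / R)) * (S / 2) = 2 * (R * S * a) / y := by
    field_simp
  rw [e]
  gcongr
  linarith

end Flat

open Flat in
theorem flat_real (ε : ℝ) (hε : 0 < ε) :
    ∃ N₀ : ℕ, ∀ N ≥ N₀, ∃ a : ℕ → ℝ, (∀ k < N, |a k| ≤ 1 + ε) ∧
      ∀ θ : ℝ, |‖∑ k ∈ range N, (a k : ℂ) * ee (k * θ)‖ - Real.sqrt N| ≤ ε * Real.sqrt N := by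
  classical
  obtain ⟨e, he0, he1, heε⟩ : ∃ e : ℝ, 0 < e ∧ e ≤ 1 / 20 ∧ 13 * e ≤ ε :=
    ⟨min (1 / 20) (ε / 13), by positivity, min_le_left _ _, by
      have := min_le_right (1 / 20) (ε / 13); linarith⟩
  obtain ⟨K, hK, hinner⟩ := inner e he0
  obtain ⟨ι, _, n, μ, φ, hn, hnp, hS, hF⟩ := hinner (((K * K.factorial : ℕ) : ℝ) / e)
  set S : ℝ := ∑ i, (n i : ℝ) with hSdef
  obtain ⟨a, R, ω, η', l, up, ha, hcov, hl, hdisj, hup, hdown⟩ :=
    packing K hK n μ hn hnp e he0 (by linarith) (by
      rw [div_le_iff₀ he0] at hS; rw [← hSdef]; linarith)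
  rw [← hSdef] at hcov
  have hS0 : 0 ≤ S := sum_nonneg fun i _ => by positivity
  have hR : 0 < R := by
    rcases Nat.eq_zero_or_pos R with h | h
    · subst h; simp at hcov; linarith
    · exact h
  have hR' : (0 : ℝ) < R := by exact_mod_cast hR
  have hna : ∀ i, 0 < (n i : ℝ) * a := fun i => by
    have : (0 : ℝ) < n i := by exact_mod_cast (hn i).1
    positivity
  obtain ⟨P, x, idx, hP, -, hx0, hxP, hx, hidx⟩ :=
    pieces l (fun q => l q + n q.2 * a) up univ (1 / 2) (by norm_num)
      (fun q _ => ⟨(hl q).1, by have := hna q.2; linarith, (hl q).2⟩)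
      (fun q _ q' _ hne => hdisj q q' hne)
  replace hidx := fun q => hidx q (mem_univ q)
  have hP' : (0 : ℝ) < P := by exact_mod_cast hP
  have hinj : Function.Injective idx := by
    intro q q' hq
    by_contra hne
    have h1 : l q = l q' := by rw [← (hidx q).2.2.1, ← (hidx q').2.2.1, hq]
    have := hna q.2
    have := hna q'.2
    rcases hdisj q q' hne with h | h <;> linarith
  let main : ℕ → Prop := fun p => ∃ q, idx q = p
  let γ : ℕ → ℝ := fun p => x (p + 1) - x p
  have hγ0 : ∀ p < P, 0 < γ p := fun p hp => sub_pos.2 (hx p hp)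
  have hγq : ∀ q, γ (idx q) = n q.2 * a := fun q => by
    simp only [γ]; rw [(hidx q).2.2.1, (hidx q).2.2.2.1]; ring
  have hγsum : ∑ p ∈ range P, γ p = 1 / 2 := by
    simp only [γ]; rw [sum_range_sub, hxP, hx0, sub_zero]
  have hγ1 : ∀ p < P, γ p ≤ 1 := fun p hp => by
    have := single_le_sum (f := γ) (fun p hp => (hγ0 p (mem_range.1 hp)).le) (mem_range.2 hp)
    linarith
  have hmainset : (range P).filter main = univ.image idx := by
    ext p
    simp only [mem_filter, mem_range, mem_image, mem_univ, true_and, main]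
    constructor
    · exact fun h => h.2
    · rintro ⟨q, rfl⟩
      exact ⟨by have := (hidx q).2.1; omega, q, rfl⟩
  have hγmain : ∑ p ∈ (range P).filter main, γ p = R * S * a := by
    rw [hmainset, sum_image (fun q _ q' _ h => hinj h)]
    simp_rw [hγq]
    rw [Fintype.sum_prod_type]
    simp only [sum_const, card_univ, Fintype.card_fin, nsmul_eq_mul]
    rw [← sum_mul, ← hSdef]; ring
  have hγsplit := sum_filter_add_sum_filter_not (range P) main γ
  have hγfill0 : 0 ≤ ∑ p ∈ (range P).filter (fun p => ¬ main p), γ p :=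
    sum_nonneg fun p hp => (hγ0 p (mem_range.1 (mem_filter.1 hp).1)).le
  have hRSa : R * S * a ≤ 1 / 2 := by linarith
  -- time slots
  set hm : ℝ := (1 - 9 * e) / R with hhm
  have hm0 : 0 < hm := div_pos (by linarith) hR'
  let hσ : Fin R ⊕ Fin P → ℝ :=
    Sum.elim (fun _ => hm) (fun p => (if main p then 0 else 4 * γ p) + e / (2 * P))
  have hσ0 : ∀ j, 0 < hσ j := by
    rintro (r | p)
    · exact hm0
    · have h1 := hγ0 p p.2
      have h2 : 0 < e / (2 * P) := by positivity
      simp only [hσ, Sum.elim_inr]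
      split_ifs <;> linarith
  have hσsum : e + ∑ j, hσ j < 1 - e := by
    rw [Fintype.sum_sum_type]
    simp only [hσ, Sum.elim_inl, Sum.elim_inr, sum_const, card_univ, Fintype.card_fin,
      nsmul_eq_mul, sum_add_distrib]
    have h1 : (R : ℝ) * hm = 1 - 9 * e := by rw [hhm]; field_simp
    have h2 : (P : ℝ) * (e / (2 * P)) = e / 2 := by field_simp
    have h3 : ∑ p : Fin P, (if main p then 0 else 4 * γ p)
        = 4 * ∑ p ∈ (range P).filter (fun p => ¬ main p), γ p := by
      rw [Fin.sum_univ_eq_sum_range (fun p => if main p then 0 else 4 * γ p) P, sum_filter,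
        mul_sum]
      refine sum_congr rfl fun p _ => ?_
      split_ifs <;> simp
    rw [h1, h2, h3]
    linarith
  obtain ⟨d, s, hd, hs, hsep⟩ := slots hσ hσ0 e (1 - e) hσsum
  set η : ℝ := e / (4 * P) with hηdef
  have hη : 0 < η := by positivity
  have hprof := fun j => prof_exists e (1 - e) (s j) (hσ j) d η (hσ0 j) hd hη (hs j).1 (hs j).2
  choose G T T1 w Φ hG hw hwout A₀ hJ using hprof
  let sl : ℕ → Fin R ⊕ Fin P := fun p =>
    if hq : main p then Sum.inl (Classical.choose hq).1 else Sum.inr ⟨p % P, Nat.mod_lt _ hP⟩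
  have hchoose : ∀ q (hq : main (idx q)), Classical.choose hq = q := fun q hq =>
    hinj (Classical.choose_spec hq)
  have hslq : ∀ q, sl (idx q) = Sum.inl q.1 := fun q => by
    have hq : main (idx q) := ⟨q, rfl⟩
    simp only [sl, dif_pos hq, hchoose q hq]
  have hslf : ∀ p (hp : p < P), ¬ main p → sl p = Sum.inr ⟨p, hp⟩ := fun p hp hq => by
    simp only [sl, dif_neg hq, Nat.mod_eq_of_lt hp]
  obtain ⟨B, N₁, hout⟩ := outer P x hP hx0 hxP hx e (1 - e) he0 (by linarith)
    (fun p => G (sl p)) (fun p => T (sl p)) (fun p => T1 (sl p)) (fun p => hσ (sl p))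
    (fun p _ => hσ0 _) (fun p _ => hG _) main
    (by rintro ⟨q, hq⟩; have := (hidx q).1; omega)
    (by rintro ⟨q, hq⟩; have := (hidx q).2.1; omega)
    (by
      rintro p ⟨q, hq⟩ ⟨q', hq'⟩
      have hne : q ≠ q' := by rintro rfl; omega
      have h1 : l q + n q.2 * a = l q' := by
        rw [← (hidx q).2.2.2.1, ← (hidx q').2.2.1, hq, hq']
      have := hna q.2
      have := hna q'.2
      rcases hdisj q q' hne with h | h <;> linarith)
    e he0
  -- thresholds for `N`
  have hev1 : ∀ᶠ N : ℕ in Filter.atTop, ∀ p ∈ range P, A₀ (sl p) ≤ N * γ p := by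
    rw [Filter.eventually_all_finset]
    intro p hp
    have h1 := hγ0 p (mem_range.1 hp)
    filter_upwards [tendsto_natCast_atTop_atTop (R := ℝ) |>.eventually_ge_atTop
      (A₀ (sl p) / γ p)] with N hN
    rwa [div_le_iff₀ h1] at hN
  have hev2 : ∀ᶠ N : ℕ in Filter.atTop, B ≤ N * d := by
    filter_upwards [tendsto_natCast_atTop_atTop (R := ℝ) |>.eventually_ge_atTop (B / d)]
      with N hN
    rwa [div_le_iff₀ hd] at hN
  obtain ⟨N₂, hN₂⟩ := Filter.eventually_atTop.1
    (hev1.and (hev2.and ((Filter.eventually_ge_atTop N₁).and (Filter.eventually_ge_atTop 1))))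
  refine ⟨N₂, fun N hN => ?_⟩
  obtain ⟨hA, hB, hN1, hN0⟩ := hN₂ N hN
  have hN' : (0 : ℝ) < N := by exact_mod_cast hN0
  let c : ℕ → ℝ := fun p => if hq : main p then φ (Classical.choose hq).2 + 1 / 8 else 0
  have hcq : ∀ q, c (idx q) = φ q.2 + 1 / 8 := fun q => by
    have hq : main (idx q) := ⟨q, rfl⟩
    simp only [c, dif_pos hq, hchoose q hq]
  obtain ⟨v, b, c', hv, hb, hmain, hθ⟩ := hout N hN1 c
  refine ⟨fun k => v k * ∑ p ∈ range P, pieceTerm x (fun p => G (sl p)) N b c' k p, ?_, ?_⟩
  swap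
  · intro θ
    refine (hθ θ).trans ?_
    gcongr
    linarith
  intro k _
  -- the main terms
  let u : ℕ → ℝ := fun p => (k - b p) / N
  let t : ℕ → ℝ := fun p => (if p % 2 = 0 then k * x p else -(k * x (p + 1))) + c' p
  let M : ℕ → ℝ := fun p =>
    mainTerm (γ p) (t p) (w (sl p) (u p)) (N * γ p) (Φ (sl p) (u p))
  have hsq1 : ∀ p < P, Real.sqrt (γ p) ≤ 1 := fun p hp => Real.sqrt_le_one.2 (hγ1 p hp)
  have herr : ∀ p < P, |pieceTerm x (fun p => G (sl p)) N b c' k p - M p| ≤ 2 * η := by
    intro p hp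
    have h1 := abs_sub_mainTerm_le (γ p) (t p) (w (sl p) (u p)) (N * γ p) (Φ (sl p) (u p)) η _
      (hJ (sl p) (N * γ p) (hA p (mem_range.2 hp)) (u p))
    refine le_trans h1 ?_
    have := hsq1 p hp
    nlinarith
  let act : Fin R ⊕ Fin P → Prop := fun j =>
    (k : ℝ) / N ∈ Set.Icc (s j - 2 * d) (s j + hσ j + 2 * d)
  have hact : ∀ j j', act j → act j' → j = j' := by
    intro j j' h1 h2
    by_contra hne
    obtain ⟨h1a, h1b⟩ := h1
    obtain ⟨h2a, h2b⟩ := h2
    rcases hsep j j' hne with h | h <;> linarith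
  have hinact : ∀ p < P, ¬ act (sl p) → |M p| ≤ 2 * η := by
    intro p hp hna
    have hbp : |b p / N| ≤ d := by
      rw [abs_div, abs_of_pos hN', div_le_iff₀ hN']
      have := hb p hp
      linarith
    have h1 : u p ∉ Set.Icc (s (sl p) - d) (s (sl p) + hσ (sl p) + d) := by
      rintro ⟨h1, h2⟩
      apply hna
      have h3 : u p = k / N - b p / N := by simp only [u]; ring
      have h4 := abs_le.1 hbp
      constructor <;> linarith [h4.1, h4.2]
    have h2 := hwout _ _ h1
    have h3 := abs_mainTerm_le (γ p) (t p) (w (sl p) (u p)) (N * γ p) (Φ (sl p) (u p))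
      (hw _ _).1
    refine le_trans h3 ?_
    have h4 := hsq1 p hp
    have h5 := (hw (sl p) (u p)).1
    have h6 := Real.sqrt_nonneg (γ p)
    nlinarith
  have hslot : ∀ j, |∑ p ∈ (range P).filter (fun p => sl p = j), M p| ≤ (1 + e) * (1 + 9 * e) := by
    rintro (r | p₀)
    · have h1 : (range P).filter (fun p => sl p = Sum.inl r)
          = univ.image (fun i => idx (r, i)) := by
        ext p
        simp only [mem_filter, mem_range, mem_image, mem_univ, true_and]
        constructor
        · rintro ⟨hp, hs⟩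
          by_cases hq : main p
          · obtain ⟨q, rfl⟩ := hq
            rw [hslq] at hs
            obtain ⟨r', i⟩ := q
            simp only [Sum.inl.injEq] at hs
            exact ⟨i, by rw [← hs]⟩
          · rw [hslf p hp hq] at hs
            exact absurd hs (by simp)
        · rintro ⟨i, rfl⟩
          exact ⟨by have := (hidx (r, i)).2.1; omega, hslq _⟩
      rw [h1, sum_image (fun i _ i' _ h => by simpa using hinj h)]
      set X : ℝ := k * ω r + N * a * Φ (Sum.inl r) (k / N) with hX
      set Y : ℝ := k * η' r with hY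
      have h2 : ∀ i, M (idx (r, i)) = 2 * Real.sqrt a * w (Sum.inl r) (k / N) *
          (Real.sqrt (n i) * Real.cos (2 * Real.pi * (n i * X + μ i * Y + φ i))) := by
        intro i
        have hp : idx (r, i) < P := by have := (hidx (r, i)).2.1; omega
        obtain ⟨hb0, hc0⟩ := hmain _ hp ⟨(r, i), rfl⟩
        have hu : u (idx (r, i)) = k / N := by simp only [u, hb0, sub_zero]
        obtain ⟨z, hz⟩ : ∃ z : ℤ, t (idx (r, i))
            = k * (n i * ω r + μ i * η' r) + φ i + 1 / 8 + z := by
          simp only [t, hc0, hcq]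
          by_cases hpar : idx (r, i) % 2 = 0
          · obtain ⟨z, hz⟩ := hup (r, i) ((hidx (r, i)).2.2.2.2.1 hpar)
            refine ⟨k * z, ?_⟩
            rw [if_pos hpar, (hidx (r, i)).2.2.1, hz]
            push_cast; ring
          · have hu' : up (r, i) = false := by
              rcases hh : up (r, i) with _ | _
              · rfl
              · exact absurd ((hidx (r, i)).2.2.2.2.2 hh) hpar
            obtain ⟨z, hz⟩ := hdown (r, i) hu'
            refine ⟨-(k * z), ?_⟩
            rw [if_neg hpar, (hidx (r, i)).2.2.2.1, hz]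
            push_cast; ring
        simp only [M]
        rw [mainTerm_eq, hslq, hu, hγq, hz, Real.sqrt_mul (by positivity)]
        have h3 : 2 * Real.pi * (k * (n i * ω r + μ i * η' r) + φ i + 1 / 8 + z + -1 / 8
            + N * (n i * a) * Φ (Sum.inl r) (k / N))
            = 2 * Real.pi * (n i * X + μ i * Y + φ i) + z * (2 * Real.pi) := by
          rw [hX, hY]; ring
        simp only []
        rw [h3, Real.cos_add_int_mul_two_pi]
        ring
      simp_rw [h2]
      rw [← mul_sum, abs_mul]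
      have h3 := hF X Y
      have h4 := hw (Sum.inl r) (k / N)
      have h5 : hσ (Sum.inl r) = hm := rfl
      rw [h5] at h4
      rw [abs_of_nonneg (by have := h4.1; positivity)]
      have h6 : 2 * Real.sqrt a * (1 / Real.sqrt hm) * Real.sqrt (S / 2) ≤ 1 + 9 * e := by
        refine le_trans ?_ (inv_sqrt_le (y := 9 * e) (by positivity) (by linarith))
        exact amp_le ha hR' hS0 (by linarith) hRSa
      calc 2 * Real.sqrt a * w (Sum.inl r) (k / N) * _
          ≤ 2 * Real.sqrt a * (1 / Real.sqrt hm) * ((1 + e) * Real.sqrt (S / 2)) := by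
            gcongr
            exact h4.2
        _ = (1 + e) * (2 * Real.sqrt a * (1 / Real.sqrt hm) * Real.sqrt (S / 2)) := by ring
        _ ≤ (1 + e) * (1 + 9 * e) := by gcongr
    · have hone : (1 : ℝ) ≤ (1 + e) * (1 + 9 * e) := by nlinarith
      by_cases hq : main p₀
      · have h1 : (range P).filter (fun p => sl p = Sum.inr p₀) = ∅ := by
          rw [filter_eq_empty_iff]
          intro p hp hs
          by_cases hq' : main p
          · obtain ⟨q, rfl⟩ := hq'
            rw [hslq] at hs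
            exact absurd hs (by simp)
          · rw [hslf p (mem_range.1 hp) hq'] at hs
            simp only [Sum.inr.injEq] at hs
            subst hs
            exact hq' hq
        rw [h1, sum_empty, abs_zero]
        linarith
      · have h1 : (range P).filter (fun p => sl p = Sum.inr p₀) = {p₀.1} := by
          ext p
          simp only [mem_filter, mem_range, mem_singleton]
          constructor
          · rintro ⟨hp, hs⟩
            by_cases hq' : main p
            · obtain ⟨q, rfl⟩ := hq'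
              rw [hslq] at hs
              exact absurd hs (by simp)
            · rw [hslf p hp hq'] at hs
              simp only [Sum.inr.injEq] at hs
              rw [← hs]
          · rintro rfl
            exact ⟨p₀.2, hslf _ p₀.2 hq⟩
        rw [h1, sum_singleton]
        have h3 := abs_mainTerm_le (γ p₀) (t p₀) (w (sl p₀) (u p₀)) (N * γ p₀)
          (Φ (sl p₀) (u p₀)) (hw _ _).1
        refine le_trans h3 (le_trans ?_ hone)
        have h4 := (hw (sl p₀) (u p₀)).2
        have h5 : 4 * γ p₀ ≤ hσ (sl p₀) := by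
          rw [hslf _ p₀.2 hq]
          have h2 : 0 < e / (2 * P) := by positivity
          simp only [hσ, Sum.elim_inr, if_neg hq]
          linarith
        have h6 : 2 * Real.sqrt (γ p₀) ≤ Real.sqrt (hσ (sl p₀)) := by
          apply Real.le_sqrt_of_sq_le
          rw [mul_pow, Real.sq_sqrt (hγ0 _ p₀.2).le]
          linarith
        have h7 : 0 < Real.sqrt (hσ (sl p₀)) := Real.sqrt_pos.2 (hσ0 _)
        calc 2 * Real.sqrt (γ p₀) * w (sl p₀) (u p₀)
            ≤ Real.sqrt (hσ (sl p₀)) * (1 / Real.sqrt (hσ (sl p₀))) := by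
              gcongr
              exact (hw _ _).1
          _ = 1 := by field_simp
  have hactive : |∑ p ∈ (range P).filter (fun p => act (sl p)), M p| ≤ (1 + e) * (1 + 9 * e) := by
    by_cases hex : ∃ j, act j
    · obtain ⟨j, hj⟩ := hex
      have : (range P).filter (fun p => act (sl p)) = (range P).filter (fun p => sl p = j) := by
        refine filter_congr fun p _ => ⟨fun h => hact _ _ h hj, fun h => h ▸ hj⟩
      rw [this]
      exact hslot j
    · have : (range P).filter (fun p => act (sl p)) = ∅ := by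
        rw [filter_eq_empty_iff]
        exact fun p _ h => hex ⟨_, h⟩
      rw [this, sum_empty, abs_zero]
      positivity
  have hPη : P * (2 * η) = e / 2 := by rw [hηdef]; field_simp; ring
  have hinactive : |∑ p ∈ (range P).filter (fun p => ¬ act (sl p)), M p| ≤ e / 2 := by
    calc _ ≤ ∑ p ∈ (range P).filter (fun p => ¬ act (sl p)), |M p| := abs_sum_le_sum_abs _ _
      _ ≤ ∑ p ∈ (range P).filter (fun p => ¬ act (sl p)), 2 * η :=
          sum_le_sum fun p hp => hinact p (mem_range.1 (mem_filter.1 hp).1) (mem_filter.1 hp).2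
      _ ≤ ∑ p ∈ range P, 2 * η :=
          sum_le_sum_of_subset_of_nonneg (filter_subset _ _) fun _ _ _ => by positivity
      _ = e / 2 := by rw [sum_const, card_range, nsmul_eq_mul, hPη]
  have herrs : |∑ p ∈ range P, (pieceTerm x (fun p => G (sl p)) N b c' k p - M p)| ≤ e / 2 := by
    calc _ ≤ ∑ p ∈ range P, |pieceTerm x (fun p => G (sl p)) N b c' k p - M p| :=
          abs_sum_le_sum_abs _ _
      _ ≤ ∑ p ∈ range P, 2 * η := sum_le_sum fun p hp => herr p (mem_range.1 hp)
      _ = e / 2 := by rw [sum_const, card_range, nsmul_eq_mul, hPη]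
  have htot : |∑ p ∈ range P, pieceTerm x (fun p => G (sl p)) N b c' k p| ≤ 1 + ε := by
    rw [sum_sub_distrib, ← sum_filter_add_sum_filter_not (range P) (fun p => act (sl p)) M]
      at herrs
    have h1 := abs_le.1 herrs
    have h2 := abs_le.1 hactive
    have h3 := abs_le.1 hinactive
    have h4 : (1 + e) * (1 + 9 * e) + e ≤ 1 + ε := by nlinarith
    rw [abs_le]
    constructor <;> linarith [h1.1, h1.2, h2.1, h2.2, h3.1, h3.2]
  rw [abs_mul, abs_of_nonneg (hv k).1]
  calc v k * _ ≤ 1 * (1 + ε) := by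
        gcongr
        exact (hv k).2
    _ = 1 + ε := one_mul _

end Crest.Agent.R75
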