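import Crest.Agent.R75.Round
import Crest.Agent.R75.Flat

/-!
Final assembly for result 75: from bounded real coefficients with flat transform to signs.
-/

set_option autoImplicit false

namespace Crest.Agent.R75

open Finset

namespace Final

lemma parseval_grid (N : ℕ) (hN : 0 < N) (a : ℕ → ℝ) :
    ∑ i ∈ range N, ‖∑ k ∈ range N, (a k : ℂ) * ee (k * ((i : ℝ) / N))‖ ^ 2
      = N * ∑ k ∈ range N, a k ^ 2 := by
  have h1 : ∀ i : ℕ, ((‖∑ k ∈ range N, (a k : ℂ) * ee (k * ((i : ℝ) / N))‖ ^ 2 : ℝ) : ℂ)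
      = ∑ k ∈ range N, ∑ l ∈ range N,
        (a k : ℂ) * (a l : ℂ) * ee ((((k : ℤ) - (l : ℤ) : ℤ) : ℝ) * i / N) := by
    intro i
    rw [← Complex.normSq_eq_norm_sq, ← Complex.mul_conj, map_sum, sum_mul_sum]
    refine sum_congr rfl fun k _ => sum_congr rfl fun l _ => ?_
    rw [map_mul, Complex.conj_ofReal, ← ee_neg]
    have : (((k : ℤ) - (l : ℤ) : ℤ) : ℝ) * i / N = k * ((i : ℝ) / N) + -(l * ((i : ℝ) / N)) := by
      push_cast; ring
    rw [this, ee_add]; ring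
  have h2 : ((∑ i ∈ range N, ‖∑ k ∈ range N, (a k : ℂ) * ee (k * ((i : ℝ) / N))‖ ^ 2 : ℝ) : ℂ)
      = ((N * ∑ k ∈ range N, a k ^ 2 : ℝ) : ℂ) := by
    rw [Complex.ofReal_sum]
    simp_rw [h1]
    rw [sum_comm]
    push_cast
    rw [mul_sum]
    refine sum_congr rfl fun k hk => ?_
    rw [sum_comm]
    have h3 : ∀ l ∈ range N, ∑ i ∈ range N,
        (a k : ℂ) * (a l : ℂ) * ee (((k : ℝ) - (l : ℝ)) * i / N)
        = if k = l then (N : ℂ) * (a k : ℂ) ^ 2 else 0 := by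
      intro l hl
      rw [← mul_sum]
      have := sum_ee_grid N hN ((k : ℤ) - (l : ℤ))
      push_cast at this
      rw [this]
      have hk' := mem_range.1 hk
      have hl' := mem_range.1 hl
      by_cases hkl : k = l
      · subst hkl; simp; ring
      · have : ¬ ((N : ℤ) ∣ (k : ℤ) - (l : ℤ)) := by
          intro h
          have := Int.eq_zero_of_abs_lt_dvd h (by rw [abs_lt]; constructor <;> omega)
          omega
        simp [this, hkl]
    rw [sum_congr rfl h3]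
    simp [mem_range.1 hk]
  exact_mod_cast h2

end Final

theorem ultraflat (ε : ℝ) (hε : 0 < ε) (hε₁ : ε < 1) :
    ∃ N₀ : ℕ, ∀ N ≥ N₀, ∃ c : ℕ → ℝ, (∀ k, c k = 1 ∨ c k = -1) ∧ ∀ θ : ℝ,
      (1 - ε) * Real.sqrt N ≤ ‖∑ k ∈ range N, (c k : ℂ) * ee (k * θ)‖ ∧
        ‖∑ k ∈ range N, (c k : ℂ) * ee (k * θ)‖ ≤ (1 + ε) * Real.sqrt N := by
  obtain ⟨ρ, hρ, hround⟩ := round_signs (ε / 2) (by positivity)
  set e1 : ℝ := min (ρ / 4) (ε / 4) with he1
  have he0 : 0 < e1 := by positivity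
  have heρ : e1 ≤ ρ / 4 := min_le_left _ _
  have heε : e1 ≤ ε / 4 := min_le_right _ _
  obtain ⟨N₀, hflat⟩ := flat_real e1 he0
  refine ⟨max N₀ 1, fun N hN => ?_⟩
  have hN0 : 0 < N := lt_of_lt_of_le one_pos (le_trans (le_max_right _ _) hN)
  obtain ⟨a, ha, hP⟩ := hflat N (le_trans (le_max_left _ _) hN)
  set a' : ℕ → ℝ := fun k => a k / (1 + e1) with ha'
  have h1e : 0 < 1 + e1 := by positivity
  have hb : ∀ k < N, |a' k| ≤ 1 := by
    intro k hk
    simp only [ha']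
    rw [abs_div, abs_of_pos h1e, div_le_one h1e]
    exact ha k hk
  have hsq : 0 ≤ Real.sqrt N := Real.sqrt_nonneg _
  have hP' : ∀ θ : ℝ, (1 - 2 * e1) * Real.sqrt N ≤ ‖∑ k ∈ range N, (a' k : ℂ) * ee (k * θ)‖ ∧
      ‖∑ k ∈ range N, (a' k : ℂ) * ee (k * θ)‖ ≤ Real.sqrt N := by
    intro θ
    have e : ∑ k ∈ range N, (a' k : ℂ) * ee (k * θ)
        = ((1 / (1 + e1) : ℝ) : ℂ) * ∑ k ∈ range N, (a k : ℂ) * ee (k * θ) := by
      rw [mul_sum]
      refine sum_congr rfl fun k _ => ?_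
      simp only [ha']; push_cast; ring
    rw [e, norm_mul, Complex.norm_real, Real.norm_eq_abs, abs_of_pos (by positivity)]
    have h := abs_le.1 (hP θ)
    constructor
    · rw [one_div, inv_mul_eq_div, le_div_iff₀ h1e]
      nlinarith [h.1, mul_nonneg hsq (sq_nonneg e1)]
    · rw [one_div, inv_mul_eq_div, div_le_iff₀ h1e]
      nlinarith [h.2]
  have hdef : ∑ k ∈ range N, (1 - |a' k|) ≤ ρ * N := by
    have h1 := Final.parseval_grid N hN0 a'
    have h2 : ∑ i ∈ range N, ((1 - 2 * e1) * Real.sqrt N) ^ 2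
        ≤ ∑ i ∈ range N, ‖∑ k ∈ range N, (a' k : ℂ) * ee (k * ((i : ℝ) / N))‖ ^ 2 := by
      refine sum_le_sum fun i _ => ?_
      have : 0 ≤ (1 - 2 * e1) * Real.sqrt N := mul_nonneg (by linarith) hsq
      exact pow_le_pow_left₀ this (hP' _).1 2
    rw [h1, sum_const, card_range, nsmul_eq_mul, mul_pow, Real.sq_sqrt (by positivity)] at h2
    have hN' : (0 : ℝ) < N := by exact_mod_cast hN0
    have h3 : (1 - 2 * e1) ^ 2 * N ≤ ∑ k ∈ range N, a' k ^ 2 := le_of_mul_le_mul_left h2 hN'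
    have h4 : ∑ k ∈ range N, (1 - |a' k|) ≤ ∑ k ∈ range N, (1 - a' k ^ 2) := by
      refine sum_le_sum fun k hk => ?_
      have := hb k (mem_range.1 hk)
      have h5 := abs_nonneg (a' k)
      rw [← sq_abs]
      nlinarith
    rw [sum_sub_distrib, sum_const, card_range, nsmul_eq_mul, mul_one] at h4
    have h6 : (1 - 4 * e1) * N ≤ (1 - 2 * e1) ^ 2 * N := by
      gcongr
      nlinarith [sq_nonneg e1]
    have h7 : 4 * e1 * N ≤ ρ * N := by gcongr; linarith
    rw [sum_sub_distrib, sum_const, card_range, nsmul_eq_mul, mul_one]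
    rw [sum_sub_distrib] at h4
    simp only [sum_const, card_range, nsmul_eq_mul, mul_one] at h4
    linarith
  obtain ⟨c, hc, hcθ⟩ := hround N a' hb hdef
  refine ⟨c, hc, fun θ => ?_⟩
  have e : ∑ k ∈ range N, (c k : ℂ) * ee (k * θ)
      = ∑ k ∈ range N, (a' k : ℂ) * ee (k * θ)
        + ∑ k ∈ range N, ((c k - a' k : ℝ) : ℂ) * ee (k * θ) := by
    rw [← sum_add_distrib]
    refine sum_congr rfl fun k _ => ?_
    push_cast; ring
  have h1 := hP' θ
  have h2 := hcθ θ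
  rw [e]
  constructor
  · have := norm_sub_norm_le (∑ k ∈ range N, (a' k : ℂ) * ee (k * θ))
      (-(∑ k ∈ range N, ((c k - a' k : ℝ) : ℂ) * ee (k * θ)))
    rw [norm_neg, sub_neg_eq_add] at this
    nlinarith [h1.1]
  · have := norm_add_le (∑ k ∈ range N, (a' k : ℂ) * ee (k * θ))
      (∑ k ∈ range N, ((c k - a' k : ℝ) : ℂ) * ee (k * θ))
    nlinarith [h1.2]

end Crest.Agent.R75
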