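import Crest.Agent.R75.Basic

/-!
First and second derivative tests for oscillatory integrals (T2a of result 75).
-/

set_option autoImplicit false

namespace Crest.Agent.R75

open Set MeasureTheory

/-- T2a: first derivative test. -/
theorem first_deriv_test {f f1 f2 : ℝ → ℝ} {a b μ : ℝ} (hab : a ≤ b) (hμ : 0 < μ)
    (hf : ∀ x, HasDerivAt f (f1 x) x) (hf1 : ∀ x, HasDerivAt f1 (f2 x) x) (hc : Continuous f2)
    (hneg : ∀ x ∈ Set.Icc a b, f2 x ≤ 0) (hμ' : ∀ x ∈ Set.Icc a b, μ ≤ |f1 x|) :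
    ‖∫ x in a..b, ee (f x)‖ ≤ 1 / μ := by
  have cf : Continuous f := continuous_iff_continuousAt.mpr fun x => (hf x).continuousAt
  have cf1 : Continuous f1 := continuous_iff_continuousAt.mpr fun x => (hf1 x).continuousAt
  have hne : ∀ x ∈ Set.Icc a b, f1 x ≠ 0 := fun x hx h0 => by
    have := hμ' x hx
    rw [h0, abs_zero] at this
    linarith
  have hpi := Real.pi_pos
  have hpiC : (Real.pi : ℂ) ≠ 0 := by exact_mod_cast hpi.ne'
  set c : ℂ := (2 * Real.pi * Complex.I)⁻¹ with hcdef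
  have hcn : ‖c‖ = 1 / (2 * Real.pi) := by
    rw [hcdef, norm_inv, norm_mul, norm_mul, Complex.norm_I, Complex.norm_real,
      Real.norm_of_nonneg hpi.le]
    simp
  have hinv : ∀ x ∈ Set.uIcc a b, HasDerivAt (fun y => (f1 y)⁻¹) (-f2 x / f1 x ^ 2) x := by
    intro x hx
    rw [uIcc_of_le hab] at hx
    exact (hf1 x).inv (hne x hx)
  have cq : ContinuousOn (fun x => -f2 x / f1 x ^ 2) (Set.uIcc a b) := by
    rw [uIcc_of_le hab]
    exact ContinuousOn.div (by fun_prop) (by fun_prop) fun x hx => pow_ne_zero _ (hne x hx)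
  have hF : ∀ x ∈ Set.uIcc a b, HasDerivAt (fun y => c * ((((f1 y)⁻¹ : ℝ) : ℂ) * ee (f y)))
      (c * (((-f2 x / f1 x ^ 2 : ℝ) : ℂ) * ee (f x)) + ee (f x)) x := by
    intro x hx
    have h1 := ((hinv x hx).ofReal_comp.mul (HasDerivAt.ee_comp (hf x))).const_mul c
    rw [uIcc_of_le hab] at hx
    have h2 : ((f1 x : ℝ) : ℂ) ≠ 0 := by exact_mod_cast hne x hx
    refine HasDerivAt.congr_deriv h1 ?_
    rw [hcdef]
    push_cast
    field_simp
  have i1 : IntervalIntegrable (fun x => c * (((-f2 x / f1 x ^ 2 : ℝ) : ℂ) * ee (f x))) volume a b := by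
    apply ContinuousOn.intervalIntegrable
    exact continuousOn_const.mul ((Complex.continuous_ofReal.comp_continuousOn cq).mul (by fun_prop))
  have i2 : IntervalIntegrable (fun x => ee (f x)) volume a b := by
    apply Continuous.intervalIntegrable; fun_prop
  have key := intervalIntegral.integral_eq_sub_of_hasDerivAt hF (i1.add i2)
  rw [intervalIntegral.integral_add i1 i2] at key
  have e : ∫ x in a..b, ee (f x) = c * ((((f1 b)⁻¹ : ℝ) : ℂ) * ee (f b))
      - c * ((((f1 a)⁻¹ : ℝ) : ℂ) * ee (f a))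
      - ∫ x in a..b, c * (((-f2 x / f1 x ^ 2 : ℝ) : ℂ) * ee (f x)) := by
    rw [← key]; ring
  have hb : ∀ x ∈ Set.Icc a b, |(f1 x)⁻¹| ≤ 1 / μ := by
    intro x hx
    rw [abs_inv, one_div]
    exact inv_anti₀ hμ (hμ' x hx)
  have hend : ∀ x ∈ Set.Icc a b,
      ‖c * ((((f1 x)⁻¹ : ℝ) : ℂ) * ee (f x))‖ ≤ 1 / (2 * Real.pi) * (1 / μ) := by
    intro x hx
    rw [norm_mul, norm_mul, norm_ee, mul_one, hcn, Complex.norm_real, Real.norm_eq_abs]
    exact mul_le_mul_of_nonneg_left (hb x hx) (by positivity)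
  have hmid : ‖∫ x in a..b, c * (((-f2 x / f1 x ^ 2 : ℝ) : ℂ) * ee (f x))‖
      ≤ 1 / (2 * Real.pi) * (2 * (1 / μ)) := by
    have h1 : ‖∫ x in a..b, c * (((-f2 x / f1 x ^ 2 : ℝ) : ℂ) * ee (f x))‖
        ≤ ∫ x in a..b, 1 / (2 * Real.pi) * (-f2 x / f1 x ^ 2) := by
      refine intervalIntegral.norm_integral_le_of_norm_le hab ?_
        ((cq.intervalIntegrable).const_mul _)
      refine Filter.Eventually.of_forall fun x hx => ?_
      have hx' : x ∈ Set.Icc a b := Ioc_subset_Icc_self hx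
      rw [norm_mul, norm_mul, norm_ee, mul_one, hcn, Complex.norm_real, Real.norm_of_nonneg]
      exact div_nonneg (neg_nonneg.mpr (hneg x hx')) (sq_nonneg _)
    rw [intervalIntegral.integral_const_mul (1 / (2 * Real.pi)),
      intervalIntegral.integral_eq_sub_of_hasDerivAt hinv cq.intervalIntegrable] at h1
    refine h1.trans (mul_le_mul_of_nonneg_left ?_ (by positivity))
    have h2 := abs_le.mp (hb a (left_mem_Icc.mpr hab))
    have h3 := abs_le.mp (hb b (right_mem_Icc.mpr hab))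
    linarith [h2.1, h3.2]
  rw [e]
  have h4 := hend a (left_mem_Icc.mpr hab)
  have h5 := hend b (right_mem_Icc.mpr hab)
  have h6 : 1 / (2 * Real.pi) ≤ 1 / 4 := by
    apply one_div_le_one_div_of_le (by norm_num)
    linarith [Real.pi_gt_three]
  have h7 : 0 < 1 / μ := by positivity
  calc _ ≤ ‖c * ((((f1 b)⁻¹ : ℝ) : ℂ) * ee (f b))‖ + ‖c * ((((f1 a)⁻¹ : ℝ) : ℂ) * ee (f a))‖
        + ‖∫ x in a..b, c * (((-f2 x / f1 x ^ 2 : ℝ) : ℂ) * ee (f x))‖ :=
        (norm_sub_le _ _).trans (add_le_add_left (norm_sub_le _ _) _)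
    _ ≤ 1 / (2 * Real.pi) * (4 * (1 / μ)) := by linarith
    _ ≤ 1 / 4 * (4 * (1 / μ)) := by gcongr
    _ = 1 / μ := by ring

/-- Second derivative test. -/
theorem second_deriv_test {f f1 f2 : ℝ → ℝ} {a b lam : ℝ} (hab : a ≤ b) (hlam : 0 < lam)
    (hf : ∀ x, HasDerivAt f (f1 x) x) (hf1 : ∀ x, HasDerivAt f1 (f2 x) x) (hc : Continuous f2)
    (hneg : ∀ x ∈ Set.Icc a b, f2 x ≤ -lam) :
    ‖∫ x in a..b, ee (f x)‖ ≤ 4 / Real.sqrt lam := by
  have cf : Continuous f := continuous_iff_continuousAt.mpr fun x => (hf x).continuousAt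
  have cf1 : Continuous f1 := continuous_iff_continuousAt.mpr fun x => (hf1 x).continuousAt
  have hdec : ∀ x ∈ Set.Icc a b, ∀ y ∈ Set.Icc a b, x ≤ y → f1 y - f1 x ≤ -lam * (y - x) := by
    intro x hx y hy hxy
    refine (convex_Icc a b).image_sub_le_mul_sub_of_deriv_le cf1.continuousOn
      (fun z _ => (hf1 z).differentiableAt.differentiableWithinAt) (fun z hz => ?_) x hx y hy hxy
    rw [(hf1 z).deriv]
    exact hneg z (interior_subset hz)
  obtain ⟨c, hc', hc1, hc2⟩ : ∃ c ∈ Set.Icc a b, (∀ x ∈ Set.Icc a b, c < x → f1 x ≤ -lam * (x - c))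
      ∧ ∀ x ∈ Set.Icc a b, x < c → lam * (c - x) ≤ f1 x := by
    by_cases ha : f1 a ≤ 0
    · refine ⟨a, left_mem_Icc.mpr hab, fun x hx h => ?_, fun x hx h => absurd hx.1 (not_le.mpr h)⟩
      linarith [hdec a (left_mem_Icc.mpr hab) x hx h.le]
    by_cases hb : 0 ≤ f1 b
    · refine ⟨b, right_mem_Icc.mpr hab, fun x hx h => absurd hx.2 (not_le.mpr h), fun x hx h => ?_⟩
      linarith [hdec x hx b (right_mem_Icc.mpr hab) h.le]
    push Not at ha hb
    obtain ⟨c, hc', hc0⟩ : (0 : ℝ) ∈ f1 '' Set.Icc a b :=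
      intermediate_value_Icc' hab cf1.continuousOn ⟨hb.le, ha.le⟩
    refine ⟨c, hc', fun x hx h => ?_, fun x hx h => ?_⟩
    · linarith [hdec c hc' x hx h.le]
    · linarith [hdec x hx c hc' h.le]
  set r : ℝ := 1 / Real.sqrt lam with hr
  have hs : 0 < Real.sqrt lam := Real.sqrt_pos.mpr hlam
  have hr0 : 0 < r := by positivity
  have hlr : lam * r = Real.sqrt lam := by
    rw [hr]; field_simp; rw [Real.sq_sqrt hlam.le]
  have hint : ∀ x y : ℝ, IntervalIntegrable (fun x => ee (f x)) volume x y := fun x y => by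
    apply Continuous.intervalIntegrable; fun_prop
  set a1 := max a (c - r) with ha1
  set b1 := min b (c + r) with hb1
  have haa1 : a ≤ a1 := le_max_left _ _
  have ha1c : a1 ≤ c := max_le hc'.1 (by linarith)
  have hcb1 : c ≤ b1 := le_min hc'.2 (by linarith)
  have hb1b : b1 ≤ b := min_le_left _ _
  have h1 : ‖∫ x in a..a1, ee (f x)‖ ≤ r := by
    rcases le_total (c - r) a with h | h
    · rw [ha1, max_eq_left h]; simp [hr0.le]
    · have e : a1 = c - r := max_eq_right h
      refine first_deriv_test haa1 hs hf hf1 hc (fun x hx => ?_) fun x hx => ?_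
      · linarith [hneg x ⟨hx.1, by linarith [hx.2]⟩]
      · have hx2 : x ≤ c - r := e ▸ hx.2
        have := hc2 x ⟨hx.1, by linarith [hx.2]⟩ (by linarith)
        refine le_trans ?_ (le_abs_self _)
        nlinarith
  have h3 : ‖∫ x in b1..b, ee (f x)‖ ≤ r := by
    rcases le_total b (c + r) with h | h
    · rw [hb1, min_eq_left h]; simp [hr0.le]
    · have e : b1 = c + r := min_eq_right h
      refine first_deriv_test hb1b hs hf hf1 hc (fun x hx => ?_) fun x hx => ?_
      · linarith [hneg x ⟨by linarith [hx.1], hx.2⟩]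
      · have hx2 : c + r ≤ x := e ▸ hx.1
        have := hc1 x ⟨by linarith [hx.1], hx.2⟩ (by linarith)
        refine le_trans ?_ (neg_le_abs _)
        nlinarith
  have h2 : ‖∫ x in a1..b1, ee (f x)‖ ≤ 2 * r := by
    have := intervalIntegral.norm_integral_le_of_norm_le_const (a := a1) (b := b1) (C := 1)
      (f := fun x => ee (f x)) fun x _ => by simp
    refine this.trans ?_
    rw [one_mul, abs_of_nonneg (by linarith)]
    have : c - r ≤ a1 := le_max_right _ _
    have : b1 ≤ c + r := min_le_right _ _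
    linarith
  rw [← intervalIntegral.integral_add_adjacent_intervals (hint a b1) (hint b1 b),
    ← intervalIntegral.integral_add_adjacent_intervals (hint a a1) (hint a1 b1)]
  calc _ ≤ ‖∫ x in a..a1, ee (f x)‖ + ‖∫ x in a1..b1, ee (f x)‖ + ‖∫ x in b1..b, ee (f x)‖ :=
        (norm_add_le _ _).trans (add_le_add_left (norm_add_le _ _) _)
    _ ≤ 4 * r := by linarith
    _ = 4 / Real.sqrt lam := by rw [hr]; ring

end Crest.Agent.R75
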