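import Crest.Agent.R75.Basic

/-! The Gauss-sum gadget. -/

set_option autoImplicit false

namespace Crest.Agent.R75

open Finset

namespace Gadget

lemma ee_eq_std (l : ℕ) [NeZero l] (j : ℤ) :
    ee ((j : ℝ) / l) = ZMod.stdAddChar (j : ZMod l) := by
  rw [ZMod.stdAddChar_coe, ee]
  congr 1
  push_cast
  ring

lemma ee_sum_eq (l k : ℕ) [NeZero l] (s r : Fin k → ZMod l) :
    ee (-∑ i, ((s i).val : ℝ) * ((r i).val : ℝ) / l) = ZMod.stdAddChar (-∑ i, s i * r i) := by
  have h := ee_eq_std l (-∑ i, ((s i).val : ℤ) * ((r i).val : ℤ))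
  push_cast at h
  simp only [ZMod.natCast_val, ZMod.cast_id', id_eq] at h
  rw [← h, neg_div, Finset.sum_div]
  simp only [ZMod.natCast_val]

end Gadget

open Gadget in
theorem gauss_gadget (l k a : ℕ) [Fact l.Prime] (hk : 1 ≤ k) (ha : a ∣ l - 1) :
    ∃ c : (Fin k → ZMod l) → ℕ → ℂ, (∀ r, Contr (c r)) ∧ (∀ r n, ‖c r n‖ ≤ 1) ∧
      ∀ (n : ℕ) (s : Fin k → ZMod l),
        ‖∑ r : Fin k → ZMod l, c r n * ee (-∑ i, ((s i).val : ℝ) * ((r i).val : ℝ) / l)‖ ^ 2
          = if a ∣ n then (if s = 0 then ((l : ℝ) ^ k) ^ 2 else 0)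
            else (if s = 0 then 0 else (l : ℝ) ^ k) := by
  classical
  have hl : l.Prime := Fact.out
  have hl2 := hl.two_le
  have ha0 : 0 < a := Nat.pos_of_dvd_of_pos ha (by omega)
  let F := GaloisField l k
  let _ : Fintype F := Fintype.ofFinite F
  have hcard : Fintype.card F = l ^ k := by
    rw [← Nat.card_eq_fintype_card]; exact GaloisField.card l k (by omega)
  let ph : (Fin k → ZMod l) ≃ₗ[ZMod l] F :=
    (Module.finBasisOfFinrankEq (ZMod l) F (GaloisField.finrank l (by omega))).equivFun.symm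
  have hdvd : a ∣ Fintype.card F - 1 := by
    rw [hcard]
    exact ha.trans (by simpa using Nat.sub_dvd_pow_sub_pow l 1 k)
  obtain ⟨χ, hχ⟩ := MulChar.exists_mulChar_orderOf F hdvd (Complex.isPrimitiveRoot_exp a ha0.ne')
  have hχa : χ ^ a = 1 := by rw [← hχ]; exact pow_orderOf_eq_one χ
  have hunit : ∀ x : F, x ≠ 0 → χ x ^ a = 1 := fun x hx => by
    rw [← MulChar.pow_apply' χ ha0.ne', hχa, MulChar.one_apply (IsUnit.mk0 x hx)]
  have hform : ∀ x : F, x ≠ 0 → ∃ t : ℝ, ∀ n : ℕ,
      (if a ∣ n then (1 : ℂ) else (χ ^ n) x) = ee (n * t) := fun x hx => by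
    obtain ⟨t, ht⟩ := exists_ee_of_norm_one
      (Complex.norm_eq_one_of_pow_eq_one (hunit x hx) ha0.ne')
    refine ⟨t, fun n => ?_⟩
    rw [ee_nat_mul, ht]
    split_ifs with h
    · obtain ⟨m, rfl⟩ := h
      rw [pow_mul, hunit x hx, one_pow]
    · exact MulChar.pow_apply' χ (fun h0 : n = 0 => h (by rw [h0]; exact dvd_zero a)) x
  refine ⟨fun r n => if a ∣ n then 1 else (χ ^ n) (ph r), fun r => ?_, fun r n => ?_,
    fun n s => ?_⟩
  · by_cases hr : ph r = 0
    · simp only [hr, MulChar.map_zero]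
      exact contr_dvd ha0
    · obtain ⟨t, ht⟩ := hform _ hr
      simp only [ht]
      exact contr_shift t
  · by_cases hr : ph r = 0
    · simp only [hr, MulChar.map_zero]
      split_ifs <;> simp
    · obtain ⟨t, ht⟩ := hform _ hr
      simp only [ht, norm_ee, le_refl]
  · let f : F →+ ZMod l :=
      { toFun := fun x => -∑ i, s i * ph.symm x i
        map_zero' := by simp
        map_add' := fun x y => by
          simp only [map_add, Pi.add_apply, mul_add, sum_add_distrib]; ring }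
    let ψ : AddChar F ℂ := ZMod.stdAddChar.compAddMonoidHom f
    have hψ : ∀ r, ee (-∑ i, ((s i).val : ℝ) * ((r i).val : ℝ) / l) = ψ (ph r) := fun r => by
      rw [ee_sum_eq]
      simp [ψ, f]
    have hψ0 : s = 0 → ψ = 1 := fun h => by
      ext x; simp [ψ, f, h]
    have hψ1 : s ≠ 0 → ψ ≠ 1 := fun h h1 => by
      apply h
      ext i
      have h2 : ψ (ph (Pi.single i 1)) = 1 := by rw [h1]; rfl
      have h3 : ψ (ph (Pi.single i 1)) = ZMod.stdAddChar (-s i) := by
        simp [ψ, f, Pi.single_apply]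
      rw [h3, ← (ZMod.stdAddChar (N := l)).map_zero_eq_one, ZMod.injective_stdAddChar.eq_iff] at h2
      simpa using h2
    simp only [hψ]
    rw [Fintype.sum_equiv ph.toEquiv
      (fun r => (if a ∣ n then 1 else (χ ^ n) (ph r)) * ψ (ph r))
      (fun x => (if a ∣ n then 1 else (χ ^ n) x) * ψ x) (fun r => rfl)]
    by_cases hn : a ∣ n
    · simp only [hn, if_true, one_mul]
      split_ifs with hs
      · simp [hψ0 hs, hcard]
      · rw [AddChar.sum_eq_zero_of_ne_one (hψ1 hs)]; simp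
    · simp only [hn, if_false]
      have hne : χ ^ n ≠ 1 := fun h => hn (hχ ▸ orderOf_dvd_of_pow_eq_one h)
      split_ifs with hs
      · simp [hψ0 hs, MulChar.sum_eq_zero_of_ne_one hne]
      · have h1 := gaussSum_mul_gaussSum_eq_card hne (AddChar.IsPrimitive.of_ne_one (hψ1 hs))
        rw [← star_gaussSum_eq, Complex.star_def, Complex.mul_conj, hcard] at h1
        rw [← Complex.normSq_eq_norm_sq]
        exact_mod_cast h1

end Crest.Agent.R75
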