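import Crest.Agent.R75.Basic

/-!
From a bound on a grid of `2N` points to a bound on the whole circle, for analytic
trigonometric polynomials of length `N`.
-/

set_option autoImplicit false

namespace Crest.Agent.R75.Grid

open Finset

lemma dvd_iff_zero {M : ℕ} {z : ℤ} (h1 : -(M : ℤ) < z) (h2 : z < M) : (M : ℤ) ∣ z ↔ z = 0 := by
  constructor
  · intro h
    exact Int.eq_zero_of_dvd_of_natAbs_lt_natAbs h (by omega)
  · rintro rfl
    exact dvd_zero _

lemma parseval (M A : ℕ) (hM : 0 < M) (hA : A ≤ M) (θ : ℝ) :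
    ∑ i ∈ range M, ‖∑ j ∈ range A, ee (j * (θ - (i : ℝ) / M))‖ ^ 2 = M * A := by
  have h1 : ∀ i : ℕ, ((‖∑ j ∈ range A, ee (j * (θ - (i : ℝ) / M))‖ ^ 2 : ℝ) : ℂ) =
      ∑ j ∈ range A, ∑ j' ∈ range A,
        ee ((j - j' : ℝ) * θ) * ee ((((j' : ℤ) - j : ℤ) : ℝ) * i / M) := by
    intro i
    rw [← Complex.normSq_eq_norm_sq, ← Complex.mul_conj, map_sum, Finset.sum_mul_sum]
    refine Finset.sum_congr rfl fun j _ => Finset.sum_congr rfl fun j' _ => ?_
    rw [← ee_neg, ← ee_add, ← ee_add]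
    congr 1
    push_cast
    ring
  have h2 : ((∑ i ∈ range M, ‖∑ j ∈ range A, ee (j * (θ - (i : ℝ) / M))‖ ^ 2 : ℝ) : ℂ) =
      ((M * A : ℝ) : ℂ) := by
    rw [Complex.ofReal_sum]
    simp_rw [h1]
    rw [Finset.sum_comm]
    have h3 : ∀ j ∈ range A, ∑ i ∈ range M, ∑ j' ∈ range A,
        ee ((j - j' : ℝ) * θ) * ee ((((j' : ℤ) - j : ℤ) : ℝ) * i / M) = (M : ℂ) := by
      intro j hj
      rw [Finset.sum_comm]
      simp_rw [← Finset.mul_sum, sum_ee_grid M hM]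
      rw [Finset.sum_eq_single j]
      · simp
      · intro j' hj' hne
        have hj1 := Finset.mem_range.1 hj
        have hj2 := Finset.mem_range.1 hj'
        rw [if_neg, mul_zero]
        rw [dvd_iff_zero (by omega) (by omega)]
        omega
      · intro h; exact absurd hj h
    rw [Finset.sum_congr rfl h3]
    simp [mul_comm]
  exact_mod_cast h2

lemma repro (N : ℕ) (hN : 0 < N) (d : ℕ → ℂ) (θ : ℝ) :
    ∑ i ∈ range (2 * N), (∑ k ∈ range N, d k * ee (k * ((i : ℝ) / (2 * N : ℕ)))) *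
      ((∑ j ∈ range N, ee (-(j * (θ - (i : ℝ) / (2 * N : ℕ))))) *
        ∑ l ∈ range (2 * N), ee (l * (θ - (i : ℝ) / (2 * N : ℕ)))) =
      ((2 * N : ℕ) : ℂ) * N * ∑ k ∈ range N, d k * ee (k * θ) := by
  have hM : 0 < 2 * N := by omega
  have h1 : ∀ i : ℕ, (∑ k ∈ range N, d k * ee (k * ((i : ℝ) / (2 * N : ℕ)))) *
      ((∑ j ∈ range N, ee (-(j * (θ - (i : ℝ) / (2 * N : ℕ))))) *
        ∑ l ∈ range (2 * N), ee (l * (θ - (i : ℝ) / (2 * N : ℕ)))) =
      ∑ k ∈ range N, ∑ j ∈ range N, ∑ l ∈ range (2 * N),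
        d k * ee ((l - j : ℝ) * θ) * ee ((((k : ℤ) + j - l : ℤ) : ℝ) * i / (2 * N : ℕ)) := by
    intro i
    rw [Finset.sum_mul_sum, Finset.sum_mul]
    refine Finset.sum_congr rfl fun k _ => ?_
    rw [Finset.mul_sum]
    refine Finset.sum_congr rfl fun j _ => ?_
    rw [Finset.mul_sum]
    refine Finset.sum_congr rfl fun l _ => ?_
    rw [mul_assoc, mul_assoc, ← ee_add, ← ee_add, ← ee_add]
    congr 2
    push_cast
    ring
  simp_rw [h1]
  rw [Finset.sum_comm, Finset.mul_sum]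
  refine Finset.sum_congr rfl fun k hk => ?_
  rw [Finset.sum_comm]
  have h3 : ∀ j ∈ range N, ∑ i ∈ range (2 * N), ∑ l ∈ range (2 * N),
      d k * ee ((l - j : ℝ) * θ) * ee ((((k : ℤ) + j - l : ℤ) : ℝ) * i / (2 * N : ℕ)) =
      ((2 * N : ℕ) : ℂ) * (d k * ee (k * θ)) := by
    intro j hj
    have hk1 := Finset.mem_range.1 hk
    have hj1 := Finset.mem_range.1 hj
    rw [Finset.sum_comm]
    simp_rw [← Finset.mul_sum, sum_ee_grid (2 * N) hM]
    rw [Finset.sum_eq_single (k + j)]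
    · rw [if_pos (by push_cast; simp)]
      push_cast
      rw [show (k : ℝ) + j - j = k by ring]
      ring
    · intro l hl hne
      have hl1 := Finset.mem_range.1 hl
      rw [if_neg, mul_zero]
      rw [dvd_iff_zero (by omega) (by omega)]
      omega
    · intro h; exact absurd (Finset.mem_range.2 (by omega)) h
  rw [Finset.sum_congr rfl h3]
  simp only [Finset.sum_const, Finset.card_range, nsmul_eq_mul]
  ring

theorem grid_bound (N : ℕ) (hN : 0 < N) (d : ℕ → ℂ) (E : ℝ)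
    (hE : ∀ i < 2 * N, ‖∑ k ∈ range N, d k * ee (k * ((i : ℝ) / (2 * N : ℕ)))‖ ≤ E) (θ : ℝ) :
    ‖∑ k ∈ range N, d k * ee (k * θ)‖ ≤ 3 / 2 * E := by
  have hM : 0 < 2 * N := by omega
  have hE0 : 0 ≤ E := (norm_nonneg _).trans (hE 0 hM)
  have hr := repro N hN d θ
  have p1 := parseval (2 * N) N hM (by omega) θ
  have p2 := parseval (2 * N) (2 * N) hM le_rfl θ
  have hconj : ∀ p : ℝ, ‖∑ j ∈ range N, ee (-(j * p))‖ = ‖∑ j ∈ range N, ee (j * p)‖ := by
    intro p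
    simp_rw [ee_neg]
    rw [← map_sum, Complex.norm_conj]
  have hb : ‖((2 * N : ℕ) : ℂ) * N * ∑ k ∈ range N, d k * ee (k * θ)‖ ≤
      ∑ i ∈ range (2 * N), E * ((‖∑ j ∈ range N, ee (j * (θ - (i : ℝ) / (2 * N : ℕ)))‖ ^ 2 +
        ‖∑ l ∈ range (2 * N), ee (l * (θ - (i : ℝ) / (2 * N : ℕ)))‖ ^ 2) / 2) := by
    rw [← hr]
    refine (norm_sum_le _ _).trans (Finset.sum_le_sum fun i hi => ?_)
    rw [norm_mul, norm_mul, hconj]
    refine mul_le_mul (hE i (Finset.mem_range.1 hi)) ?_ (by positivity) hE0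
    nlinarith [sq_nonneg (‖∑ j ∈ range N, ee (j * (θ - (i : ℝ) / (2 * N : ℕ)))‖ -
      ‖∑ l ∈ range (2 * N), ee (l * (θ - (i : ℝ) / (2 * N : ℕ)))‖)]
  rw [← Finset.mul_sum, ← Finset.sum_div, Finset.sum_add_distrib, p1, p2, norm_mul, norm_mul,
    Complex.norm_natCast, Complex.norm_natCast] at hb
  have hN' : (0 : ℝ) < N := by exact_mod_cast hN
  push_cast at hb
  refine le_of_mul_le_mul_left (a := (2 * N * N : ℝ)) ?_ (by positivity)
  nlinarith

end Crest.Agent.R75.Grid
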