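import Crest.Agent.R75.TwoPrimes

/-!
Choice of the block parameters for the inner function.
-/

set_option autoImplicit false

namespace Crest.Agent.R75

open Finset
open scoped ArithmeticFunction.vonMangoldt

namespace InnerParam

lemma sep (K n n' : ℕ) (hn : 1 ≤ n) (hnK : n ≤ K) (hn' : 1 ≤ n') (hnK' : n' ≤ K)
    (h : ∀ a ∈ (Icc 2 K).filter IsPrimePow, a ∣ n ↔ a ∣ n') : n = n' := by
  have key : ∀ x y : ℕ, 1 ≤ x → x ≤ K →
      (∀ a ∈ (Icc 2 K).filter IsPrimePow, a ∣ x → a ∣ y) → x ∣ y := by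
    intro x y hx hxK hxy
    rw [Nat.dvd_iff_prime_pow_dvd_dvd]
    intro p k hp hpk
    rcases Nat.eq_zero_or_pos k with rfl | hk
    · simp
    · have hpp : IsPrimePow (p ^ k) := ⟨p, k, hp.prime, hk, rfl⟩
      refine hxy _ (mem_filter.2 ⟨mem_Icc.2 ⟨hpp.two_le, ?_⟩, hpp⟩) hpk
      exact (Nat.le_of_dvd hx hpk).trans hxK
  exact Nat.dvd_antisymm (key n n' hn hnK fun a ha => (h a ha).1)
    (key n' n hn' hnK' fun a ha => (h a ha).2)

lemma sum_vonMangoldt (K n : ℕ) (hn : 1 ≤ n) (hnK : n ≤ K) :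
    ∑ a ∈ (Icc 2 K).filter IsPrimePow, (if a ∣ n then Λ a else 0) = Real.log n := by
  rw [← ArithmeticFunction.vonMangoldt_sum, ← sum_filter]
  apply sum_subset
  · intro a ha
    exact Nat.mem_divisors.2 ⟨(mem_filter.1 ha).2, by omega⟩
  · intro a ha hna
    rw [ArithmeticFunction.vonMangoldt_apply, if_neg]
    intro hpp
    apply hna
    have hd := Nat.dvd_of_mem_divisors ha
    exact mem_filter.2 ⟨mem_filter.2 ⟨mem_Icc.2 ⟨hpp.two_le,
      (Nat.le_of_dvd hn hd).trans hnK⟩, hpp⟩, hd⟩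

end InnerParam

theorem inner_param (K : ℕ) (hK : 1 ≤ K) (δ e : ℝ) (hδ : 0 < δ) (hδ1 : δ < 1) (he : 0 < e)
    (he1 : e ≤ 1) :
    ∃ (β : Type) (_ : Fintype β) (_ : DecidableEq β) (l k a : β → ℕ) (κ : ℝ),
      (∀ b, (l b).Prime ∧ 4 ≤ l b ∧ K < l b ∧ 1 ≤ k b ∧ a b ∣ l b - 1) ∧
      1 ≤ ∑ b, k b ∧ 1 ≤ κ ∧
      (∀ n : ℕ, 1 ≤ n → n ≤ K → ∃ θ : ℝ, |θ| ≤ e ∧
        ∏ b, (if a b ∣ n then 1 else (l b : ℝ) ^ k b)
          = κ * (n : ℝ) ^ (-(((∑ b, k b : ℕ) : ℝ) + 3 + 2 * δ)) * Real.exp θ) ∧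
      ∑ b, 1 / (l b : ℝ) ^ k b ≤ e ∧
      ∀ n n' : ℕ, 1 ≤ n → n ≤ K → 1 ≤ n' → n' ≤ K → (∀ b, a b ∣ n ↔ a b ∣ n') → n = n' := by
  classical
  have hK' : (1 : ℝ) ≤ K := by exact_mod_cast hK
  have hlogK : 0 ≤ Real.log K := Real.log_nonneg hK'
  set Y : ℝ := 4 * K * (Real.log K + 1) with hY
  obtain ⟨l₁, hl₁, hl₁gt, hl₁mod⟩ := Nat.exists_prime_gt_modEq_one
    (max (max K 4) (max ⌈Real.exp Y⌉₊ ⌈(2 * K + 1) / e⌉₊)) (Nat.factorial_ne_zero K)
  obtain ⟨l₂, hl₂, hl₂gt, hl₂mod⟩ := Nat.exists_prime_gt_modEq_one l₁ (Nat.factorial_ne_zero K)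
  have hl₁K : K < l₁ := lt_of_le_of_lt ((le_max_left _ _).trans (le_max_left _ _)) hl₁gt
  have hl₁4 : 4 < l₁ := lt_of_le_of_lt ((le_max_right _ _).trans (le_max_left _ _)) hl₁gt
  have hl₁Y : Real.exp Y ≤ l₁ := by
    have h1 : ⌈Real.exp Y⌉₊ < l₁ :=
      lt_of_le_of_lt ((le_max_left _ _).trans (le_max_right _ _)) hl₁gt
    exact (Nat.le_ceil _).trans (by exact_mod_cast h1.le)
  have hl₁e : (2 * K + 1) / e ≤ l₁ := by
    have h1 : ⌈(2 * K + 1) / e⌉₊ < l₁ :=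
      lt_of_le_of_lt ((le_max_right _ _).trans (le_max_right _ _)) hl₁gt
    exact (Nat.le_ceil _).trans (by exact_mod_cast h1.le)
  have hl₁pos : (0 : ℝ) < l₁ := by exact_mod_cast hl₁.pos
  have hl₂pos : (0 : ℝ) < l₂ := by exact_mod_cast hl₂.pos
  have hl12 : (l₁ : ℝ) ≤ l₂ := by exact_mod_cast hl₂gt.le
  have hlogl₁ : Y ≤ Real.log l₁ := by
    rw [Real.le_log_iff_exp_le hl₁pos]; exact hl₁Y
  have hlog12 : Real.log l₁ ≤ Real.log l₂ := Real.log_le_log hl₁pos hl12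
  have hYpos : 0 < Y := by positivity
  obtain ⟨T₀, hT₀⟩ := two_primes l₁ l₂ hl₁ hl₂ hl₂gt.ne (e / K) (by positivity)
  have hlog2 : 0 < Real.log 2 := Real.log_pos (by norm_num)
  obtain ⟨D, hD3, hDT⟩ : ∃ D : ℕ, 3 ≤ D ∧ T₀ ≤ D * Real.log 2 := by
    refine ⟨max 3 ⌈T₀ / Real.log 2⌉₊, le_max_left _ _, ?_⟩
    rw [← div_le_iff₀ hlog2]
    exact (Nat.le_ceil _).trans (by exact_mod_cast le_max_right _ _)
  have hD3' : (3 : ℝ) ≤ D := by exact_mod_cast hD3
  set X : ℝ := D + 3 + 2 * δ with hX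
  set 𝒜 : Finset ℕ := (Icc 2 K).filter IsPrimePow with h𝒜
  have hcard : (𝒜.card : ℝ) ≤ K := by
    have : 𝒜.card ≤ (Icc 2 K).card := card_filter_le _ _
    rw [Nat.card_Icc] at this
    have h2 : 𝒜.card ≤ K := by omega
    exact_mod_cast h2
  have hex : ∀ a : 𝒜, ∃ k₁ k₂ : ℕ, 1 ≤ k₁ ∧ 1 ≤ k₂ ∧
      |k₁ * Real.log l₁ + k₂ * Real.log l₂ - X * Λ a| ≤ e / K := by
    rintro ⟨a, ha⟩
    apply hT₀
    have hpp : IsPrimePow a := (mem_filter.1 ha).2
    have h1 : Real.log 2 ≤ Λ a := by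
      rw [ArithmeticFunction.vonMangoldt_apply, if_pos hpp]
      apply Real.log_le_log (by norm_num)
      exact_mod_cast (Nat.minFac_prime hpp.ne_one).two_le
    have h2 : (D : ℝ) ≤ X := by rw [hX]; linarith
    calc T₀ ≤ D * Real.log 2 := hDT
      _ ≤ X * Λ a := by gcongr
  choose k₁ k₂ hk₁ hk₂ hk using hex
  have hXpos : 0 < X := by rw [hX]; linarith
  have hsumk : ∑ a : 𝒜, (k₁ a + k₂ a) + 1 ≤ D := by
    have h1 : ∀ a : 𝒜, ((k₁ a + k₂ a : ℕ) : ℝ) * Y ≤ X * (Real.log K + 1) := by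
      intro a
      have h2 := (abs_le.1 (hk a)).2
      have h3 : Λ a ≤ Real.log K := by
        refine ArithmeticFunction.vonMangoldt_le_log.trans ?_
        have ha := mem_Icc.1 (mem_filter.1 a.2).1
        apply Real.log_le_log
        · exact_mod_cast lt_of_lt_of_le (by norm_num) ha.1
        · exact_mod_cast ha.2
      have h4 : e / K ≤ 1 := by rw [div_le_one (by positivity)]; linarith
      have h5 : (1 : ℝ) ≤ X := by rw [hX]; linarith
      have h6 : X * Λ a ≤ X * Real.log K := by gcongr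
      push_cast
      have h7 : (k₁ a : ℝ) * Y ≤ k₁ a * Real.log l₁ := by gcongr
      have h8 : (k₂ a : ℝ) * Y ≤ k₂ a * Real.log l₂ := by gcongr; linarith
      nlinarith
    have h2 : ((∑ a : 𝒜, (k₁ a + k₂ a) : ℕ) : ℝ) * Y ≤ K * (X * (Real.log K + 1)) := by
      rw [Nat.cast_sum, sum_mul]
      calc _ ≤ ∑ _a : 𝒜, X * (Real.log K + 1) := sum_le_sum fun a _ => h1 a
        _ = 𝒜.card * (X * (Real.log K + 1)) := by simp
        _ ≤ _ := by gcongr
    have h3 : ((∑ a : 𝒜, (k₁ a + k₂ a) : ℕ) : ℝ) ≤ X / 4 := by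
      have h4 : K * (X * (Real.log K + 1)) = X / 4 * Y := by rw [hY]; ring
      rw [h4] at h2
      exact le_of_mul_le_mul_right h2 hYpos
    have h5 : ((∑ a : 𝒜, (k₁ a + k₂ a) : ℕ) : ℝ) + 1 ≤ D := by
      rw [hX] at h3; linarith
    exact_mod_cast h5
  let l : Option (𝒜 × Bool) → ℕ := fun b => match b with
    | none => l₁
    | some (_, false) => l₁
    | some (_, true) => l₂
  let k : Option (𝒜 × Bool) → ℕ := fun b => match b with
    | none => D - ∑ a : 𝒜, (k₁ a + k₂ a)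
    | some (a, false) => k₁ a
    | some (a, true) => k₂ a
  let a : Option (𝒜 × Bool) → ℕ := fun b => match b with
    | none => 1
    | some (a, _) => a
  have hkD : ∑ b, k b = D := by
    rw [Fintype.sum_option, Fintype.sum_prod_type]
    simp only [Fintype.sum_bool, k]
    have : ∑ a : 𝒜, (k₂ a + k₁ a) = ∑ a : 𝒜, (k₁ a + k₂ a) :=
      sum_congr rfl fun a _ => add_comm _ _
    omega
  have hdvd : ∀ (a : 𝒜) (p : ℕ), p.Prime → p ≡ 1 [MOD K.factorial] → (a : ℕ) ∣ p - 1 := by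
    intro a p hp hmod
    have ha := mem_Icc.1 (mem_filter.1 a.2).1
    exact (Nat.dvd_factorial (by omega) ha.2).trans
      ((Nat.modEq_iff_dvd' hp.one_le).1 hmod.symm)
  let Q : 𝒜 → ℝ := fun a => (l₂ : ℝ) ^ k₂ a * (l₁ : ℝ) ^ k₁ a
  have hl₁1 : (1 : ℝ) ≤ l₁ := by exact_mod_cast hl₁.one_le
  have hl₂1 : (1 : ℝ) ≤ l₂ := hl₁1.trans hl12
  have hQ1 : ∀ a, 1 ≤ Q a := fun a =>
    one_le_mul_of_one_le_of_one_le (one_le_pow₀ hl₂1) (one_le_pow₀ hl₁1)
  have hQlog : ∀ a, Real.log (Q a) = k₁ a * Real.log l₁ + k₂ a * Real.log l₂ := fun a => by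
    simp only [Q]
    rw [Real.log_mul (by positivity) (by positivity), Real.log_pow, Real.log_pow]; ring
  refine ⟨Option (𝒜 × Bool), inferInstance, inferInstance, l, k, a, ∏ a, Q a, ?_, ?_, ?_, ?_,
    ?_, ?_⟩
  · rintro (_ | ⟨a', _ | _⟩)
    · exact ⟨hl₁, hl₁4.le, hl₁K, by simp only [k]; omega, one_dvd _⟩
    · exact ⟨hl₁, hl₁4.le, hl₁K, hk₁ a', hdvd a' _ hl₁ hl₁mod⟩
    · exact ⟨hl₂, by simp only [l]; omega, by simp only [l]; omega, hk₂ a',
        hdvd a' _ hl₂ hl₂mod⟩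
  · omega
  · exact Finset.one_le_prod fun a _ => hQ1 a
  · intro n hn hnK
    have hn' : (0 : ℝ) < n := by exact_mod_cast hn
    refine ⟨∑ a : 𝒜, (if (a : ℕ) ∣ n then X * Λ a - Real.log (Q a) else 0), ?_, ?_⟩
    · calc _ ≤ ∑ a : 𝒜, |if (a : ℕ) ∣ n then X * Λ a - Real.log (Q a) else 0| :=
            abs_sum_le_sum_abs _ _
        _ ≤ ∑ _a : 𝒜, e / K := by
            refine sum_le_sum fun a _ => ?_
            split_ifs
            · rw [abs_sub_comm, hQlog]; exact hk a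
            · rw [abs_zero]; positivity
        _ = 𝒜.card * (e / K) := by simp
        _ ≤ K * (e / K) := by gcongr
        _ = e := by field_simp
    · rw [hkD, ← hX, Fintype.prod_option, Fintype.prod_prod_type]
      simp only [Fintype.prod_bool, a, l, k, one_dvd, if_true, one_mul]
      have h1 : Real.log n = ∑ a : 𝒜, (if (a : ℕ) ∣ n then Λ a else 0) := by
        rw [← InnerParam.sum_vonMangoldt K n hn hnK, ← h𝒜]
        exact (sum_coe_sort 𝒜 (fun a => if a ∣ n then Λ a else 0)).symm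
      rw [Real.rpow_def_of_pos hn', h1, sum_mul, Real.exp_sum, Real.exp_sum, ← prod_mul_distrib,
        ← prod_mul_distrib]
      refine prod_congr rfl fun a _ => ?_
      split_ifs
      · have hQ : 0 < Q a := lt_of_lt_of_le one_pos (hQ1 a)
        rw [mul_assoc, ← Real.exp_add]
        have : Λ a * -X + (X * Λ a - Real.log (Q a)) = - Real.log (Q a) := by ring
        rw [this, Real.exp_neg, Real.exp_log hQ]
        field_simp
      · simp [Q]
  · have h1 : ∀ b, 1 / (l b : ℝ) ^ k b ≤ 1 / l₁ := by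
      intro b
      have h2 : (l₁ : ℝ) ≤ l b := by
        rcases b with (_ | ⟨a', _ | _⟩)
        · exact le_rfl
        · exact le_rfl
        · exact hl12
      have h3 : k b ≠ 0 := by
        rcases b with (_ | ⟨a', _ | _⟩)
        · simp only [k]; omega
        · have := hk₁ a'; simp only [k]; omega
        · have := hk₂ a'; simp only [k]; omega
      have h4 : (l b : ℝ) ≤ (l b : ℝ) ^ k b := le_self_pow₀ (hl₁1.trans h2) h3
      gcongr
      exact h2.trans h4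
    calc _ ≤ ∑ _b : Option (𝒜 × Bool), 1 / (l₁ : ℝ) := sum_le_sum fun b _ => h1 b
      _ = (𝒜.card * 2 + 1) * (1 / l₁) := by simp
      _ ≤ (2 * K + 1) * (1 / l₁) :=
          mul_le_mul_of_nonneg_right (by linarith) (by positivity)
      _ ≤ e := by
          rw [div_le_iff₀ he] at hl₁e
          rw [mul_one_div, div_le_iff₀ hl₁pos]
          linarith
  · intro n n' hn hnK hn' hnK' h
    exact InnerParam.sep K n n' hn hnK hn' hnK' fun a' ha' => h (some (⟨a', ha'⟩, false))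

end Crest.Agent.R75
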