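import Crest.Agent.R75.Block

/-!
Tensor product of blocks, and projection of frequency vectors to one dimension.
-/

set_option autoImplicit false

namespace Crest.Agent.R75

open Finset

theorem exists_proj {J : Type} [Fintype J] (V : Finset (J → ℤ)) (hV : ∀ v ∈ V, v ≠ 0) :
    ∃ ζ : J → ℤ, ∀ v ∈ V, ∑ j, v j * ζ j ≠ 0 := by
  classical
  induction V using Finset.induction_on with
  | empty => exact ⟨0, by simp⟩
  | insert v V hv ih =>
    obtain ⟨ζ, hζ⟩ := ih fun w hw => hV w (mem_insert_of_mem hw)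
    by_cases h0 : ∑ j, v j * ζ j = 0
    swap
    · refine ⟨ζ, fun w hw => ?_⟩
      rcases mem_insert.1 hw with rfl | hw
      · exact h0
      · exact hζ w hw
    obtain ⟨j₀, hj₀⟩ := Function.ne_iff.1 (hV v (mem_insert_self _ _))
    set T : ℤ := ∑ w ∈ V, |w j₀| + 1 with hT
    have key : ∀ w : J → ℤ, ∑ j, w j * (T * ζ j + if j = j₀ then 1 else 0)
        = T * ∑ j, w j * ζ j + w j₀ := by
      intro w
      simp only [mul_add, sum_add_distrib, mul_ite, mul_one, mul_zero, sum_ite_eq', mem_univ,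
        if_true, mul_sum]
      congr 1
      exact sum_congr rfl fun j _ => by ring
    refine ⟨fun j => T * ζ j + if j = j₀ then 1 else 0, fun w hw => ?_⟩
    rw [key]
    rcases mem_insert.1 hw with rfl | hw
    · rw [h0]; simpa using hj₀
    · have h1 := hζ w hw
      have h2 : |w j₀| ≤ ∑ w ∈ V, |w j₀| :=
        single_le_sum (f := fun w : J → ℤ => |w j₀|) (fun _ _ => abs_nonneg _) hw
      have h3 : 1 ≤ |∑ j, w j * ζ j| := Int.one_le_abs h1
      intro h4
      have h5 : w j₀ = -(T * ∑ j, w j * ζ j) := by linarith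
      have hT0 : 0 ≤ T := by have := abs_nonneg (w j₀); omega
      have h6 : |w j₀| = T * |∑ j, w j * ζ j| := by
        rw [h5, abs_neg, abs_mul, abs_of_nonneg hT0]
      nlinarith

theorem tensor {β : Type} [Fintype β] [DecidableEq β] (l k a : β → ℕ)
    (hl : ∀ b, (l b).Prime ∧ 4 ≤ l b ∧ 1 ≤ k b ∧ a b ∣ l b - 1)
    (h η : ℝ) (hh : 0 < h) (hh1 : h < 1) (hη : 0 < η) :
    ∃ M₀ : ℕ, ∀ M ≥ M₀, ∃ (supp : ℕ → Finset ((b : β) → Fin (k b) → ℤ))
      (ψ : ℕ → ((b : β) → Fin (k b) → ℤ) → ℝ),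
      (∀ n : ℕ, 1 ≤ n → ((supp n).card : ℝ) = ((n : ℝ) * M) ^ (∑ b, k b) *
        ∏ b, (if a b ∣ n then 1 else (l b : ℝ) ^ k b - 1)) ∧
      (∀ n : ℕ, ∀ m ∈ supp n, ∀ b, (a b ∣ n ↔ ∀ i, (l b : ℤ) ∣ m b i)) ∧
      ∀ y : (b : β) → Fin (k b) → ℝ, ∃ c : ℕ → ℂ, Contr c ∧ (∀ n, ‖c n‖ ≤ 1) ∧
        ∀ n : ℕ, 1 ≤ n →
        ‖((1 / Real.sqrt (((n : ℝ) * M) ^ (∑ b, k b) *
              ∏ b, (if a b ∣ n then 1 else (l b : ℝ) ^ k b)) : ℝ) : ℂ) *
            ∑ m ∈ supp n, ee (ψ n m + ∑ b, ∑ i, (m b i : ℝ) * y b i)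
          - (((1 / Real.sqrt h) ^ (∑ b, k b) : ℝ) : ℂ) * c n‖ ≤ η := by
  obtain ⟨η', hη', happ⟩ := prod_approx (Fintype.card β) ((1 / Real.sqrt h) ^ (∑ b, k b)) η hη
  have hb := fun b => block (l b) (k b) (a b) (hl b).1 (hl b).2.1 (hl b).2.2.1 (hl b).2.2.2
    h η' hh hh1 hη'
  choose M₀ hM₀ using hb
  refine ⟨univ.sup M₀, fun M hM => ?_⟩
  have hb := fun b => hM₀ b M (le_trans (le_sup (mem_univ b)) hM)
  choose supp ψ hcard hdvd hy using hb
  refine ⟨fun n => Fintype.piFinset fun b => supp b n, fun n m => ∑ b, ψ b n (m b), ?_, ?_, ?_⟩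
  · intro n hn
    rw [Fintype.card_piFinset, Nat.cast_prod, ← prod_pow_eq_pow_sum, ← prod_mul_distrib]
    exact prod_congr rfl fun b _ => hcard b n hn
  · intro n m hm b
    exact hdvd b n (m b) (Fintype.mem_piFinset.1 hm b)
  · intro y
    have hc := fun b => hy b (y b)
    choose c hc1 hc2 hc3 using hc
    refine ⟨fun n => ∏ b, c b n, contr_prod _ _ fun b _ => hc1 b, fun n => ?_, fun n hn => ?_⟩
    · rw [norm_prod]
      exact prod_le_one (fun b _ => norm_nonneg _) fun b _ => hc2 b n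
    have hs : 1 ≤ 1 / Real.sqrt h := by
      rw [le_div_iff₀ (Real.sqrt_pos.2 hh), one_mul]
      exact Real.sqrt_le_one.2 hh1.le
    have h1 := happ β univ
      (fun b => ((1 / Real.sqrt (((n : ℝ) * M) ^ k b *
          (if a b ∣ n then 1 else (l b : ℝ) ^ k b)) : ℝ) : ℂ) *
            ∑ m ∈ supp b n, ee (ψ b n m + ∑ i, (m i : ℝ) * y b i))
      (fun b => (((1 / Real.sqrt h) ^ k b : ℝ) : ℂ) * c b n) (by simp)
      (fun b _ => by
        rw [norm_mul, Complex.norm_real, Real.norm_eq_abs, abs_of_nonneg (by positivity)]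
        calc (1 / Real.sqrt h) ^ k b * ‖c b n‖ ≤ (1 / Real.sqrt h) ^ (∑ b, k b) * 1 := by
              gcongr
              · exact single_le_sum (f := k) (fun _ _ => Nat.zero_le _) (mem_univ b)
              · exact hc2 b n
          _ = _ := mul_one _)
      (fun b _ => hc3 b n hn)
    rw [prod_mul_distrib, prod_mul_distrib, prod_univ_sum, ← Complex.ofReal_prod,
      ← Complex.ofReal_prod, prod_pow_eq_pow_sum] at h1
    convert h1 using 4
    · congr 1
      rw [prod_div_distrib, prod_const_one, ← Real.sqrt_prod, prod_mul_distrib,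
        prod_pow_eq_pow_sum]
      intro b _
      split_ifs <;> positivity
    · refine sum_congr rfl fun m _ => ?_
      rw [← ee_sum, sum_add_distrib]

end Crest.Agent.R75
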