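import Crest.Agent.R75.Square
import Crest.Agent.R75.InnerParam
import Crest.Agent.R75.InnerTensor

/-!
The inner function: a nearly `±1`-valued trigonometric polynomial on the two-torus whose
coefficients have squared modulus proportional to the first frequency.
-/

set_option autoImplicit false

namespace Crest.Agent.R75

open Finset

namespace InnerAux

lemma one_sub_sum_le_prod {β : Type} (s : Finset β) (x : β → ℝ) (h0 : ∀ b ∈ s, 0 ≤ x b)
    (h1 : ∀ b ∈ s, x b ≤ 1) : 1 - ∑ b ∈ s, x b ≤ ∏ b ∈ s, (1 - x b) := by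
  classical
  induction s using Finset.induction_on with
  | empty => simp
  | insert a s ha ih =>
    rw [sum_insert ha, prod_insert ha]
    have h2 := ih (fun b hb => h0 b (mem_insert_of_mem hb)) (fun b hb => h1 b (mem_insert_of_mem hb))
    have h3 := h0 a (mem_insert_self _ _)
    have h4 := h1 a (mem_insert_self _ _)
    have h5 : 0 ≤ ∑ b ∈ s, x b := sum_nonneg fun b hb => h0 b (mem_insert_of_mem hb)
    nlinarith [mul_le_mul_of_nonneg_left h2 (sub_nonneg.2 h4)]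

lemma exists_h (D : ℕ) (hD : 1 ≤ D) (e : ℝ) (he : 0 < e) :
    ∃ h : ℝ, 0 < h ∧ h < 1 ∧ (1 / Real.sqrt h) ^ D = 1 + e := by
  set t : ℝ := (1 + e) ^ ((D : ℝ)⁻¹) with ht
  have hD' : (0 : ℝ) < D := by exact_mod_cast hD
  have ht1 : 1 < t := Real.one_lt_rpow (by linarith) (by positivity)
  refine ⟨(1 / t) ^ 2, by positivity, ?_, ?_⟩
  · apply pow_lt_one₀ (by positivity) _ (by norm_num)
    rw [div_lt_one (by linarith)]; exact ht1
  · rw [Real.sqrt_sq (by positivity), one_div_one_div, ht]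
    exact Real.rpow_inv_natCast_pow (by linarith) (by omega)

lemma re_alpha (c t : ℝ) :
    (((c : ℝ) : ℂ) * ee (-1 / 4) * ee t).re = c * Real.sin (2 * Real.pi * t) := by
  rw [mul_assoc, ← ee_add, Complex.re_ofReal_mul, ee_re]
  congr 1
  rw [show 2 * Real.pi * (-1 / 4 + t) = 2 * Real.pi * t - Real.pi / 2 by ring,
    Real.cos_sub_pi_div_two]

end InnerAux

open InnerAux in
theorem inner (ε : ℝ) (hε : 0 < ε) :
    ∃ K : ℕ, 1 ≤ K ∧ ∀ S₀ : ℝ, ∃ (ι : Type) (_ : Fintype ι) (n : ι → ℕ) (μ : ι → ℤ) (φ : ι → ℝ),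
      (∀ i, 1 ≤ n i ∧ n i ≤ K) ∧
      (∀ i i', i ≠ i' → (n i : ℤ) * μ i' ≠ (n i' : ℤ) * μ i) ∧
      S₀ ≤ ∑ i, (n i : ℝ) ∧
      ∀ x y : ℝ, |∑ i, Real.sqrt (n i) * Real.cos (2 * Real.pi * (n i * x + μ i * y + φ i))|
        ≤ (1 + ε) * Real.sqrt ((∑ i, (n i : ℝ)) / 2) := by
  classical
  obtain ⟨e₀, he₀, he₀1, he₀ε⟩ : ∃ e₀ : ℝ, 0 < e₀ ∧ e₀ ≤ 1 / 8 ∧
      (1 + e₀) ^ 2 + e₀ ≤ (1 + ε) * (1 - e₀) ^ 2 := by
    refine ⟨min ε 1 / 8, by positivity, by have := min_le_right ε 1; linarith, ?_⟩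
    have h1 := min_le_right ε 1
    have h2 := min_le_left ε 1
    have h3 : 0 < min ε 1 := by positivity
    set m := min ε 1
    have h4 : (1 + m) * (1 - m / 8) ^ 2 ≤ (1 + ε) * (1 - m / 8) ^ 2 := by gcongr
    refine le_trans ?_ h4
    nlinarith [mul_pos h3 h3, mul_pos (mul_pos h3 h3) h3]
  obtain ⟨δ, K, hδ, hδ1, hK, hsup, hL2⟩ := square_wave e₀ he₀
  refine ⟨K, hK, fun S₀ => ?_⟩
  have hK' : (1 : ℝ) ≤ K := by exact_mod_cast hK
  set e : ℝ := e₀ / (8 * K) with he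
  have he0 : 0 < e := by positivity
  have hee : e ≤ e₀ := by
    rw [he, div_le_iff₀ (by positivity)]; nlinarith
  have heK : 8 * K * e = e₀ := by rw [he]; field_simp
  obtain ⟨β, _, _, l, k, a, κ, hl, hD, hκ, hW, hdef, hsep⟩ :=
    inner_param K hK δ e hδ hδ1 he0 (by linarith)
  set D : ℕ := ∑ b, k b with hDdef
  obtain ⟨h, hh, hh1, hhD⟩ := exists_h D hD e₀ he₀
  obtain ⟨M₀, hM₀⟩ := tensor l k a
    (fun b => ⟨(hl b).1, (hl b).2.1, (hl b).2.2.2.1, (hl b).2.2.2.2⟩) h e hh hh1 he0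
  obtain ⟨M, hM, hM1, hMS⟩ : ∃ M : ℕ, M₀ ≤ M ∧ 1 ≤ M ∧ 2 * S₀ ≤ M := by
    refine ⟨max (max M₀ 1) ⌈2 * S₀⌉₊, (le_max_left _ _).trans (le_max_left _ _),
      (le_max_right _ _).trans (le_max_left _ _), ?_⟩
    exact (Nat.le_ceil _).trans (by exact_mod_cast le_max_right _ _)
  obtain ⟨supp, ψ, hcard, hdvd, hy⟩ := hM₀ M hM
  rw [← hDdef] at hcard hy
  rw [hhD] at hy
  have hM' : (1 : ℝ) ≤ M := by exact_mod_cast hM1
  set O : Finset ℕ := (Icc 1 K).filter Odd with hO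
  have hOn : ∀ n ∈ O, 1 ≤ n ∧ n ≤ K := fun n hn => mem_Icc.1 (mem_filter.1 hn).1
  have hOcard : (O.card : ℝ) ≤ K := by
    have : O.card ≤ (Icc 1 K).card := card_filter_le _ _
    rw [Nat.card_Icc] at this
    have h2 : O.card ≤ K := by omega
    exact_mod_cast h2
  set Lam : ℝ := (M : ℝ) ^ D * κ with hLam
  have hLamM : (M : ℝ) ≤ Lam := by
    calc (M : ℝ) ≤ (M : ℝ) ^ D := le_self_pow₀ hM' (by omega)
      _ ≤ (M : ℝ) ^ D * κ := le_mul_of_one_le_right (by positivity) hκ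
  have hLam0 : 0 < Lam := by linarith
  have hWn : ∀ n ∈ O, ∃ θ : ℝ, |θ| ≤ e ∧
      ((n : ℝ) * M) ^ D * ∏ b, (if a b ∣ n then 1 else (l b : ℝ) ^ k b)
        = Lam * (n : ℝ) ^ (-3 - 2 * δ) * Real.exp θ := by
    intro n hn
    obtain ⟨θ, hθ, hprod⟩ := hW n (hOn n hn).1 (hOn n hn).2
    refine ⟨θ, hθ, ?_⟩
    have hn' : (0 : ℝ) < n := by exact_mod_cast (hOn n hn).1
    rw [hprod, hLam, mul_pow, show -((D : ℝ) + 3 + 2 * δ) = (-3 - 2 * δ) - D by ring,
      Real.rpow_sub hn', Real.rpow_natCast]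
    field_simp
  choose! θ hθ hWθ using hWn
  -- the lines
  let Lines := O.sigma supp
  let J := (b : β) × Fin (k b)
  let vec : Lines × Lines → J → ℤ := fun p j =>
    (p.1.1.1 : ℤ) * p.2.1.2 j.1 j.2 - (p.2.1.1 : ℤ) * p.1.1.2 j.1 j.2
  have hmem : ∀ i : Lines, i.1.1 ∈ O ∧ i.1.2 ∈ supp i.1.1 := fun i => mem_sigma.1 i.2
  have hkey : ∀ i i' : Lines, ∀ b, a b ∣ i'.1.1 → ¬ a b ∣ i.1.1 → vec (i, i') ≠ 0 := by
    intro i i' b h1 h2 h0
    have h3 := (hdvd _ _ (hmem i').2 b).1 h1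
    have h4 := mt (hdvd _ _ (hmem i).2 b).2 h2
    apply h4
    intro j
    have h5 : (i.1.1 : ℤ) * i'.1.2 b j - (i'.1.1 : ℤ) * i.1.2 b j = 0 := congrFun h0 ⟨b, j⟩
    have h6 : (l b : ℤ) ∣ (i'.1.1 : ℤ) * i.1.2 b j := by
      rw [← sub_eq_zero.1 h5]
      exact Dvd.dvd.mul_left (h3 j) _
    have hp : Prime (l b : ℤ) := Nat.prime_iff_prime_int.1 (hl b).1
    rcases hp.dvd_or_dvd h6 with h7 | h7
    · exfalso
      have h8 : l b ∣ i'.1.1 := by exact_mod_cast h7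
      have h9 := Nat.le_of_dvd (hOn _ (hmem i').1).1 h8
      have := (hOn _ (hmem i').1).2
      have := (hl b).2.2.1
      omega
    · exact h7
  have hvec : ∀ i i' : Lines, i ≠ i' → vec (i, i') ≠ 0 := by
    intro i i' hne
    by_cases hn : i.1.1 = i'.1.1
    · intro h0
      apply hne
      apply Subtype.ext
      refine Sigma.ext hn (heq_of_eq ?_)
      funext b j
      have h5 : (i.1.1 : ℤ) * i'.1.2 b j - (i'.1.1 : ℤ) * i.1.2 b j = 0 := congrFun h0 ⟨b, j⟩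
      rw [← hn, ← mul_sub] at h5
      have h6 : (i.1.1 : ℤ) ≠ 0 := by
        have := (hOn _ (hmem i).1).1
        omega
      have := (mul_eq_zero.1 h5).resolve_left h6
      linarith
    · have h1 := mt (hsep _ _ (hOn _ (hmem i).1).1 (hOn _ (hmem i).1).2 (hOn _ (hmem i').1).1
        (hOn _ (hmem i').1).2) hn
      push Not at h1
      obtain ⟨b, hb⟩ := h1
      rcases hb with ⟨h2, h3⟩ | ⟨h2, h3⟩
      · intro h0
        apply hkey i' i b h2 h3
        funext j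
        have := congrFun h0 j
        simp only [vec, Pi.zero_apply] at this ⊢
        linarith
      · exact hkey i i' b h3 h2
  obtain ⟨ζ, hζ⟩ := exists_proj ((univ.filter fun p : Lines × Lines => p.1 ≠ p.2).image vec)
    (by
      intro v hv
      obtain ⟨p, hp, rfl⟩ := mem_image.1 hv
      exact hvec p.1 p.2 (mem_filter.1 hp).2)
  have hSsum : ∑ i : Lines, (i.1.1 : ℝ) = ∑ n ∈ O, (n : ℝ) * (supp n).card := by
    rw [sum_coe_sort Lines (fun i => (i.1 : ℝ)), sum_sigma]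
    refine sum_congr rfl fun n _ => ?_
    simp [mul_comm]
  have hpi := Real.pi_pos
  have hSlow : Lam * (Real.pi / 4 * (1 - e₀) ^ 2) ^ 2 ≤ (∑ i : Lines, (i.1.1 : ℝ)) / 2 := by
    rw [hSsum]
    have h1 : ∀ n ∈ O, Lam * (Real.pi ^ 2 / 8) * (1 - e₀) ^ 2 *
        (8 / Real.pi ^ 2 * (n : ℝ) ^ (-2 - 2 * δ)) ≤ (n : ℝ) * (supp n).card := by
      intro n hn
      have hn' : (0 : ℝ) < n := by exact_mod_cast (hOn n hn).1
      rw [hcard n (hOn n hn).1]
      have hq : ∀ b, (1 : ℝ) ≤ (l b : ℝ) ^ k b := fun b =>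
        one_le_pow₀ (by exact_mod_cast (hl b).1.one_le)
      have h2 : (∏ b, (if a b ∣ n then 1 else (l b : ℝ) ^ k b)) * ∏ b, (1 - 1 / (l b : ℝ) ^ k b)
          ≤ ∏ b, (if a b ∣ n then 1 else (l b : ℝ) ^ k b - 1) := by
        rw [← prod_mul_distrib]
        apply prod_le_prod
        · intro b _
          have := hq b
          have h3 : 1 / (l b : ℝ) ^ k b ≤ 1 := by rw [div_le_one (by linarith)]; exact this
          split_ifs
          · linarith
          · exact mul_nonneg (by linarith) (by linarith)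
        · intro b _
          have := hq b
          split_ifs
          · have : 0 ≤ 1 / (l b : ℝ) ^ k b := by positivity
            linarith
          · apply le_of_eq; field_simp
      have h3 := one_sub_sum_le_prod univ (fun b => 1 / (l b : ℝ) ^ k b)
        (fun b _ => by positivity)
        (fun b _ => by have := hq b; rw [div_le_one (by linarith)]; exact this)
      have h4 : 1 - e₀ ≤ ∏ b, (1 - 1 / (l b : ℝ) ^ k b) := by linarith
      have h5 : 1 - e₀ ≤ Real.exp (θ n) := by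
        have := Real.add_one_le_exp (θ n)
        have := (abs_le.1 (hθ n hn)).1
        linarith
      have hW0 : 0 ≤ ∏ b, (if a b ∣ n then 1 else (l b : ℝ) ^ k b) :=
        prod_nonneg fun b _ => by split_ifs <;> positivity
      have h6 : (n : ℝ) ^ (-2 - 2 * δ) = n * (n : ℝ) ^ (-3 - 2 * δ) := by
        rw [show -2 - 2 * δ = 1 + (-3 - 2 * δ) by ring, Real.rpow_add hn', Real.rpow_one]
      have h7 : 0 ≤ 1 - e₀ := by linarith
      calc Lam * (Real.pi ^ 2 / 8) * (1 - e₀) ^ 2 * (8 / Real.pi ^ 2 * (n : ℝ) ^ (-2 - 2 * δ))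
          = n * ((Lam * (n : ℝ) ^ (-3 - 2 * δ) * (1 - e₀)) * (1 - e₀)) := by
            rw [h6]; field_simp
        _ ≤ n * ((Lam * (n : ℝ) ^ (-3 - 2 * δ) * Real.exp (θ n))
              * ∏ b, (1 - 1 / (l b : ℝ) ^ k b)) := by gcongr
        _ = n * (((n : ℝ) * M) ^ D * ((∏ b, (if a b ∣ n then 1 else (l b : ℝ) ^ k b))
              * ∏ b, (1 - 1 / (l b : ℝ) ^ k b))) := by rw [← hWθ n hn]; ring
        _ ≤ _ := by gcongr
    have h2 := sum_le_sum h1
    rw [← mul_sum] at h2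
    have h7 : 0 ≤ 1 - e₀ := by linarith
    have h3 : Lam * (Real.pi ^ 2 / 8) * (1 - e₀) ^ 2 * (1 - e₀) ^ 2
        ≤ Lam * (Real.pi ^ 2 / 8) * (1 - e₀) ^ 2 *
          ∑ n ∈ O, 8 / Real.pi ^ 2 * (n : ℝ) ^ (-2 - 2 * δ) := by
      gcongr
      nlinarith
    nlinarith
  refine ⟨Lines, inferInstance, fun i => i.1.1, fun i => ∑ j : J, i.1.2 j.1 j.2 * ζ j,
    fun i => ψ i.1.1 i.1.2 + -1 / 4, fun i => hOn _ (hmem i).1, ?_, ?_, ?_⟩
  · intro i i' hne h0
    apply hζ (vec (i, i')) (mem_image_of_mem _ (mem_filter.2 ⟨mem_univ _, hne⟩))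
    simp only [vec, sub_mul, sum_sub_distrib, mul_assoc, ← mul_sum]
    exact sub_eq_zero.2 h0
  · have h1 : (1 / 4 : ℝ) ≤ (Real.pi / 4 * (1 - e₀) ^ 2) ^ 2 := by
      have h2 : (3 / 4 : ℝ) ≤ Real.pi / 4 := by have := Real.pi_gt_three; linarith
      have h3 : (7 / 8 : ℝ) ^ 2 ≤ (1 - e₀) ^ 2 := by gcongr; linarith
      have h4 : (3 / 4 : ℝ) * (7 / 8) ^ 2 ≤ Real.pi / 4 * (1 - e₀) ^ 2 := by gcongr
      have h5 : ((3 / 4 : ℝ) * (7 / 8) ^ 2) ^ 2 ≤ (Real.pi / 4 * (1 - e₀) ^ 2) ^ 2 := by gcongr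
      refine le_trans (by norm_num) h5
    have h2 : Lam * (1 / 4) ≤ Lam * (Real.pi / 4 * (1 - e₀) ^ 2) ^ 2 := by gcongr
    simp only []
    linarith
  intro x y
  obtain ⟨c, hc1, hc2, hc3⟩ := hy (fun b i => ζ ⟨b, i⟩ * y)
  set U : ℕ → ℂ := fun n =>
    ∑ m ∈ supp n, ee (ψ n m + ∑ b, ∑ i, (m b i : ℝ) * (ζ ⟨b, i⟩ * y)) with hU
  set α : ℕ → ℂ := fun n => ((4 / Real.pi * (n : ℝ) ^ (-1 - δ) : ℝ) : ℂ) * ee (-1 / 4) with hα
  have hsum1 : ∑ i : Lines, Real.sqrt (i.1.1) * Real.cos (2 * Real.pi *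
        ((i.1.1 : ℝ) * x + ((∑ j : J, i.1.2 j.1 j.2 * ζ j : ℤ) : ℝ) * y
          + (ψ i.1.1 i.1.2 + -1 / 4)))
      = (∑ n ∈ O, (Real.sqrt n : ℂ) * ee (-1 / 4) * ee (n * x) * U n).re := by
    rw [sum_coe_sort Lines (fun i => Real.sqrt (i.1) * Real.cos (2 * Real.pi *
        ((i.1 : ℝ) * x + ((∑ j : J, i.2 j.1 j.2 * ζ j : ℤ) : ℝ) * y + (ψ i.1 i.2 + -1 / 4)))),
      sum_sigma, Complex.re_sum]
    refine sum_congr rfl fun n _ => ?_
    rw [hU, mul_sum, Complex.re_sum]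
    refine sum_congr rfl fun m _ => ?_
    rw [mul_assoc (Real.sqrt n : ℂ), mul_assoc (Real.sqrt n : ℂ), ← ee_add, ← ee_add,
      Complex.re_ofReal_mul, ee_re]
    congr 3
    push_cast
    rw [Fintype.sum_sigma, sum_mul]
    simp_rw [sum_mul, mul_assoc]
    ring
  have hsqL : 0 < Real.sqrt Lam := Real.sqrt_pos.2 hLam0
  -- decomposition of each harmonic
  have hdec : ∀ n ∈ O, ∃ r : ℂ, ‖r‖ ≤ 8 * e ∧
      (Real.sqrt n : ℂ) * ee (-1 / 4) * ee (n * x) * U n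
        = ((Real.sqrt Lam * (Real.pi / 4) : ℝ) : ℂ) *
          (((1 + e₀ : ℝ) : ℂ) * (α n * c n * ee (n * x)) + r) := by
    intro n hn
    have hn1 := (hOn n hn).1
    have hn' : (0 : ℝ) < n := by exact_mod_cast hn1
    have h1 := hc3 n hn1
    rw [hWθ n hn] at h1
    set Z : ℝ := Lam * (n : ℝ) ^ (-3 - 2 * δ) * Real.exp (θ n) with hZ
    have hZ0 : 0 < Z := by positivity
    have hsZ : Real.sqrt n * Real.sqrt Z
        = Real.sqrt Lam * (n : ℝ) ^ (-1 - δ) * Real.exp (θ n / 2) := by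
      rw [← Real.sqrt_mul hn'.le]
      rw [Real.sqrt_eq_iff_mul_self_eq (by positivity) (by positivity)]
      have e1 : (n : ℝ) ^ (-1 - δ) * (n : ℝ) ^ (-1 - δ) = n * (n : ℝ) ^ (-3 - 2 * δ) := by
        rw [← Real.rpow_add hn', show -1 - δ + (-1 - δ) = 1 + (-3 - 2 * δ) by ring,
          Real.rpow_add hn', Real.rpow_one]
      have e2 : Real.exp (θ n / 2) * Real.exp (θ n / 2) = Real.exp (θ n) := by
        rw [← Real.exp_add]; congr 1; ring
      have e3 : Real.sqrt Lam * Real.sqrt Lam = Lam := Real.mul_self_sqrt hLam0.le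
      have e4 : (Real.sqrt Lam * Real.sqrt Lam) * ((n : ℝ) ^ (-1 - δ) * (n : ℝ) ^ (-1 - δ))
            * (Real.exp (θ n / 2) * Real.exp (θ n / 2)) = n * Z := by
        rw [e1, e2, e3, hZ]; ring
      rw [← e4]; ring
    set err : ℂ := ((1 / Real.sqrt Z : ℝ) : ℂ) * U n - ((1 + e₀ : ℝ) : ℂ) * c n with herr
    have hsZ0 : 0 < Real.sqrt Z := Real.sqrt_pos.2 hZ0
    have hUn : U n = (Real.sqrt Z : ℂ) * (((1 + e₀ : ℝ) : ℂ) * c n + err) := by
      rw [herr]
      have : (Real.sqrt Z : ℂ) ≠ 0 := by exact_mod_cast hsZ0.ne'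
      push_cast
      field_simp
      ring
    set E : ℝ := Real.exp (θ n / 2) with hE
    have hE1 : |E - 1| ≤ e := by
      have h2 : |θ n / 2| ≤ e / 2 := by
        rw [abs_div, abs_two]; have := hθ n hn; linarith
      have := Real.abs_exp_sub_one_le (x := θ n / 2) (by linarith)
      linarith
    have hE2 : |E| ≤ 2 := by
      have := abs_le.1 hE1
      rw [abs_le]; constructor <;> linarith [this.1, this.2]
    refine ⟨α n * ee (n * x) * (((E - 1 : ℝ) : ℂ) * (((1 + e₀ : ℝ) : ℂ) * c n) + (E : ℂ) * err),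
      ?_, ?_⟩
    · have hαn : ‖α n‖ ≤ 2 := by
        rw [hα]
        simp only [norm_mul, norm_ee, mul_one, Complex.norm_real, Real.norm_eq_abs]
        have h2 : (n : ℝ) ^ (-1 - δ) ≤ 1 :=
          Real.rpow_le_one_of_one_le_of_nonpos (by exact_mod_cast hn1) (by linarith)
        have h3 : 4 / Real.pi ≤ 2 := by
          rw [div_le_iff₀ hpi]; have := Real.pi_gt_three; linarith
        rw [abs_of_nonneg (by positivity), abs_of_nonneg (by positivity)]
        calc 4 / Real.pi * (n : ℝ) ^ (-1 - δ) ≤ 2 * 1 := by gcongr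
          _ = 2 := by norm_num
      have h2 : ‖((E - 1 : ℝ) : ℂ) * (((1 + e₀ : ℝ) : ℂ) * c n) + (E : ℂ) * err‖ ≤ 4 * e := by
        refine (norm_add_le _ _).trans ?_
        rw [norm_mul, norm_mul, norm_mul, Complex.norm_real, Complex.norm_real,
          Complex.norm_real, Real.norm_eq_abs, Real.norm_eq_abs, Real.norm_eq_abs,
          abs_of_pos (by linarith : 0 < 1 + e₀)]
        have h3 := hc2 n
        have h4 : |E - 1| * ((1 + e₀) * ‖c n‖) ≤ e * (2 * 1) := by gcongr; linarith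
        have h5 : |E| * ‖err‖ ≤ 2 * e := by gcongr
        linarith
      rw [norm_mul, norm_mul, norm_ee, mul_one]
      calc ‖α n‖ * _ ≤ 2 * (4 * e) := by gcongr
        _ = 8 * e := by ring
    · have h2 : (Real.sqrt n : ℂ) * (Real.sqrt Z : ℂ)
          = ((Real.sqrt Lam * (n : ℝ) ^ (-1 - δ) * E : ℝ) : ℂ) := by
        rw [← hsZ]; push_cast; ring
      have hpi' : (Real.pi : ℂ) ≠ 0 := by exact_mod_cast hpi.ne'
      calc (Real.sqrt n : ℂ) * ee (-1 / 4) * ee (n * x) * U n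
          = ((Real.sqrt n : ℂ) * (Real.sqrt Z : ℂ)) * ee (-1 / 4) * ee (n * x)
            * (((1 + e₀ : ℝ) : ℂ) * c n + err) := by rw [hUn]; ring
        _ = _ := by
          rw [h2, hα]
          push_cast
          field_simp
          ring
  choose! r hr hdec using hdec
  rw [hsum1, sum_congr rfl hdec, ← mul_sum, Complex.re_ofReal_mul, sum_add_distrib, ← mul_sum,
    Complex.add_re, Complex.re_ofReal_mul]
  have hmain := hc1 O α (1 + e₀) (fun t => by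
    rw [Complex.re_sum]
    have := hsup t
    convert this using 3 with n _
    rw [hα]
    exact re_alpha _ _) x
  have hrem : |(∑ n ∈ O, r n).re| ≤ e₀ := by
    calc _ ≤ ‖∑ n ∈ O, r n‖ := Complex.abs_re_le_norm _
      _ ≤ ∑ n ∈ O, ‖r n‖ := norm_sum_le _ _
      _ ≤ ∑ _n ∈ O, 8 * e := sum_le_sum hr
      _ = O.card * (8 * e) := by simp
      _ ≤ K * (8 * e) := by gcongr
      _ = e₀ := by linarith
  have htot : |(1 + e₀) * (∑ n ∈ O, α n * c n * ee (n * x)).re + (∑ n ∈ O, r n).re|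
      ≤ (1 + e₀) ^ 2 + e₀ := by
    refine (abs_add_le _ _).trans ?_
    rw [abs_mul, abs_of_pos (by linarith : 0 < 1 + e₀), sq]
    gcongr
  have hsqrt : Real.sqrt Lam * (Real.pi / 4 * (1 - e₀) ^ 2)
      ≤ Real.sqrt ((∑ i : Lines, (i.1.1 : ℝ)) / 2) := by
    apply Real.le_sqrt_of_sq_le
    rw [mul_pow, Real.sq_sqrt hLam0.le]
    exact hSlow
  rw [abs_mul, abs_of_pos (by positivity)]
  calc Real.sqrt Lam * (Real.pi / 4) * _
      ≤ Real.sqrt Lam * (Real.pi / 4) * ((1 + ε) * (1 - e₀) ^ 2) := by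
        gcongr
        exact htot.trans he₀ε
    _ = (1 + ε) * (Real.sqrt Lam * (Real.pi / 4 * (1 - e₀) ^ 2)) := by ring
    _ ≤ _ := by gcongr

end Crest.Agent.R75
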