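import Crest.Agent.R75.KL

/-!
`inner_one` from a profile with uniform stationary phase.
-/

set_option autoImplicit false

namespace Crest.Agent.R75.InnerOne

open Finset

lemma exists_rep (L : ℕ) (hL : 0 < L) (a : ℤ) :
    ∃ j k : ℤ, -(L : ℤ) ≤ 2 * j ∧ 2 * j < L ∧ a = j + L * k := by
  have hL' : (0 : ℤ) < L := by exact_mod_cast hL
  have h0 := Int.emod_nonneg (a + L / 2) hL'.ne'
  have h1 := Int.emod_lt_of_pos (a + L / 2) hL'
  have h2 := Int.emod_add_mul_ediv (a + L / 2) L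
  refine ⟨(a + L / 2) % L - L / 2, (a + L / 2) / L, ?_, ?_, ?_⟩
  · generalize (a + L / 2) % L = t at *
    omega
  · generalize (a + L / 2) % L = t at *
    omega
  · linarith

theorem inner_one_of (L : ℕ) (hL : 4 ≤ L) (h η : ℝ) (hh : 0 < h) (hh1 : h < 1) (hη : 0 < η)
    (hprof : ∃ G T T1 w Φ : ℝ → ℝ, IsProf G T T1 0 1 h ∧
      (∀ u, 0 ≤ w u ∧ w u ≤ 1 / Real.sqrt h) ∧
      (∀ u, u ∉ Set.Icc (2 * ((1 - h) / 4) - (1 - h) / 4) (2 * ((1 - h) / 4) + h + (1 - h) / 4) →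
        w u ≤ η / 3) ∧
      ∃ A₀ : ℝ, ∀ A ≥ A₀, ∀ u : ℝ,
        ‖J G A u - ee (-1 / 8) * (w u : ℂ) * ee (A * Φ u)‖ ≤ η / 3) :
    ∃ (cell : ℝ → ZMod L) (w Φ : ℝ → ℝ) (γ : ℕ → ℕ → ℝ) (A₀ : ℕ),
      (∀ y, 0 ≤ w y ∧ w y ≤ 1 / Real.sqrt h) ∧
      ∀ A ≥ A₀, ∀ (y : ℝ) (r : ZMod L),
        ‖((1 / (L * Real.sqrt A) : ℝ) : ℂ) *
            ∑ m ∈ range (A * L), ee (γ A m + m * (y - (r.val : ℝ) / L))
          - (if cell y = r then (w y : ℂ) * ee (A * Φ y) else 0)‖ ≤ η := by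
  obtain ⟨G, T, T1, w, Φ, hP, hw, hw', A₁, hA₁⟩ := hprof
  obtain ⟨C, hC, hKL⟩ := KL.sum_sub_integral
  obtain ⟨M, hM⟩ := (isCompact_Icc (a := (0:ℝ)) (b := 1)).exists_bound_of_continuousOn
    hP.cT1.continuousOn
  have hM0 : 0 ≤ M := (norm_nonneg _).trans (hM 0 ⟨le_rfl, zero_le_one⟩)
  have hTlip : ∀ v ∈ Set.Icc (0:ℝ) 1, ∀ v' ∈ Set.Icc (0:ℝ) 1, |T v - T v'| ≤ M * |v - v'| :=
    fun v hv v' hv' => (convex_Icc (0:ℝ) 1).norm_image_sub_le_of_norm_hasDerivWithin_le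
      (fun x _ => (hP.hT x).hasDerivWithinAt) hM hv' hv
  have hTmono : MonotoneOn T (Set.Icc 0 1) :=
    monotoneOn_of_deriv_nonneg (convex_Icc 0 1)
      (fun x _ => (hP.hT x).continuousAt.continuousWithinAt)
      (fun x _ => (hP.hT x).differentiableAt.differentiableWithinAt)
      fun x hx => by
        rw [(hP.hT x).deriv]
        exact hh.le.trans (hP.lower x (interior_subset hx))
  have hT01 : ∀ v ∈ Set.Icc (0:ℝ) 1, 0 ≤ T v ∧ T v ≤ 1 := fun v hv =>
    ⟨hP.T0 ▸ hTmono ⟨le_rfl, zero_le_one⟩ hv hv.1, hP.Tone ▸ hTmono hv ⟨zero_le_one, le_rfl⟩ hv.2⟩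
  have hL4 : (4:ℝ) ≤ L := by exact_mod_cast hL
  have hL0 : (0:ℝ) < L := by linarith
  have : NeZero L := ⟨by omega⟩
  refine ⟨fun y => ((⌊(L:ℝ) * y⌋ : ℤ) : ZMod L), fun y => w (Int.fract (L * y)),
    fun y => Φ (Int.fract (L * y)), fun A m => -(A * G (m / (A * L))) + 1 / 8,
    ⌈max A₁ ((C * (1 + M) / (η / 3)) ^ 2)⌉₊ + 1, fun y => hw _, fun A hA y r => ?_⟩
  have hA1 : 1 ≤ A := le_trans (Nat.le_add_left _ _) hA
  have hA0 : (0:ℝ) < A := by exact_mod_cast hA1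
  have hAge : max A₁ ((C * (1 + M) / (η / 3)) ^ 2) ≤ A :=
    (Nat.le_ceil _).trans (by exact_mod_cast (Nat.le_succ _).trans hA)
  have hsq : C * (1 + M) / (η / 3) ≤ Real.sqrt A :=
    Real.le_sqrt_of_sq_le ((le_max_right _ _).trans hAge)
  have hsq0 : 0 < Real.sqrt A := Real.sqrt_pos.2 hA0
  obtain ⟨j, k, hj1, hj2, hjk⟩ := exists_rep L (by omega) (⌊(L:ℝ) * y⌋ - r.val)
  set u : ℝ := Int.fract (L * y) + j with hu
  have hf0 := Int.fract_nonneg ((L:ℝ) * y)
  have hf1 := Int.fract_lt_one ((L:ℝ) * y)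
  have hθ : y - (r.val : ℝ) / L = u / L + k := by
    have h1 : ((⌊(L:ℝ) * y⌋ : ℤ) : ℝ) - r.val = j + L * k := by exact_mod_cast hjk
    have h2 := Int.floor_add_fract ((L:ℝ) * y)
    have h3 : (L:ℝ) * y - r.val = u + L * k := by rw [hu]; linarith
    field_simp
    linarith
  have hAL : (0:ℝ) < A * L := by positivity
  let f : ℝ → ℝ := fun x => A * (u * (x / (A * L)) - G (x / (A * L)))
  have hterm : ∀ m : ℕ, ee (-(A * G (m / (A * L))) + 1 / 8 + m * (y - (r.val : ℝ) / L)) =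
      ee (1 / 8) * ee (f m) := fun m => by
    rw [← ee_add, ← ee_add_int (1 / 8 + f m) (m * k), hθ]
    congr 1
    simp only [f]
    push_cast
    field_simp
    ring
  have hmem : ∀ x ∈ Set.Icc (0:ℝ) ((A * L : ℕ) : ℝ), x / (A * L) ∈ Set.Icc (0:ℝ) 1 := by
    intro x hx
    push_cast at hx
    exact ⟨div_nonneg hx.1 hAL.le, (div_le_one hAL).2 hx.2⟩
  have hbound := hKL (A * L) f (fun x => (u - T (x / (A * L))) / L) (M / (A * L ^ 2))
    (by positivity)
    (fun x => by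
      have h1 : HasDerivAt (fun x : ℝ => x / (A * L)) (1 / (A * L)) x :=
        (hasDerivAt_id x).div_const _
      have h2 := ((h1.const_mul u).fun_sub ((hP.hG _).comp x h1)).const_mul (A:ℝ)
      refine HasDerivAt.congr_deriv (f' := _) h2 ?_
      field_simp)
    (fun x hx x' hx' => by
      have h1 := hTlip _ (hmem x' hx') _ (hmem x hx)
      rw [← sub_div, abs_div, abs_of_pos hAL, abs_sub_comm x' x] at h1
      rw [← sub_div, abs_div, abs_of_pos hL0, div_le_iff₀ hL0]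
      calc |u - T (x / (A * L)) - (u - T (x' / (A * L)))|
          = |T (x' / (A * L)) - T (x / (A * L))| := by congr 1; ring
        _ ≤ _ := h1
        _ = _ := by field_simp)
    (fun x hx => by
      have h1 := hT01 _ (hmem x hx)
      have h2 : -(L:ℝ) ≤ 2 * j := by exact_mod_cast hj1
      have h3 : 2 * (j:ℝ) + 1 ≤ L := by exact_mod_cast hj2
      rw [abs_div, abs_of_pos hL0, div_le_iff₀ hL0, abs_le]
      constructor <;> linarith [h1.1, h1.2])
  have hint : ∫ x in (0:ℝ)..((A * L : ℕ) : ℝ), ee (f x) =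
      ((L * Real.sqrt A : ℝ) : ℂ) * J G A u := by
    have := intervalIntegral.integral_comp_div (a := 0) (b := (A:ℝ) * L) (c := (A:ℝ) * L)
      (fun v => ee (A * (u * v - G v))) hAL.ne'
    push_cast
    simp only [f]
    rw [this, zero_div, div_self hAL.ne', J, Complex.real_smul, ← mul_assoc]
    congr 1
    rw [mul_assoc, ← Complex.ofReal_mul, Real.mul_self_sqrt hA0.le]
    push_cast
    ring
  have hJ := hA₁ A ((le_max_left _ _).trans hAge) u
  have hLs : 0 < L * Real.sqrt A := by positivity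
  have e1 : ‖((1 / (L * Real.sqrt A) : ℝ) : ℂ) * ∑ m ∈ range (A * L), ee (f m) - J G A u‖ ≤
      η / 3 := by
    have : ((1 / (L * Real.sqrt A) : ℝ) : ℂ) * ∑ m ∈ range (A * L), ee (f m) - J G A u =
        ((1 / (L * Real.sqrt A) : ℝ) : ℂ) *
          (∑ m ∈ range (A * L), ee (f m) - ∫ x in (0:ℝ)..((A * L : ℕ) : ℝ), ee (f x)) := by
      rw [hint, mul_sub, ← mul_assoc, ← Complex.ofReal_mul, one_div_mul_cancel hLs.ne']
      simp
    rw [this, norm_mul, Complex.norm_real, Real.norm_of_nonneg (by positivity), one_div,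
      inv_mul_le_iff₀ hLs]
    refine hbound.trans ?_
    rw [div_le_iff₀ (by positivity)] at hsq
    have h1 : ((A * L : ℕ) : ℝ) * (M / (A * L ^ 2)) ≤ M := by
      push_cast
      rw [show (A:ℝ) * L * (M / (A * L ^ 2)) = M / L by field_simp]
      exact div_le_self hM0 (by linarith)
    have h2 : Real.sqrt A * (η / 3) ≤ L * Real.sqrt A * (η / 3) := by
      rw [mul_assoc]
      exact le_mul_of_one_le_left (by positivity) (by linarith)
    calc C * (1 + ((A * L : ℕ) : ℝ) * (M / (A * L ^ 2))) ≤ C * (1 + M) := by gcongr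
      _ ≤ _ := hsq.trans h2
  have e2 : ‖((1 / (L * Real.sqrt A) : ℝ) : ℂ) *
      ∑ m ∈ range (A * L), ee (-(A * G (m / (A * L))) + 1 / 8 + m * (y - (r.val : ℝ) / L)) -
      (w u : ℂ) * ee (A * Φ u)‖ ≤ η / 3 + η / 3 := by
    simp_rw [hterm]
    rw [← mul_sum]
    have h8 : ee (1 / 8) * ee (-1 / 8) = 1 := by rw [← ee_add]; norm_num
    have : ((1 / (L * Real.sqrt A) : ℝ) : ℂ) * (ee (1 / 8) * ∑ m ∈ range (A * L), ee (f m)) -
        (w u : ℂ) * ee (A * Φ u) = ee (1 / 8) *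
        ((((1 / (L * Real.sqrt A) : ℝ) : ℂ) * ∑ m ∈ range (A * L), ee (f m) - J G A u) +
          (J G A u - ee (-1 / 8) * (w u : ℂ) * ee (A * Φ u))) := by
      linear_combination ((w u : ℂ) * ee (A * Φ u)) * h8
    rw [this, norm_mul, norm_ee, one_mul]
    exact (norm_add_le _ _).trans (add_le_add e1 hJ)
  have hcell : ((⌊(L:ℝ) * y⌋ : ℤ) : ZMod L) = r ↔ j = 0 := by
    have h1 : ((⌊(L:ℝ) * y⌋ : ℤ) : ZMod L) - r = (j : ZMod L) := by
      have := congrArg (fun z : ℤ => (z : ZMod L)) hjk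
      simpa using this
    rw [← sub_eq_zero, h1, ZMod.intCast_zmod_eq_zero_iff_dvd]
    refine ⟨fun hd => Int.eq_zero_of_abs_lt_dvd hd ?_, fun hj => by simp [hj]⟩
    rw [abs_lt]
    constructor <;> omega
  by_cases hj : j = 0
  · rw [if_pos (hcell.2 hj)]
    have : u = Int.fract (L * y) := by rw [hu, hj]; simp
    simp only [← this]
    exact e2.trans (by linarith)
  · rw [if_neg fun hc => hj (hcell.1 hc), sub_zero]
    have h1 : w u ≤ η / 3 := by
      refine hw' u fun hm => ?_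
      rcases lt_or_gt_of_ne hj with h2 | h2
      · have h3 : (j:ℝ) ≤ -1 := by exact_mod_cast Int.le_sub_one_of_lt h2
        linarith [hm.1]
      · have h3 : (1:ℝ) ≤ j := by exact_mod_cast h2
        linarith [hm.2]
    have h2 : ‖(w u : ℂ) * ee (A * Φ u)‖ ≤ η / 3 := by
      rw [norm_mul, norm_ee, mul_one, Complex.norm_real, Real.norm_of_nonneg (hw u).1]
      exact h1
    have h3 := norm_add_le (((1 / (L * Real.sqrt A) : ℝ) : ℂ) *
      ∑ m ∈ range (A * L), ee (-(A * G (m / (A * L))) + 1 / 8 + m * (y - (r.val : ℝ) / L)) -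
      (w u : ℂ) * ee (A * Φ u)) ((w u : ℂ) * ee (A * Φ u))
    rw [sub_add_cancel] at h3
    linarith

end Crest.Agent.R75.InnerOne
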