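import Crest.Agent.R75.Basic

/-!
Exponential sums versus integrals when the phase derivative stays in `[-3/4, 3/4]` and is
Lipschitz.
-/

set_option autoImplicit false

namespace Crest.Agent.R75.KL

open Finset intervalIntegral

/-- `∫₀¹ e(θ t) dt` -/
noncomputable def kap (θ : ℝ) : ℂ := ∫ t in (0:ℝ)..1, ee (θ * t)

/-- `∫₀¹ (1 - t) e(θ t) dt` -/
noncomputable def lam (θ : ℝ) : ℂ := ∫ t in (0:ℝ)..1, ((1 - t : ℝ) : ℂ) * ee (θ * t)

lemma hasDerivAt_ee_mul (θ t : ℝ) :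
    HasDerivAt (fun t : ℝ => ee (θ * t)) (2 * Real.pi * Complex.I * θ * ee (θ * t)) t :=
  HasDerivAt.ee_comp (by simpa using (hasDerivAt_id t).const_mul θ)

lemma kap_mul (θ : ℝ) : 2 * Real.pi * Complex.I * θ * kap θ = ee θ - 1 := by
  rw [kap, ← integral_const_mul,
    integral_eq_sub_of_hasDerivAt (fun t _ => hasDerivAt_ee_mul θ t)
      (Continuous.intervalIntegrable (by fun_prop) _ _)]
  simp

lemma lam_mul (θ : ℝ) : 2 * Real.pi * Complex.I * θ * lam θ = kap θ - 1 := by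
  have hd : ∀ t : ℝ, HasDerivAt (fun t : ℝ => ((1 - t : ℝ) : ℂ) * ee (θ * t))
      (2 * Real.pi * Complex.I * θ * (((1 - t : ℝ) : ℂ) * ee (θ * t)) - ee (θ * t)) t := by
    intro t
    have h1 : HasDerivAt (fun t : ℝ => ((1 - t : ℝ) : ℂ)) (((-1 : ℝ)) : ℂ) t :=
      ((hasDerivAt_id t).const_sub 1).ofReal_comp
    refine HasDerivAt.congr_deriv (f' := _) (h1.mul (hasDerivAt_ee_mul θ t)) ?_
    push_cast
    ring
  have h := integral_eq_sub_of_hasDerivAt (a := 0) (b := 1) (fun t _ => hd t)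
    (Continuous.intervalIntegrable (by fun_prop) _ _)
  rw [integral_sub (Continuous.intervalIntegrable (by fun_prop) _ _)
    (Continuous.intervalIntegrable (by fun_prop) _ _), integral_const_mul] at h
  simp only [sub_self, Complex.ofReal_zero, zero_mul, sub_zero, Complex.ofReal_one, mul_zero,
    ee_zero, mul_one] at h
  rw [lam, kap]
  linear_combination h

lemma norm_kap_le (θ : ℝ) : ‖kap θ‖ ≤ 1 := by
  simpa [kap] using norm_integral_le_of_norm_le_const (a := 0) (b := 1) (C := 1)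
    (f := fun t : ℝ => ee (θ * t)) fun t _ => by simp

lemma norm_one_sub_le {t : ℝ} (ht : t ∈ Set.uIoc (0:ℝ) 1) : ‖((1 - t : ℝ) : ℂ)‖ ≤ 1 := by
  rw [Set.uIoc_of_le zero_le_one] at ht
  rw [Complex.norm_real, Real.norm_eq_abs, abs_le]
  constructor <;> linarith [ht.1, ht.2]

lemma norm_lam_le (θ : ℝ) : ‖lam θ‖ ≤ 1 := by
  simpa [lam] using norm_integral_le_of_norm_le_const (a := 0) (b := 1) (C := 1)
    (f := fun t : ℝ => ((1 - t : ℝ) : ℂ) * ee (θ * t)) fun t ht => by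
      rw [norm_mul, norm_ee, mul_one]; exact norm_one_sub_le ht

lemma norm_ee_mul_sub_le (θ θ' : ℝ) {t : ℝ} (ht : t ∈ Set.uIoc (0:ℝ) 1) :
    ‖ee (θ * t) - ee (θ' * t)‖ ≤ 2 * Real.pi * |θ - θ'| := by
  rw [Set.uIoc_of_le zero_le_one] at ht
  refine (norm_ee_sub_ee_le _ _).trans ?_
  rw [← sub_mul, abs_mul, abs_of_pos ht.1]
  have := mul_le_of_le_one_right (abs_nonneg (θ - θ')) ht.2
  have := Real.pi_pos
  gcongr

lemma norm_kap_sub_le (θ θ' : ℝ) : ‖kap θ - kap θ'‖ ≤ 2 * Real.pi * |θ - θ'| := by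
  rw [kap, kap, ← integral_sub (Continuous.intervalIntegrable (by fun_prop) _ _)
    (Continuous.intervalIntegrable (by fun_prop) _ _)]
  simpa using norm_integral_le_of_norm_le_const (a := 0) (b := 1)
    (f := fun t : ℝ => ee (θ * t) - ee (θ' * t)) fun t ht => norm_ee_mul_sub_le θ θ' ht

lemma norm_lam_sub_le (θ θ' : ℝ) : ‖lam θ - lam θ'‖ ≤ 2 * Real.pi * |θ - θ'| := by
  rw [lam, lam, ← integral_sub (Continuous.intervalIntegrable (by fun_prop) _ _)
    (Continuous.intervalIntegrable (by fun_prop) _ _)]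
  have := norm_integral_le_of_norm_le_const (a := 0) (b := 1) (C := 2 * Real.pi * |θ - θ'|)
    (f := fun t : ℝ => ((1 - t : ℝ) : ℂ) * ee (θ * t) - ((1 - t : ℝ) : ℂ) * ee (θ' * t))
    fun t ht => by
      rw [← mul_sub, norm_mul]
      exact (mul_le_of_le_one_left (norm_nonneg _) (norm_one_sub_le ht)).trans
        (norm_ee_mul_sub_le θ θ' ht)
  simpa using this

lemma kap_ne_zero {θ : ℝ} (hθ : |θ| < 1) : kap θ ≠ 0 := by
  intro h
  by_cases h0 : θ = 0
  · simp [kap, h0] at h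
  have h1 := kap_mul θ
  rw [h, mul_zero] at h1
  have h2 := norm_ee_sub_one θ
  rw [← h1, norm_zero] at h2
  have h3 : Real.sin (Real.pi * θ) = 0 := by
    have : |Real.sin (Real.pi * θ)| = 0 := by linarith
    exact abs_eq_zero.1 this
  have hπ := Real.pi_pos
  rw [abs_lt] at hθ
  rw [Real.sin_eq_zero_iff_of_lt_of_lt (by nlinarith) (by nlinarith)] at h3
  exact h0 ((mul_eq_zero.1 h3).resolve_left hπ.ne')

lemma exists_kap_lower : ∃ c : ℝ, 0 < c ∧ ∀ θ : ℝ, |θ| ≤ 3 / 4 → c ≤ ‖kap θ‖ := by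
  have hc : Continuous kap := by
    refine (LipschitzWith.of_dist_le_mul (K := ⟨2 * Real.pi, by positivity⟩) fun x y => ?_).continuous
    rw [dist_eq_norm, Real.dist_eq]
    exact norm_kap_sub_le x y
  obtain ⟨θ₀, h₀, hmin⟩ := (isCompact_Icc (a := -(3 / 4 : ℝ)) (b := 3 / 4)).exists_isMinOn
    ⟨0, by norm_num⟩ hc.norm.continuousOn
  refine ⟨‖kap θ₀‖, norm_pos_iff.2 (kap_ne_zero ((abs_le.2 h₀).trans_lt (by norm_num))),
    fun θ hθ => hmin (abs_le.1 hθ)⟩

lemma abel_bound (E ψ : ℕ → ℂ) (hE : ∀ m, ‖E m‖ ≤ 1) {B D : ℝ} (n : ℕ) (hB : ‖ψ 0‖ ≤ B)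
    (hD : ∀ m < n, ‖ψ m - ψ (m + 1)‖ ≤ D) :
    ‖∑ m ∈ range (n + 1), (E (m + 1) - E m) * ψ m - E (n + 1) * ψ n‖ ≤ B + n * D := by
  induction n with
  | zero =>
    have : ∑ m ∈ range (0 + 1), (E (m + 1) - E m) * ψ m - E (0 + 1) * ψ 0 = -(E 0 * ψ 0) := by
      simp; ring
    rw [this, norm_neg, norm_mul]
    simpa using (mul_le_of_le_one_left (norm_nonneg _) (hE 0)).trans hB
  | succ n ih =>
    have h1 := ih fun m hm => hD m (Nat.lt_succ_of_lt hm)
    have : ∑ m ∈ range (n + 1 + 1), (E (m + 1) - E m) * ψ m - E (n + 1 + 1) * ψ (n + 1) =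
        (∑ m ∈ range (n + 1), (E (m + 1) - E m) * ψ m - E (n + 1) * ψ n) +
          E (n + 1) * (ψ n - ψ (n + 1)) := by
      rw [sum_range_succ _ (n + 1)]; ring
    rw [this]
    refine (norm_add_le _ _).trans ?_
    have h2 : ‖E (n + 1) * (ψ n - ψ (n + 1))‖ ≤ D := by
      rw [norm_mul]
      exact (mul_le_of_le_one_left (norm_nonneg _) (hE _)).trans (hD n (Nat.lt_succ_self n))
    push_cast
    linarith

theorem sum_sub_integral : ∃ C : ℝ, 0 < C ∧ ∀ (n : ℕ) (f f1 : ℝ → ℝ) (Λ : ℝ), 0 ≤ Λ →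
    (∀ x, HasDerivAt f (f1 x) x) →
    (∀ x ∈ Set.Icc (0:ℝ) n, ∀ y ∈ Set.Icc (0:ℝ) n, |f1 x - f1 y| ≤ Λ * |x - y|) →
    (∀ x ∈ Set.Icc (0:ℝ) n, |f1 x| ≤ 3 / 4) →
    ‖∑ m ∈ range n, ee (f m) - ∫ x in (0:ℝ)..n, ee (f x)‖ ≤ C * (1 + n * Λ) := by
  obtain ⟨c, hc, hκ⟩ := exists_kap_lower
  have hπ := Real.pi_pos
  refine ⟨2 / c + 8 * Real.pi / c ^ 2 + 2 * Real.pi, by positivity,
    fun n f f1 Λ hΛ hf hL hb => ?_⟩
  have hfc : Continuous f := continuous_iff_continuousAt.2 fun x => (hf x).continuousAt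
  let θ : ℕ → ℝ := fun m => f (m + 1) - f m
  have hξ : ∀ m : ℕ, ∃ ξ ∈ Set.Ioo (m : ℝ) (m + 1), f1 ξ = θ m := fun m => by
    simpa using exists_hasDerivAt_eq_slope f f1 (lt_add_one (m : ℝ)) hfc.continuousOn
      fun x _ => hf x
  choose ξ hξ hξθ using hξ
  have hsub : ∀ m < n, Set.Icc (m : ℝ) (m + 1) ⊆ Set.Icc (0:ℝ) n := fun m hm =>
    Set.Icc_subset_Icc (Nat.cast_nonneg m) (by exact_mod_cast hm)
  have hξn : ∀ m < n, ξ m ∈ Set.Icc (0:ℝ) n := fun m hm =>
    hsub m hm (Set.Ioo_subset_Icc_self (hξ m))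
  have hθ : ∀ m < n, |θ m| ≤ 3 / 4 := fun m hm => hξθ m ▸ hb _ (hξn m hm)
  have hκ0 : ∀ m < n, kap (θ m) ≠ 0 := fun m hm => norm_pos_iff.1 (hc.trans_le (hκ _ (hθ m hm)))
  let ψ : ℕ → ℂ := fun m => -lam (θ m) / kap (θ m)
  have hψB : ∀ m < n, ‖ψ m‖ ≤ 1 / c := fun m hm => by
    simp only [ψ, norm_div, norm_neg]
    exact div_le_div₀ zero_le_one (norm_lam_le _) hc (hκ _ (hθ m hm))
  have hψD : ∀ m, m + 1 < n → ‖ψ m - ψ (m + 1)‖ ≤ 8 * Real.pi / c ^ 2 * Λ := fun m hm => by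
    have hm' : m < n := Nat.lt_of_succ_lt hm
    have hd : |θ m - θ (m + 1)| ≤ 2 * Λ := by
      rw [← hξθ, ← hξθ]
      refine (hL _ (hξn m hm') _ (hξn _ hm)).trans ?_
      rw [mul_comm 2]
      refine mul_le_mul_of_nonneg_left ?_ hΛ
      have h1 := hξ m
      have h2 := hξ (m + 1)
      push_cast at h2
      rw [abs_le]
      constructor <;> linarith [h1.1, h1.2, h2.1, h2.2]
    have e : ψ m - ψ (m + 1) = ((kap (θ m) - kap (θ (m + 1))) * lam (θ (m + 1)) -
        (lam (θ m) - lam (θ (m + 1))) * kap (θ (m + 1))) / (kap (θ m) * kap (θ (m + 1))) := by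
      have h1 := hκ0 m hm'
      have h2 := hκ0 _ hm
      simp only [ψ]
      field_simp
      ring
    rw [e, norm_div, norm_mul, div_mul_eq_mul_div, sq]
    refine div_le_div₀ (by positivity) ((norm_sub_le _ _).trans ?_) (by positivity)
      (mul_le_mul (hκ _ (hθ m hm')) (hκ _ (hθ _ hm)) hc.le (norm_nonneg _))
    rw [norm_mul, norm_mul]
    have h1 := (mul_le_of_le_one_right (norm_nonneg _) (norm_lam_le (θ (m + 1)))).trans
      (norm_kap_sub_le (θ m) (θ (m + 1)))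
    have h2 := (mul_le_of_le_one_right (norm_nonneg _) (norm_kap_le (θ (m + 1)))).trans
      (norm_lam_sub_le (θ m) (θ (m + 1)))
    nlinarith
  have hcell : ∀ m < n, ‖ee (f m) * kap (θ m) - ∫ x in (m : ℝ)..(m + 1 : ℕ), ee (f x)‖ ≤
      2 * Real.pi * Λ := fun m hm => by
    have e1 : ∫ x in (m : ℝ)..(m + 1 : ℕ), ee (f x) = ∫ t in (0:ℝ)..1, ee (f (t + m)) := by
      rw [integral_comp_add_right (fun x => ee (f x))]
      push_cast
      rw [zero_add, add_comm]
    rw [e1, kap, ← integral_const_mul, ← integral_sub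
      (Continuous.intervalIntegrable (by fun_prop) _ _)
      (Continuous.intervalIntegrable (by fun_prop) _ _)]
    have := norm_integral_le_of_norm_le_const (a := 0) (b := 1) (C := 2 * Real.pi * Λ)
      (f := fun t : ℝ => ee (f m) * ee (θ m * t) - ee (f (t + m))) fun t ht => by
        rw [Set.uIoc_of_le zero_le_one] at ht
        rw [← ee_add]
        refine (norm_ee_sub_ee_le _ _).trans (mul_le_mul_of_nonneg_left ?_ (by positivity))
        have hg := (convex_Icc (m : ℝ) (m + 1)).norm_image_sub_le_of_norm_hasDerivWithin_le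
          (f := fun x => θ m * x - f x) (f' := fun x => θ m - f1 x) (C := Λ)
          (fun x _ => by
            simpa using (((hasDerivAt_id x).const_mul (θ m)).fun_sub (hf x)).hasDerivWithinAt)
          (fun x hx => by
            rw [← hξθ, Real.norm_eq_abs]
            refine (hL _ (hξn m hm) _ (hsub m hm hx)).trans (mul_le_of_le_one_right hΛ ?_)
            have h1 := hξ m
            rw [abs_le]
            constructor <;> linarith [h1.1, h1.2, hx.1, hx.2])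
          (x := m) (y := t + m) ⟨le_rfl, by linarith⟩ ⟨by linarith [ht.1], by linarith [ht.2]⟩
        simp only [Real.norm_eq_abs, add_sub_cancel_right] at hg
        rw [abs_of_pos ht.1] at hg
        calc |f m + θ m * t - f (t + m)| = |θ m * (t + m) - f (t + m) - (θ m * m - f m)| := by
              congr 1; ring
          _ ≤ Λ * t := hg
          _ ≤ Λ := mul_le_of_le_one_right hΛ ht.2
    simpa using this
  have hsplit : ∀ m < n, ee (f m) = (ee (f ((m + 1 : ℕ) : ℝ)) - ee (f m)) * ψ m +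
      ee (f m) * kap (θ m) := fun m hm => by
    have h1 : ee (f ((m + 1 : ℕ) : ℝ)) = ee (f m) * ee (θ m) := by
      rw [← ee_add]; simp [θ]
    have h2 := kap_mul (θ m)
    have h3 := lam_mul (θ m)
    have h4 := hκ0 m hm
    have h5 : (ee (θ m) - 1) * ψ m = 1 - kap (θ m) := by
      rw [← h2]
      simp only [ψ]
      field_simp
      linear_combination -h3
    rw [h1]
    linear_combination (-ee (f m)) * h5
  have hint : ∫ x in (0:ℝ)..n, ee (f x) =
      ∑ m ∈ range n, ∫ x in (m : ℝ)..(m + 1 : ℕ), ee (f x) := by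
    rw [sum_integral_adjacent_intervals (a := fun m : ℕ => (m : ℝ))
      fun m _ => Continuous.intervalIntegrable (by fun_prop) _ _]
    simp
  rw [hint, sum_congr rfl fun m hm => hsplit m (mem_range.1 hm), sum_add_distrib, add_sub_assoc,
    ← sum_sub_distrib]
  refine (norm_add_le _ _).trans ?_
  have h1 : ‖∑ m ∈ range n, (ee (f m) * kap (θ m) - ∫ x in (m : ℝ)..(m + 1 : ℕ), ee (f x))‖ ≤
      n * (2 * Real.pi * Λ) := by
    refine (norm_sum_le _ _).trans ?_
    simpa using sum_le_card_nsmul (range n) _ _ fun m hm => hcell m (mem_range.1 hm)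
  have h2 : ‖∑ m ∈ range n, (ee (f ((m + 1 : ℕ) : ℝ)) - ee (f m)) * ψ m‖ ≤
      2 / c + n * (8 * Real.pi / c ^ 2 * Λ) := by
    rcases n with _ | n
    · simp; positivity
    · have h3 := abel_bound (fun m => ee (f m)) ψ (fun m => by simp) n (hψB 0 n.succ_pos)
        fun m hm => hψD m (Nat.succ_lt_succ hm)
      have h4 : ‖ee (f ((n + 1 : ℕ) : ℝ)) * ψ n‖ ≤ 1 / c := by
        rw [norm_mul, norm_ee, one_mul]; exact hψB n n.lt_succ_self
      have h5 := norm_add_le (∑ m ∈ range (n + 1), (ee (f ((m + 1 : ℕ) : ℝ)) - ee (f m)) * ψ m -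
        ee (f ((n + 1 : ℕ) : ℝ)) * ψ n) (ee (f ((n + 1 : ℕ) : ℝ)) * ψ n)
      rw [sub_add_cancel] at h5
      have h6 : 0 ≤ 8 * Real.pi / c ^ 2 * Λ := by positivity
      have h7 : 2 / c = 1 / c + 1 / c := by ring
      push_cast at h3 h4 h5 ⊢
      nlinarith
  have h3 : 0 ≤ (n : ℝ) * Λ := by positivity
  have h4 : 0 ≤ 2 / c * (n * Λ) := by positivity
  have h5 : 0 ≤ 8 * Real.pi / c ^ 2 := by positivity
  nlinarith

end Crest.Agent.R75.KL
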