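import Crest.Agent.R75.Basic

/-! T4a: the trapezoid kernel reproduces locally pure tones. -/

set_option autoImplicit false

namespace Crest.Agent.R75

open Finset

namespace Kernel

/-- the trapezoid weights -/
noncomputable def wt (A B k : ℕ) : ℝ :=
  (((range A ×ˢ range B).filter fun q : ℕ × ℕ => q.1 + q.2 = k).card : ℝ) / A

lemma wt_nonneg (A B k : ℕ) : 0 ≤ wt A B k := by unfold wt; positivity

lemma wt_le_one (A B k : ℕ) : wt A B k ≤ 1 := by
  unfold wt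
  apply div_le_one_of_le₀ _ (Nat.cast_nonneg _)
  have : ((range A ×ˢ range B).filter fun q : ℕ × ℕ => q.1 + q.2 = k).card ≤ (range A).card := by
    apply card_le_card_of_injOn Prod.fst
    · intro q hq
      exact (mem_product.1 (mem_filter.1 hq).1).1
    · intro q hq q' hq' h
      have h1 := (mem_filter.1 hq).2
      have h2 := (mem_filter.1 hq').2
      ext
      · exact h
      · omega
  rw [card_range] at this
  exact_mod_cast this

lemma wt_eq_one {A B k : ℕ} (hA : 0 < A) (h1 : A ≤ k + 1) (h2 : k < B) : wt A B k = 1 := by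
  unfold wt
  have : ((range A ×ˢ range B).filter fun q : ℕ × ℕ => q.1 + q.2 = k).card = (range A).card := by
    apply card_bij (fun q _ => q.1)
    · intro q hq
      exact (mem_product.1 (mem_filter.1 hq).1).1
    · intro q hq q' hq' h
      have h1 := (mem_filter.1 hq).2
      have h2 := (mem_filter.1 hq').2
      ext
      · exact h
      · omega
    · intro j hj
      have hj' := mem_range.1 hj
      refine ⟨(j, k - j), mem_filter.2 ⟨mem_product.2 ⟨hj, mem_range.2 (by omega)⟩, by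
        simp only; omega⟩, rfl⟩
  rw [this, card_range]
  exact div_self (by exact_mod_cast hA.ne')

lemma sum_wt {A B N : ℕ} (h : A + B ≤ N + 1) (φ : ℝ) :
    ∑ k ∈ range N, (wt A B k : ℂ) * ee (k * φ) =
      (A : ℂ)⁻¹ * ((∑ j ∈ range A, ee (j * φ)) * ∑ j ∈ range B, ee (j * φ)) := by
  rw [sum_mul_sum, ← sum_product', ← sum_fiberwise_of_maps_to (t := range N)
    (g := fun q : ℕ × ℕ => q.1 + q.2), mul_sum]
  · apply sum_congr rfl
    intro k _
    rw [sum_congr rfl (g := fun _ => ee (k * φ)), sum_const, nsmul_eq_mul]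
    · unfold wt; push_cast; ring
    · intro q hq
      rw [← ee_add, ← (mem_filter.1 hq).2]
      congr 1; push_cast; ring
  · intro q hq
    have h1 := mem_range.1 (mem_product.1 hq).1
    have h2 := mem_range.1 (mem_product.1 hq).2
    exact mem_range.2 (by omega)

lemma norm_sum_wt {A B N : ℕ} (hA : 0 < A) (h : A + B ≤ N + 1) {φ : ℝ} (hφ : |φ| ≤ 1 / 2) :
    |φ| * ‖∑ k ∈ range N, (wt A B k : ℂ) * ee (k * φ)‖ ≤ 1 / 2 ∧
    φ ^ 2 * ‖∑ k ∈ range N, (wt A B k : ℂ) * ee (k * φ)‖ ≤ 1 / (4 * A) := by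
  rw [sum_wt h, norm_mul, norm_mul, norm_inv, Complex.norm_natCast]
  have hA' : (0 : ℝ) < A := by exact_mod_cast hA
  have h1 := abs_mul_norm_sum_ee_le hφ A
  have h2 := abs_mul_norm_sum_ee_le hφ B
  have h3 := norm_sum_ee_le (range A) (fun j => j * φ)
  rw [card_range] at h3
  set a := ‖∑ j ∈ range A, ee (j * φ)‖
  set b := ‖∑ j ∈ range B, ee (j * φ)‖
  have ha : 0 ≤ a := norm_nonneg _
  have hb : 0 ≤ b := norm_nonneg _
  have hp := abs_nonneg φ
  constructor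
  · calc |φ| * ((A : ℝ)⁻¹ * (a * b)) = (A : ℝ)⁻¹ * a * (|φ| * b) := by ring
      _ ≤ (A : ℝ)⁻¹ * A * (1 / 2) := by gcongr
      _ = 1 / 2 := by field_simp
  · calc φ ^ 2 * ((A : ℝ)⁻¹ * (a * b)) = (A : ℝ)⁻¹ * ((|φ| * a) * (|φ| * b)) := by
          rw [← sq_abs]; ring
      _ ≤ (A : ℝ)⁻¹ * ((1 / 2) * (1 / 2)) := by gcongr
      _ = 1 / (4 * A) := by field_simp; norm_num

end Kernel

open Kernel in
/-- T4a: trapezoid kernel reproduces locally pure tones. -/
theorem kernel_approx (δ C ε : ℝ) (hδ : 0 < δ) (hε : 0 < ε) :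
    ∃ N₀ : ℕ, ∀ N ≥ N₀, ∃ v : ℕ → ℝ, (∀ k, 0 ≤ v k ∧ v k ≤ 1) ∧
      ∀ g : ℝ → ℂ, Continuous g → (∀ θ, g (θ + 1) = g θ) → (∀ θ, ‖g θ‖ ≤ 1) →
        (∀ θ, ∃ k₀ : ℕ, δ * N ≤ k₀ ∧ k₀ ≤ (1 - δ) * N ∧
          ∀ φ : ℝ, ‖g (θ + φ) - g θ * ee (k₀ * φ)‖ ≤ C * (N * φ ^ 2 + |φ|)) →
        ∀ θ : ℝ, ‖∑ k ∈ range N, (v k : ℂ) *
            (∫ s in (-1 / 2 : ℝ)..(1 / 2), g s * ee (-(k * s))) * ee (k * θ) - g θ‖ ≤ ε := by
  set C₁ : ℝ := |C| * (1 / (2 * δ) + 1 / 2) + 1 with hC₁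
  have hC₁0 : 0 < C₁ := by positivity
  set ρ : ℝ := min (1 / 2) (ε / (4 * C₁)) with hρ
  have hρ0 : 0 < ρ := by positivity
  have hρ1 : ρ ≤ 1 / 2 := min_le_left _ _
  have hρ2 : ρ ≤ ε / (4 * C₁) := min_le_right _ _
  refine ⟨⌈(1 / (ε * ρ ^ 2) + 2) / δ⌉₊, fun N hN => ?_⟩
  have hN' : 1 / (ε * ρ ^ 2) + 2 ≤ δ * N := by
    have := (Nat.le_ceil _).trans (Nat.cast_le.2 hN : ((⌈(1 / (ε * ρ ^ 2) + 2) / δ⌉₊ : ℕ) : ℝ) ≤ N)
    rw [div_le_iff₀ hδ] at this
    linarith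
  have hq : 0 < 1 / (ε * ρ ^ 2) := by positivity
  set A : ℕ := ⌊δ * N⌋₊ with hA
  have hA1 : (A : ℝ) ≤ δ * N := Nat.floor_le (by linarith)
  have hA2 : δ * N < A + 1 := Nat.lt_floor_add_one _
  have hA3 : (1 : ℝ) ≤ A := by linarith
  have hA0 : 0 < A := by exact_mod_cast (by linarith : (0 : ℝ) < A)
  refine ⟨wt A (N - A + 1), fun k => ⟨wt_nonneg _ _ _, wt_le_one _ _ _⟩, ?_⟩
  intro g hg hper hnorm htone θ
  obtain ⟨k₀, hk1, hk2, hk⟩ := htone θ
  have hk3 : A ≤ k₀ := by exact_mod_cast hA1.trans hk1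
  have hk4 : k₀ + A ≤ N := by
    have : (k₀ : ℝ) + A ≤ N := by linarith
    exact_mod_cast this
  set V : ℝ → ℂ := fun φ => ∑ k ∈ range N, (wt A (N - A + 1) k : ℂ) * ee (k * φ) with hV
  have hVc : Continuous V := by rw [hV]; fun_prop
  have hVper : ∀ φ, V (φ - 1) = V φ := by
    intro φ
    apply sum_congr rfl
    intro k _
    rw [mul_sub, ee_sub, mul_one, ee_neg']
    simp
  have e1 : ∑ k ∈ range N, (wt A (N - A + 1) k : ℂ) *
      (∫ s in (-1 / 2 : ℝ)..(1 / 2), g s * ee (-(k * s))) * ee (k * θ) =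
      ∫ s in (-1 / 2 : ℝ)..(1 / 2), g s * V (θ - s) := by
    simp only [hV, mul_sum]
    rw [intervalIntegral.integral_finsetSum]
    · apply sum_congr rfl
      intro k _
      rw [← intervalIntegral.integral_const_mul, ← intervalIntegral.integral_mul_const]
      congr 1
      funext s
      rw [mul_sub, ee_sub]
      ring
    · intro k _
      apply Continuous.intervalIntegrable
      fun_prop
  have e2 : ∫ s in (-1 / 2 : ℝ)..(1 / 2), g s * V (θ - s) =
      ∫ φ in (-1 / 2 : ℝ)..(1 / 2), g (θ + φ) * V (-φ) := by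
    have hp : Function.Periodic (fun s => g s * V (θ - s)) 1 := by
      intro s
      simp only
      rw [hper, ← sub_sub, hVper]
    have h1 := hp.intervalIntegral_add_eq (-1 / 2) (θ + -1 / 2)
    have h2 := intervalIntegral.integral_comp_add_left (a := (-1 / 2 : ℝ)) (b := 1 / 2)
      (fun s => g s * V (θ - s)) θ
    rw [show (-1 / 2 : ℝ) + 1 = 1 / 2 by norm_num, show θ + -1 / 2 + 1 = θ + 1 / 2 by ring] at h1
    rw [h1, ← h2]
    congr 1
    funext φ
    congr 2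
    ring
  have e3 : g θ = ∫ φ in (-1 / 2 : ℝ)..(1 / 2), g θ * ee (k₀ * φ) * V (-φ) := by
    simp only [hV, mul_sum]
    rw [intervalIntegral.integral_finsetSum]
    · rw [sum_eq_single k₀]
      · have : ∀ φ : ℝ, g θ * ee (k₀ * φ) * ((wt A (N - A + 1) k₀ : ℂ) * ee (k₀ * -φ)) = g θ := by
          intro φ
          rw [wt_eq_one hA0 (by omega) (by omega), mul_neg]
          have := ee_mul_ee_neg (k₀ * φ)
          push_cast
          linear_combination g θ * this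
        simp only [this]
        simp
        norm_num
      · intro k _ hk
        have h1 := integral_ee_int_mul (-1 / 2) ((k₀ : ℤ) - k)
        rw [if_neg (by omega), show (-1 / 2 : ℝ) + 1 = 1 / 2 by norm_num] at h1
        have : ∀ φ : ℝ, g θ * ee (k₀ * φ) * ((wt A (N - A + 1) k : ℂ) * ee (k * -φ)) =
            (g θ * (wt A (N - A + 1) k : ℂ)) * ee ((((k₀ : ℤ) - k : ℤ) : ℝ) * φ) := by
          intro φ
          push_cast
          rw [sub_mul, ee_sub, mul_neg]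
          ring
        simp only [this]
        rw [intervalIntegral.integral_const_mul, h1, mul_zero]
      · intro h
        exact absurd (mem_range.2 (by omega)) h
    · intro k _
      apply Continuous.intervalIntegrable
      fun_prop
  set F : ℝ → ℂ := fun φ => (g (θ + φ) - g θ * ee (k₀ * φ)) * V (-φ) with hF
  have hFc : Continuous F := by rw [hF]; fun_prop
  have e4 : (∫ φ in (-1 / 2 : ℝ)..(1 / 2), g (θ + φ) * V (-φ)) - g θ =
      ∫ φ in (-1 / 2 : ℝ)..(1 / 2), F φ := by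
    conv_lhs => rw [e3]
    rw [← intervalIntegral.integral_sub]
    · congr 1
      funext φ
      simp only [hF]
      ring
    · apply Continuous.intervalIntegrable; fun_prop
    · apply Continuous.intervalIntegrable; fun_prop
  rw [e1, e2, e4]
  have hVb : ∀ φ : ℝ, |φ| ≤ 1 / 2 → |φ| * ‖V (-φ)‖ ≤ 1 / 2 ∧ φ ^ 2 * ‖V (-φ)‖ ≤ 1 / (4 * A) := by
    intro φ hφ
    have := norm_sum_wt (A := A) (B := N - A + 1) (N := N) hA0 (by omega) (φ := -φ)
      (by rwa [abs_neg])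
    rwa [abs_neg, neg_sq] at this
  have hA' : (0 : ℝ) < A := by linarith
  have b1 : ∀ φ : ℝ, |φ| ≤ 1 / 2 → ‖F φ‖ ≤ C₁ := by
    intro φ hφ
    obtain ⟨h1, h2⟩ := hVb φ hφ
    have h3 : (N : ℝ) * (1 / (4 * A)) ≤ 1 / (2 * δ) := by
      rw [mul_one_div, div_le_div_iff₀ (by positivity) (by positivity)]
      nlinarith
    have hn := norm_nonneg (V (-φ))
    calc ‖F φ‖ = ‖g (θ + φ) - g θ * ee (k₀ * φ)‖ * ‖V (-φ)‖ := norm_mul _ _
      _ ≤ (|C| * (N * φ ^ 2 + |φ|)) * ‖V (-φ)‖ := by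
          apply mul_le_mul_of_nonneg_right _ hn
          exact (hk φ).trans (mul_le_mul_of_nonneg_right (le_abs_self C) (by positivity))
      _ = |C| * (N * (φ ^ 2 * ‖V (-φ)‖) + |φ| * ‖V (-φ)‖) := by ring
      _ ≤ |C| * (N * (1 / (4 * A)) + 1 / 2) := by gcongr
      _ ≤ |C| * (1 / (2 * δ) + 1 / 2) := by gcongr
      _ ≤ C₁ := by linarith
  have b2 : ∀ φ : ℝ, ρ ≤ |φ| → |φ| ≤ 1 / 2 → ‖F φ‖ ≤ ε / 2 := by
    intro φ hφ0 hφ
    obtain ⟨-, h2⟩ := hVb φ hφ
    have hn := norm_nonneg (V (-φ))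
    have h3 : ‖g (θ + φ) - g θ * ee (k₀ * φ)‖ ≤ 2 := by
      calc _ ≤ ‖g (θ + φ)‖ + ‖g θ * ee (k₀ * φ)‖ := norm_sub_le _ _
        _ ≤ 2 := by rw [norm_mul, norm_ee, mul_one]; linarith [hnorm (θ + φ), hnorm θ]
    have h4 : ρ ^ 2 ≤ φ ^ 2 := by rw [← sq_abs φ]; gcongr
    have h5 : ρ ^ 2 * ‖V (-φ)‖ ≤ 1 / (4 * A) := le_trans (by gcongr) h2
    have h6 : 1 / (ε * ρ ^ 2) ≤ A := by linarith
    rw [div_le_iff₀ (by positivity)] at h6
    rw [le_div_iff₀ (by positivity)] at h5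
    have h7 : ‖V (-φ)‖ ≤ ε / 4 := by
      by_contra hcon
      push Not at hcon
      have : ρ ^ 2 * (ε / 4) * (4 * A) < ρ ^ 2 * ‖V (-φ)‖ * (4 * A) := by gcongr
      nlinarith
    calc ‖F φ‖ = ‖g (θ + φ) - g θ * ee (k₀ * φ)‖ * ‖V (-φ)‖ := norm_mul _ _
      _ ≤ 2 * (ε / 4) := by gcongr
      _ = ε / 2 := by ring
  have hi : ∀ a b : ℝ, IntervalIntegrable F MeasureTheory.volume a b :=
    fun a b => hFc.intervalIntegrable a b
  rw [← intervalIntegral.integral_add_adjacent_intervals (hi _ (-ρ)) (hi _ _),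
    ← intervalIntegral.integral_add_adjacent_intervals (hi (-ρ) ρ) (hi _ _)]
  have c1 : ‖∫ φ in (-1 / 2 : ℝ)..(-ρ), F φ‖ ≤ ε / 2 * |-ρ - -1 / 2| := by
    apply intervalIntegral.norm_integral_le_of_norm_le_const
    intro φ hφ
    rw [Set.uIoc_of_le (by linarith)] at hφ
    have h1 := hφ.1
    have h2 := hφ.2
    apply b2 <;> rw [abs_of_neg (by linarith)] <;> linarith
  have c2 : ‖∫ φ in (-ρ)..ρ, F φ‖ ≤ C₁ * |ρ - -ρ| := by
    apply intervalIntegral.norm_integral_le_of_norm_le_const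
    intro φ hφ
    rw [Set.uIoc_of_le (by linarith)] at hφ
    apply b1
    exact abs_le.2 ⟨by linarith [hφ.1], by linarith [hφ.2]⟩
  have c3 : ‖∫ φ in ρ..(1 / 2 : ℝ), F φ‖ ≤ ε / 2 * |1 / 2 - ρ| := by
    apply intervalIntegral.norm_integral_le_of_norm_le_const
    intro φ hφ
    rw [Set.uIoc_of_le (by linarith)] at hφ
    have h1 := hφ.1
    have h2 := hφ.2
    apply b2 <;> rw [abs_of_pos (by linarith)] <;> linarith
  rw [abs_of_nonneg (by linarith)] at c1 c2 c3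
  have c4 : C₁ * (ρ - -ρ) ≤ ε / 2 := by
    rw [le_div_iff₀ (by positivity)] at hρ2
    nlinarith
  refine (norm_add_le _ _).trans ((add_le_add c1 ((norm_add_le _ _).trans
    (add_le_add c2 c3))).trans ?_)
  nlinarith

end Crest.Agent.R75
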