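import Mathlib
import Crest.Agent.R75.Basic

/-!
Spencer-type discrepancy bound through partial colourings (task T1a of result 75).
-/

set_option autoImplicit false

namespace Crest.Agent.R75

namespace Spencer

open Finset

/-- The sign vector attached to a subset. -/
noncomputable def sg (T : Finset ℕ) (k : ℕ) : ℝ := if k ∈ T then 1 else -1

theorem sum_powerset_prod_ite (S : Finset ℕ) (f g : ℕ → ℝ) :
    ∑ T ∈ S.powerset, ∏ k ∈ S, (if k ∈ T then f k else g k) = ∏ k ∈ S, (f k + g k) := by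
  rw [Finset.prod_add]
  refine Finset.sum_congr rfl fun T hT => ?_
  have hTS : T ⊆ S := Finset.mem_powerset.1 hT
  rw [Finset.prod_ite]
  congr 2
  · ext k; simp only [Finset.mem_filter]; exact ⟨fun h => h.2, fun h => ⟨hTS h, h⟩⟩
  · ext k; simp

theorem sum_exp_le (S : Finset ℕ) (v : ℕ → ℝ) (hv : ∀ k, |v k| ≤ 1) (a : ℝ) :
    ∑ T ∈ S.powerset, Real.exp (a * ∑ k ∈ S, sg T k * v k)
      ≤ 2 ^ S.card * Real.exp (a ^ 2 * S.card / 2) := by
  have h1 : ∀ T : Finset ℕ, Real.exp (a * ∑ k ∈ S, sg T k * v k)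
      = ∏ k ∈ S, (if k ∈ T then Real.exp (a * v k) else Real.exp (-(a * v k))) := by
    intro T
    rw [Finset.mul_sum, Real.exp_sum]
    refine Finset.prod_congr rfl fun k _ => ?_
    unfold sg
    split_ifs <;> congr 1 <;> ring
  simp only [h1]
  rw [sum_powerset_prod_ite]
  have h2 : ∀ k ∈ S, Real.exp (a * v k) + Real.exp (-(a * v k)) ≤ 2 * Real.exp (a ^ 2 / 2) := by
    intro k _
    have := Real.cosh_le_exp_half_sq (a * v k)
    rw [Real.cosh_eq] at this
    have h3 : (a * v k) ^ 2 / 2 ≤ a ^ 2 / 2 := by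
      have : (v k) ^ 2 ≤ 1 := by
        have := hv k
        rw [← sq_abs]; nlinarith [abs_nonneg (v k)]
      rw [mul_pow]; nlinarith [sq_nonneg a]
    have := Real.exp_le_exp.2 h3
    linarith
  calc ∏ k ∈ S, (Real.exp (a * v k) + Real.exp (-(a * v k)))
      ≤ ∏ k ∈ S, (2 * Real.exp (a ^ 2 / 2)) :=
        Finset.prod_le_prod (fun k _ => by positivity) h2
    _ = 2 ^ S.card * Real.exp (a ^ 2 * S.card / 2) := by
        rw [Finset.prod_const, mul_pow, ← Real.exp_nat_mul]; congr 2; ring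

theorem sum_pow_six_le (S : Finset ℕ) (hS : S.Nonempty) (v : ℕ → ℝ) (hv : ∀ k, |v k| ≤ 1) :
    ∑ T ∈ S.powerset, |∑ k ∈ S, sg T k * v k| ^ 6 ≤ 2 ^ S.card * (2880 * (S.card : ℝ) ^ 3) := by
  have hs : (0 : ℝ) < S.card := by exact_mod_cast hS.card_pos
  set σ := Real.sqrt S.card with hσ
  have hσ0 : 0 < σ := Real.sqrt_pos.2 hs
  have hσ2 : σ ^ 2 = S.card := Real.sq_sqrt hs.le
  have he : Real.exp (1 / 2) ≤ 2 := by
    have : Real.exp (1 / 2) ^ 2 = Real.exp 1 := by rw [← Real.exp_nat_mul]; norm_num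
    have h3 := Real.exp_one_lt_three
    nlinarith [Real.exp_pos (1 / 2)]
  have h1 := sum_exp_le S v hv (1 / σ)
  have h2 := sum_exp_le S v hv (-(1 / σ))
  have e1 : (1 / σ) ^ 2 * S.card / 2 = 1 / 2 := by rw [← hσ2]; field_simp
  have e2 : (-(1 / σ)) ^ 2 * S.card / 2 = 1 / 2 := by rw [neg_sq, e1]
  rw [e1] at h1
  rw [e2] at h2
  have h3 : ∀ X : ℝ, |X| ^ 6 ≤ 720 * (S.card : ℝ) ^ 3
      * (Real.exp (1 / σ * X) + Real.exp (-(1 / σ) * X)) := by
    intro X
    have a1 := Real.pow_div_factorial_le_exp (|X| / σ) (by positivity) 6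
    have a2 : Real.exp (|X| / σ) ≤ Real.exp (1 / σ * X) + Real.exp (-(1 / σ) * X) := by
      rcases abs_cases X with h | h
      · rw [h.1, show X / σ = 1 / σ * X by ring]; linarith [Real.exp_pos (-(1 / σ) * X)]
      · rw [h.1, show -X / σ = -(1 / σ) * X by ring]; linarith [Real.exp_pos (1 / σ * X)]
    have a3 : |X| ^ 6 = 720 * (S.card : ℝ) ^ 3 * ((|X| / σ) ^ 6 / (Nat.factorial 6 : ℕ)) := by
      rw [← hσ2]; simp only [Nat.factorial]; push_cast; field_simp
    rw [a3]
    exact mul_le_mul_of_nonneg_left (a1.trans a2) (by positivity)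
  calc ∑ T ∈ S.powerset, |∑ k ∈ S, sg T k * v k| ^ 6
      ≤ ∑ T ∈ S.powerset, 720 * (S.card : ℝ) ^ 3
        * (Real.exp (1 / σ * ∑ k ∈ S, sg T k * v k)
          + Real.exp (-(1 / σ) * ∑ k ∈ S, sg T k * v k)) := Finset.sum_le_sum fun T _ => h3 _
    _ = 720 * (S.card : ℝ) ^ 3 * (∑ T ∈ S.powerset, Real.exp (1 / σ * ∑ k ∈ S, sg T k * v k)
          + ∑ T ∈ S.powerset, Real.exp (-(1 / σ) * ∑ k ∈ S, sg T k * v k)) := by
        rw [← Finset.mul_sum, Finset.sum_add_distrib]
    _ ≤ 720 * (S.card : ℝ) ^ 3 * (2 ^ S.card * 2 + 2 ^ S.card * 2) := by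
        gcongr
        · exact h1.trans (by gcongr)
        · exact h2.trans (by gcongr)
    _ = _ := by ring

theorem sum_geom_int (q : ℝ) (h0 : 0 ≤ q) (h1 : q ≤ 1 / 2) (N : ℕ) :
    ∑ j ∈ Finset.Icc (-(N : ℤ)) N, q ^ j.natAbs ≤ 1 + 4 * q - 4 * q ^ (N + 1) := by
  induction N with
  | zero => simp
  | succ N ih =>
    have e : Finset.Icc (-((N + 1 : ℕ) : ℤ)) ((N + 1 : ℕ) : ℤ)
        = insert (-((N : ℤ) + 1)) (insert ((N : ℤ) + 1) (Finset.Icc (-(N : ℤ)) N)) := by
      ext j; simp only [Finset.mem_Icc, Finset.mem_insert]; push_cast; omega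
    rw [e, Finset.sum_insert (by simp only [Finset.mem_Icc, Finset.mem_insert]; omega),
      Finset.sum_insert (by simp only [Finset.mem_Icc]; omega)]
    have e1 : (-((N : ℤ) + 1)).natAbs = N + 1 := by omega
    have e2 : ((N : ℤ) + 1).natAbs = N + 1 := by omega
    rw [e1, e2, pow_succ q (N + 1)]
    have : 0 ≤ q ^ (N + 1) := by positivity
    nlinarith

theorem sum_geom_finset (q : ℝ) (h0 : 0 ≤ q) (h1 : q ≤ 1 / 2) (J : Finset ℤ) :
    ∑ j ∈ J, q ^ j.natAbs ≤ Real.exp (4 * q) := by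
  have hsub : J ⊆ Finset.Icc (-((J.sup Int.natAbs : ℕ) : ℤ)) (J.sup Int.natAbs : ℕ) := by
    intro j hj
    have : j.natAbs ≤ J.sup Int.natAbs := Finset.le_sup (f := Int.natAbs) hj
    simp only [Finset.mem_Icc]; omega
  have a := Finset.sum_le_sum_of_subset_of_nonneg (f := fun j : ℤ => q ^ j.natAbs) hsub
    (fun _ _ _ => by positivity)
  have b := sum_geom_int q h0 h1 (J.sup Int.natAbs)
  have c := Real.add_one_le_exp (4 * q)
  have : 0 ≤ q ^ (J.sup Int.natAbs + 1) := by positivity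
  linarith

theorem natAbs_floor_le (X D : ℝ) (hD : 0 < D) :
    ((⌊(X + D) / (2 * D)⌋.natAbs : ℕ) : ℝ) ≤ |X| ^ 6 / D ^ 6 := by
  set t := X / D with ht
  have e : (X + D) / (2 * D) = (t + 1) / 2 := by rw [ht]; field_simp
  have e2 : |X| ^ 6 / D ^ 6 = |t| ^ 6 := by rw [ht, abs_div, abs_of_pos hD, div_pow]
  rw [e, e2, Nat.cast_natAbs]
  push_cast
  have h1 := Int.floor_le ((t + 1) / 2)
  have h2 := Int.lt_floor_add_one ((t + 1) / 2)
  by_cases h : |t| < 1
  · have : ⌊(t + 1) / 2⌋ = 0 := by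
      rw [Int.floor_eq_zero_iff]
      rw [abs_lt] at h
      constructor <;> linarith [h.1, h.2]
    rw [this]; simp
  · push Not at h
    have h3 : |t| ≤ |t| ^ 6 := le_self_pow₀ h (by norm_num)
    refine le_trans ?_ h3
    rw [abs_le]
    rcases abs_cases t with h4 | h4 <;> constructor <;> linarith [h4.1, h4.2]

theorem ball_le (S T : Finset ℕ) (F : Finset (Finset ℕ)) (hF : F ⊆ S.powerset)
    (hd : ∀ T' ∈ F, 10 * (S.filter fun k => sg T k ≠ sg T' k).card ≤ S.card) :
    (F.card : ℝ) ≤ Real.exp (0.45 * S.card) := by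
  set y := Real.exp (-2) with hy
  have hy0 : 0 < y := Real.exp_pos _
  have hy1 : y ≤ 1 / 4 := by
    have h1 : (2 : ℝ) ≤ Real.exp 1 := by linarith [Real.add_one_le_exp 1]
    have h2 : Real.exp 2 = Real.exp 1 ^ 2 := by rw [← Real.exp_nat_mul]; norm_num
    rw [hy, Real.exp_neg, ← one_div]
    exact one_div_le_one_div_of_le (by norm_num) (by nlinarith)
  have h1 : ∀ T' : Finset ℕ, y ^ (S.filter fun k => sg T k ≠ sg T' k).card
      = ∏ k ∈ S, (if k ∈ T' then (if k ∈ T then 1 else y) else (if k ∈ T then y else 1)) := by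
    intro T'
    rw [← Finset.prod_const, Finset.prod_filter]
    refine Finset.prod_congr rfl fun k _ => ?_
    unfold sg
    by_cases a : k ∈ T <;> by_cases b : k ∈ T' <;> simp [a, b] <;> norm_num
  have h2 : ∑ T' ∈ S.powerset, y ^ (S.filter fun k => sg T k ≠ sg T' k).card
      ≤ Real.exp (0.25 * S.card) := by
    simp only [h1]
    rw [sum_powerset_prod_ite]
    calc ∏ k ∈ S, ((if k ∈ T then 1 else y) + (if k ∈ T then y else 1))
        ≤ ∏ k ∈ S, Real.exp 0.25 := by
          refine Finset.prod_le_prod (fun k _ => by split_ifs <;> positivity) fun k _ => ?_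
          have := Real.add_one_le_exp 0.25
          split_ifs <;> linarith
      _ = _ := by rw [Finset.prod_const, ← Real.exp_nat_mul, mul_comm]
  have h3 : (F.card : ℝ) * Real.exp (-0.2 * S.card)
      ≤ ∑ T' ∈ S.powerset, y ^ (S.filter fun k => sg T k ≠ sg T' k).card := by
    calc (F.card : ℝ) * Real.exp (-0.2 * S.card) = ∑ T' ∈ F, Real.exp (-0.2 * S.card) := by simp
      _ ≤ ∑ T' ∈ F, y ^ (S.filter fun k => sg T k ≠ sg T' k).card := by
          refine Finset.sum_le_sum fun T' hT' => ?_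
          rw [hy, ← Real.exp_nat_mul]
          apply Real.exp_le_exp.2
          have : (10 : ℝ) * (S.filter fun k => sg T k ≠ sg T' k).card ≤ S.card := by
            exact_mod_cast hd T' hT'
          linarith
      _ ≤ _ := Finset.sum_le_sum_of_subset_of_nonneg hF fun _ _ _ => by positivity
  have h4 : Real.exp (0.45 * S.card) * Real.exp (-0.2 * S.card) = Real.exp (0.25 * S.card) := by
    rw [← Real.exp_add]; congr 1; ring
  have h5 := Real.exp_pos (-0.2 * S.card)
  exact le_of_mul_le_mul_right (by linarith) h5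

/-- The partial colouring lemma. -/
theorem partial_colouring (ι : Type) [Fintype ι] (v : ι → ℕ → ℝ) (S : Finset ℕ)
    (hv : ∀ i k, |v i k| ≤ 1) (hS : S.Nonempty) (hM : S.card ≤ Fintype.card ι) :
    ∃ T T' : Finset ℕ, S.card < 10 * (S.filter fun k => sg T k ≠ sg T' k).card ∧
      ∀ i, |∑ k ∈ S, sg T k * v i k - ∑ k ∈ S, sg T' k * v i k|
        ≤ 2 * (10 * Real.sqrt (Real.sqrt (S.card * Fintype.card ι))) := by
  classical
  by_contra hcon
  push Not at hcon
  have hs : (0 : ℝ) < S.card := by exact_mod_cast hS.card_pos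
  have hsM : (S.card : ℝ) ≤ Fintype.card ι := by exact_mod_cast hM
  set s : ℝ := (S.card : ℝ) with hsdef
  set M : ℝ := (Fintype.card ι : ℝ) with hMdef
  have hM0 : 0 < M := hs.trans_le hsM
  set R := Real.sqrt (Real.sqrt (s * M)) with hR
  have hR0 : 0 < R := Real.sqrt_pos.2 (Real.sqrt_pos.2 (by positivity))
  have hR2 : R ^ 2 = Real.sqrt (s * M) := Real.sq_sqrt (Real.sqrt_nonneg _)
  have hR4 : R ^ 4 = s * M := by
    rw [show R ^ 4 = (R ^ 2) ^ 2 by ring, hR2, Real.sq_sqrt (by positivity)]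
  set D := 10 * R with hD
  have hD0 : 0 < D := by positivity
  let X : Finset ℕ → ι → ℝ := fun T i => ∑ k ∈ S, sg T k * v i k
  let Y : Finset ℕ → ι → ℤ := fun T i => ⌊(X T i + D) / (2 * D)⌋
  set q : ℝ := s / (40 * M) with hq
  have hq0 : 0 < q := by positivity
  have hq1 : q ≤ 1 / 2 := by rw [hq, div_le_iff₀ (by positivity)]; linarith
  set a : ℝ := -Real.log q with ha
  have haq : Real.exp (-a) = q := by rw [ha, neg_neg, Real.exp_log hq0]
  have ha0 : 0 ≤ a := by
    have := Real.log_nonpos hq0.le (by linarith)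
    linarith
  have ha1 : a ≤ 14 * R ^ 2 / s := by
    have h1 : q⁻¹ ≤ (7 * R ^ 2 / s) ^ 2 := by
      have : (7 * R ^ 2 / s) ^ 2 = 49 * M / s := by
        rw [div_pow, mul_pow, ← pow_mul, hR4]; field_simp; norm_num
      rw [this, hq, inv_div]
      gcongr; norm_num
    have h2 : a ≤ Real.log ((7 * R ^ 2 / s) ^ 2) := by
      rw [ha, ← Real.log_inv]
      exact Real.log_le_log (by positivity) h1
    rw [Real.log_pow] at h2
    have h3 := Real.log_le_sub_one_of_pos (show 0 < 7 * R ^ 2 / s by positivity)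
    have : 14 * R ^ 2 / s = 2 * (7 * R ^ 2 / s) := by ring
    push_cast at h2
    linarith
  let cost : (ι → ℤ) → ℝ := fun b => ∑ i, (a * ((b i).natAbs : ℕ) + 4 * q)
  -- the average cost is small
  have hcost : ∑ T ∈ S.powerset, cost (Y T) ≤ 2 ^ S.card * (0.2 * s) := by
    have h1 : ∀ i, ∑ T ∈ S.powerset, (a * ((Y T i).natAbs : ℕ) + 4 * q)
        ≤ 2 ^ S.card * (0.2 * s / M) := by
      intro i
      have b1 : ∑ T ∈ S.powerset, (((Y T i).natAbs : ℕ) : ℝ)
          ≤ 2 ^ S.card * (2880 * s ^ 3) / D ^ 6 := by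
        calc ∑ T ∈ S.powerset, (((Y T i).natAbs : ℕ) : ℝ)
            ≤ ∑ T ∈ S.powerset, |X T i| ^ 6 / D ^ 6 :=
              Finset.sum_le_sum fun T _ => natAbs_floor_le _ _ hD0
          _ = (∑ T ∈ S.powerset, |X T i| ^ 6) / D ^ 6 := by rw [Finset.sum_div]
          _ ≤ _ := by
              gcongr
              exact sum_pow_six_le S hS (v i) (hv i)
      rw [Finset.sum_add_distrib, ← Finset.mul_sum, Finset.sum_const, Finset.card_powerset,
        nsmul_eq_mul]
      push_cast
      have b2 : a * (2 ^ S.card * (2880 * s ^ 3) / D ^ 6) ≤ 2 ^ S.card * (0.1 * s / M) := by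
        calc a * (2 ^ S.card * (2880 * s ^ 3) / D ^ 6)
            ≤ (14 * R ^ 2 / s) * (2 ^ S.card * (2880 * s ^ 3) / D ^ 6) := by gcongr
          _ = 2 ^ S.card * (0.04032 * s ^ 2 / R ^ 4) := by rw [hD]; field_simp; norm_num
          _ = 2 ^ S.card * (0.04032 * s / M) := by rw [hR4]; field_simp
          _ ≤ _ := by gcongr; norm_num
      have b3 : 4 * q = 0.1 * s / M := by rw [hq]; field_simp; norm_num
      have b4 := mul_le_mul_of_nonneg_left b1 ha0
      have b5 : (2 : ℝ) ^ S.card * (0.2 * s / M)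
          = 2 ^ S.card * (0.1 * s / M) + 2 ^ S.card * (0.1 * s / M) := by ring
      rw [b3, b5]
      linarith
    calc ∑ T ∈ S.powerset, cost (Y T)
        = ∑ i, ∑ T ∈ S.powerset, (a * ((Y T i).natAbs : ℕ) + 4 * q) := Finset.sum_comm
      _ ≤ ∑ _i : ι, 2 ^ S.card * (0.2 * s / M) := Finset.sum_le_sum fun i _ => h1 i
      _ = 2 ^ S.card * (0.2 * s) := by
          rw [Finset.sum_const, Finset.card_univ, nsmul_eq_mul, ← hMdef]; field_simp
  -- Jensen
  have hlow : Real.exp (-(0.2 * s)) * 2 ^ S.card ≤ ∑ T ∈ S.powerset, Real.exp (-cost (Y T)) := by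
    have h1 : ∀ T ∈ S.powerset, Real.exp (-(0.2 * s)) * (1 + 0.2 * s - cost (Y T))
        ≤ Real.exp (-cost (Y T)) := by
      intro T _
      have e : Real.exp (-cost (Y T)) = Real.exp (-(0.2 * s)) * Real.exp (0.2 * s - cost (Y T)) := by
        rw [← Real.exp_add]; congr 1; ring
      rw [e]
      refine mul_le_mul_of_nonneg_left ?_ (Real.exp_pos _).le
      linarith [Real.add_one_le_exp (0.2 * s - cost (Y T))]
    refine le_trans ?_ (Finset.sum_le_sum h1)
    rw [← Finset.mul_sum, Finset.sum_sub_distrib, Finset.sum_const, Finset.card_powerset,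
      nsmul_eq_mul]
    refine mul_le_mul_of_nonneg_left ?_ (Real.exp_pos _).le
    push_cast
    linarith
  -- total weight at most one
  let J : Finset ℤ := (S.powerset ×ˢ (Finset.univ : Finset ι)).image fun x => Y x.1 x.2
  have hW : ∑ b ∈ Fintype.piFinset (fun _ : ι => J), Real.exp (-cost b) ≤ 1 := by
    have h1 : ∀ b : ι → ℤ, Real.exp (-cost b)
        = ∏ i, (q ^ (b i).natAbs * Real.exp (-(4 * q))) := by
      intro b
      simp only [cost]
      rw [← Finset.sum_neg_distrib, Real.exp_sum]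
      refine Finset.prod_congr rfl fun i _ => ?_
      rw [← haq, ← Real.exp_nat_mul, ← Real.exp_add, haq]
      congr 1; ring
    simp only [h1]
    rw [← Finset.prod_univ_sum (fun _ : ι => J)
      (fun _ j => q ^ j.natAbs * Real.exp (-(4 * q)))]
    refine Finset.prod_le_one (fun i _ => Finset.sum_nonneg fun j _ => by positivity)
      fun i _ => ?_
    rw [← Finset.sum_mul]
    calc (∑ j ∈ J, q ^ j.natAbs) * Real.exp (-(4 * q))
        ≤ Real.exp (4 * q) * Real.exp (-(4 * q)) := by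
          gcongr; exact sum_geom_finset q hq0.le hq1 J
      _ = 1 := by rw [← Real.exp_add]; simp
  -- fibres are small
  have hfib : ∀ b : ι → ℤ, ((S.powerset.filter fun T => Y T = b).card : ℝ)
      ≤ Real.exp (0.45 * s) := by
    intro b
    rcases (S.powerset.filter fun T => Y T = b).eq_empty_or_nonempty with h | ⟨T, hT⟩
    · rw [h]; simp; positivity
    · refine ball_le S T _ (Finset.filter_subset _ _) fun T' hT' => ?_
      by_contra hlt
      push Not at hlt
      obtain ⟨i, hi⟩ := hcon T T' hlt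
      have e : Y T i = Y T' i := by
        rw [(Finset.mem_filter.1 hT).2, (Finset.mem_filter.1 hT').2]
      have := Int.abs_sub_lt_one_of_floor_eq_floor e
      rw [← sub_div, abs_div, abs_of_pos (by positivity : (0 : ℝ) < 2 * D),
        div_lt_one (by positivity), add_sub_add_right_eq_sub] at this
      exact absurd hi (not_lt.2 this.le)
  have hup : ∑ T ∈ S.powerset, Real.exp (-cost (Y T)) ≤ Real.exp (0.45 * s) := by
    have hmaps : ∀ T ∈ S.powerset, Y T ∈ Fintype.piFinset (fun _ : ι => J) := by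
      intro T hT
      rw [Fintype.mem_piFinset]
      intro i
      exact Finset.mem_image.2 ⟨(T, i), Finset.mem_product.2 ⟨hT, Finset.mem_univ _⟩, rfl⟩
    rw [← Finset.sum_fiberwise_of_maps_to hmaps]
    calc ∑ b ∈ Fintype.piFinset (fun _ : ι => J),
          ∑ T ∈ S.powerset with Y T = b, Real.exp (-cost (Y T))
        ≤ ∑ b ∈ Fintype.piFinset (fun _ : ι => J), Real.exp (0.45 * s) * Real.exp (-cost b) := by
          refine Finset.sum_le_sum fun b _ => ?_
          rw [Finset.sum_congr rfl (g := fun _ => Real.exp (-cost b))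
            (fun T hT => by rw [(Finset.mem_filter.1 hT).2]), Finset.sum_const, nsmul_eq_mul]
          exact mul_le_mul_of_nonneg_right (hfib b) (Real.exp_pos _).le
      _ ≤ Real.exp (0.45 * s) * 1 := by
          rw [← Finset.mul_sum]; exact mul_le_mul_of_nonneg_left hW (Real.exp_pos _).le
      _ = _ := mul_one _
  have h2 : (2 : ℝ) ^ S.card = Real.exp (Real.log 2 * s) := by
    rw [mul_comm, hsdef, Real.exp_nat_mul, Real.exp_log (by norm_num)]
  rw [h2, ← Real.exp_add] at hlow
  have h3 := Real.exp_le_exp.1 (hlow.trans hup)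
  have h4 := Real.log_two_gt_d9
  nlinarith

end Spencer

open Spencer in
/-- T1a: Spencer-type discrepancy bound (polynomial form). -/
theorem spencer : ∃ C : ℝ, 0 < C ∧ ∀ (ι : Type) [Fintype ι] (v : ι → ℕ → ℝ) (S : Finset ℕ),
    (∀ i k, |v i k| ≤ 1) → S.card ≤ Fintype.card ι →
    ∃ χ : ℕ → ℝ, (∀ k, χ k = 1 ∨ χ k = -1) ∧
      ∀ i, |∑ k ∈ S, χ k * v i k| ≤ C * Real.sqrt (Real.sqrt (S.card * Fintype.card ι)) := by
  classical
  refine ⟨400, by norm_num, fun ι _ v S hv => ?_⟩
  induction S using Finset.strongInduction with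
  | H S ih =>
    intro hM
    rcases S.eq_empty_or_nonempty with rfl | hS
    · exact ⟨fun _ => 1, fun _ => Or.inl rfl, fun i => by simp⟩
    obtain ⟨T, T', hd, hT⟩ := partial_colouring ι v S hv hS hM
    set S' := S.filter fun k => ¬ sg T k ≠ sg T' k with hS'
    have hc := Finset.card_filter_add_card_filter_not (s := S) (fun k => sg T k ≠ sg T' k)
    rw [← hS'] at hc
    have hsub : S' ⊂ S := by
      refine Finset.ssubset_iff_subset_ne.2 ⟨Finset.filter_subset _ _, fun h => ?_⟩
      rw [h] at hc; omega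
    obtain ⟨χ, hχ, hχ'⟩ := ih S' hsub (by omega)
    have hsg : ∀ U k, sg U k = 1 ∨ sg U k = -1 := fun U k => by
      unfold sg; split_ifs <;> simp
    refine ⟨fun k => if sg T k ≠ sg T' k then sg T k else χ k, fun k => ?_, fun i => ?_⟩
    · dsimp only
      split_ifs
      · exact hsg T k
      · exact hχ k
    · have e : ∑ k ∈ S, (if sg T k ≠ sg T' k then sg T k else χ k) * v i k
          = (∑ k ∈ S, sg T k * v i k - ∑ k ∈ S, sg T' k * v i k) / 2
            + ∑ k ∈ S', χ k * v i k := by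
        rw [hS', Finset.sum_filter, ← Finset.sum_sub_distrib, Finset.sum_div,
          ← Finset.sum_add_distrib]
        refine Finset.sum_congr rfl fun k _ => ?_
        rcases hsg T k with h | h <;> rcases hsg T' k with h' | h' <;> rw [h, h'] <;>
          norm_num
        ring
      rw [e]
      have h1 := hT i
      have h2 := hχ' i
      set R := Real.sqrt (Real.sqrt ((S.card : ℝ) * Fintype.card ι)) with hR
      have hR0 : 0 ≤ R := Real.sqrt_nonneg _
      have hR2 : R ^ 2 = Real.sqrt (S.card * Fintype.card ι) := Real.sq_sqrt (Real.sqrt_nonneg _)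
      have hR4 : (R ^ 2) ^ 2 = S.card * Fintype.card ι := by
        rw [hR2, Real.sq_sqrt (by positivity)]
      have h3 : Real.sqrt (Real.sqrt ((S'.card : ℝ) * Fintype.card ι)) ≤ 0.975 * R := by
        apply Real.sqrt_le_iff.2 ⟨by positivity, ?_⟩
        apply Real.sqrt_le_iff.2 ⟨by positivity, ?_⟩
        have a1 : (10 : ℝ) * S'.card ≤ 9 * S.card := by
          have : 10 * S'.card ≤ 9 * S.card := by omega
          exact_mod_cast this
        have a2 : (0 : ℝ) ≤ Fintype.card ι := by positivity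
        have a3 : ((0.975 * R) ^ 2) ^ 2 = 0.975 ^ 4 * (S.card * Fintype.card ι) := by
          rw [← hR4]; ring
        rw [a3]
        have a4 : (0 : ℝ) ≤ S.card * Fintype.card ι := by positivity
        nlinarith [mul_le_mul_of_nonneg_right a1 a2]
      refine (abs_add_le _ _).trans ?_
      rw [abs_div, abs_two]
      linarith

end Crest.Agent.R75
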