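import Crest.Agent.R75.RoundCore
import Crest.Agent.R75.Spencer

/-!
Rounding nearly unimodular real coefficients to signs.
-/

set_option autoImplicit false

namespace Crest.Agent.R75

open Finset

/-- Spencer partial colouring + dyadic rounding + grid-to-circle. -/
theorem round_signs (η : ℝ) (hη : 0 < η) :
    ∃ ρ : ℝ, 0 < ρ ∧ ∀ (N : ℕ) (a : ℕ → ℝ), (∀ k < N, |a k| ≤ 1) →
      ∑ k ∈ range N, (1 - |a k|) ≤ ρ * N →
      ∃ c : ℕ → ℝ, (∀ k, c k = 1 ∨ c k = -1) ∧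
        ∀ θ : ℝ, ‖∑ k ∈ range N, ((c k - a k : ℝ) : ℂ) * ee (k * θ)‖ ≤ η * Real.sqrt N := by
  obtain ⟨C, hC, h⟩ := spencer
  exact RoundCore.round_signs_of hC h η hη

end Crest.Agent.R75
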