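import Crest.Agent.R75.Grid

/-!
Dyadic rounding of nearly unimodular real coefficients to signs, from a discrepancy bound.
-/

set_option autoImplicit false

namespace Crest.Agent.R75.RoundCore

open Finset

/-- The discrepancy bound used in the rounding. -/
def Disc (C : ℝ) : Prop :=
  ∀ (ι : Type) [Fintype ι] (v : ι → ℕ → ℝ) (S : Finset ℕ),
    (∀ i k, |v i k| ≤ 1) → S.card ≤ Fintype.card ι →
    ∃ χ : ℕ → ℝ, (∀ k, χ k = 1 ∨ χ k = -1) ∧
      ∀ i, |∑ k ∈ S, χ k * v i k| ≤ C * Real.sqrt (Real.sqrt (S.card * Fintype.card ι))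

lemma disc_neg {C : ℝ} (h : Disc C) (ι : Type) [Fintype ι] (v : ι → ℕ → ℝ) (S : Finset ℕ)
    (hv : ∀ i k, |v i k| ≤ 1) (hS : S.card ≤ Fintype.card ι) :
    ∃ χ : ℕ → ℝ, (∀ k, χ k = 1 ∨ χ k = -1) ∧ ∑ k ∈ S, χ k ≤ 0 ∧
      ∀ i, |∑ k ∈ S, χ k * v i k| ≤ C * Real.sqrt (Real.sqrt (S.card * Fintype.card ι)) := by
  obtain ⟨χ, h1, h2⟩ := h ι v S hv hS
  rcases le_total (∑ k ∈ S, χ k) 0 with h3 | h3
  · exact ⟨χ, h1, h3, h2⟩
  · refine ⟨fun k => -χ k, fun k => ?_, ?_, fun i => ?_⟩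
    · rcases h1 k with h | h <;> simp [h]
    · rw [Finset.sum_neg_distrib]; linarith
    · simp only [neg_mul, Finset.sum_neg_distrib, abs_neg]
      exact h2 i

lemma sqrt_sqrt_le (n : ℕ) {x z : ℝ} (hz : 0 ≤ z) (hx : x ≤ 2 ^ n * z) :
    Real.sqrt (Real.sqrt x) ≤ (3 / 2) ^ n * Real.sqrt (Real.sqrt z) := by
  have h1 : (2 : ℝ) ^ n ≤ ((((3 / 2 : ℝ) ^ n) ^ 2) ^ 2) := by
    rw [← pow_mul, ← pow_mul, mul_comm n, pow_mul]
    exact pow_le_pow_left₀ (by norm_num) (by norm_num) n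
  have h2 : Real.sqrt x ≤ ((3 / 2 : ℝ) ^ n) ^ 2 * Real.sqrt z := by
    rw [← Real.sqrt_sq (show (0 : ℝ) ≤ ((3 / 2 : ℝ) ^ n) ^ 2 by positivity),
      ← Real.sqrt_mul (by positivity)]
    exact Real.sqrt_le_sqrt (hx.trans (mul_le_mul_of_nonneg_right h1 hz))
  rw [← Real.sqrt_sq (show (0 : ℝ) ≤ (3 / 2 : ℝ) ^ n by positivity),
    ← Real.sqrt_mul (by positivity)]
  exact Real.sqrt_le_sqrt h2

lemma dyadic {C : ℝ} (hC : 0 < C) (h : Disc C) (ι : Type) [Fintype ι] (v : ι → ℕ → ℝ)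
    (hv : ∀ i k, |v i k| ≤ 1) (N : ℕ) (hN : N ≤ Fintype.card ι) (β : ℝ) (hβ : 0 ≤ β) :
    ∀ (j : ℕ) (B : ℕ → ℕ), (∀ k < N, B k ≤ 2 ^ j) → ∑ k ∈ range N, (B k : ℝ) ≤ 2 ^ j * β →
      ∃ b : ℕ → ℕ, (∀ k < N, b k ≤ 1) ∧ ∀ i,
        |∑ k ∈ range N, ((b k : ℝ) - B k / 2 ^ j) * v i k| ≤
          3 * C * Real.sqrt (Real.sqrt (β * Fintype.card ι)) * (1 - (3 / 4) ^ j)
  | 0, B, hB, _ => ⟨B, fun k hk => by simpa using hB k hk, fun i => by simp⟩
  | j + 1, B, hB, hsum => by
    classical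
    set S := (range N).filter (fun k => B k % 2 = 1) with hS
    have hS1 : S.card ≤ Fintype.card ι :=
      ((Finset.card_filter_le _ _).trans (by simp)).trans hN
    have hS2 : (S.card : ℝ) ≤ 2 ^ (j + 1) * β := by
      refine le_trans ?_ hsum
      calc (S.card : ℝ) = ∑ _k ∈ S, (1 : ℝ) := by simp
        _ ≤ ∑ k ∈ S, (B k : ℝ) := Finset.sum_le_sum fun k hk => by
            have := (Finset.mem_filter.1 hk).2
            exact_mod_cast (by omega : 1 ≤ B k)
        _ ≤ ∑ k ∈ range N, (B k : ℝ) :=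
            Finset.sum_le_sum_of_subset_of_nonneg (Finset.filter_subset _ _)
              fun _ _ _ => by positivity
    obtain ⟨χ, hχ, hχs, hχv⟩ := disc_neg h ι v S hv hS1
    set B' : ℕ → ℕ := fun k => if B k % 2 = 1 ∧ χ k = 1 then B k / 2 + 1 else B k / 2 with hB'
    have hrel : ∀ k, 2 * (B' k : ℝ) = B k + if B k % 2 = 1 then χ k else 0 := by
      intro k
      have e : (B k : ℝ) = 2 * ((B k / 2 : ℕ) : ℝ) + ((B k % 2 : ℕ) : ℝ) := by
        exact_mod_cast (Nat.div_add_mod (B k) 2).symm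
      simp only [hB']
      by_cases h1 : B k % 2 = 1
      · rcases hχ k with h2 | h2
        · rw [if_pos ⟨h1, h2⟩, if_pos h1, h2]
          rw [h1] at e
          push_cast at e ⊢
          linarith
        · rw [if_neg (fun h => by rw [h2] at h; norm_num at h), if_pos h1, h2]
          rw [h1] at e
          push_cast at e ⊢
          linarith
      · rw [if_neg (fun h => h1 h.1), if_neg h1]
        have h0 : B k % 2 = 0 := by omega
        rw [h0] at e
        push_cast at e ⊢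
        linarith
    have hB'1 : ∀ k < N, B' k ≤ 2 ^ j := by
      intro k hk
      have := hB k hk
      simp only [hB']
      rw [pow_succ] at this
      split_ifs with h1
      · have := h1.1; omega
      · omega
    have hB'2 : ∑ k ∈ range N, (B' k : ℝ) ≤ 2 ^ j * β := by
      have : 2 * ∑ k ∈ range N, (B' k : ℝ) = ∑ k ∈ range N, (B k : ℝ) + ∑ k ∈ S, χ k := by
        rw [Finset.mul_sum, hS, Finset.sum_filter, ← Finset.sum_add_distrib]
        exact Finset.sum_congr rfl fun k _ => hrel k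
      rw [pow_succ] at hsum
      linarith
    obtain ⟨b, hb1, hb2⟩ := dyadic hC h ι v hv N hN β hβ j B' hB'1 hB'2
    refine ⟨b, hb1, fun i => ?_⟩
    have e : ∑ k ∈ range N, ((b k : ℝ) - B k / 2 ^ (j + 1)) * v i k =
        ∑ k ∈ range N, ((b k : ℝ) - B' k / 2 ^ j) * v i k +
          (∑ k ∈ S, χ k * v i k) / 2 ^ (j + 1) := by
      rw [hS, Finset.sum_filter, Finset.sum_div, ← Finset.sum_add_distrib]
      refine Finset.sum_congr rfl fun k _ => ?_
      have := hrel k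
      have e2 : (B' k : ℝ) = (B k + if B k % 2 = 1 then χ k else 0) / 2 := by linarith
      rw [e2, pow_succ]
      split_ifs
      · field_simp; ring
      · field_simp; ring
    set s := Real.sqrt (Real.sqrt (β * Fintype.card ι)) with hs
    have hs0 : 0 ≤ s := Real.sqrt_nonneg _
    have h3 : Real.sqrt (Real.sqrt (S.card * Fintype.card ι)) ≤ (3 / 2) ^ (j + 1) * s :=
      sqrt_sqrt_le (j + 1) (by positivity) (by
        rw [← mul_assoc]; exact mul_le_mul_of_nonneg_right hS2 (by positivity))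
    have h4 : |(∑ k ∈ S, χ k * v i k) / 2 ^ (j + 1)| ≤ C * s * (3 / 4) ^ (j + 1) := by
      rw [abs_div, abs_of_pos (show (0 : ℝ) < 2 ^ (j + 1) by positivity),
        div_le_iff₀ (by positivity)]
      calc _ ≤ C * ((3 / 2) ^ (j + 1) * s) :=
            (hχv i).trans (mul_le_mul_of_nonneg_left h3 hC.le)
        _ = _ := by
            rw [mul_assoc (C * s), ← mul_pow]
            norm_num
            ring
    rw [e]
    refine (abs_add_le _ _).trans ?_
    have h5 := hb2 i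
    rw [pow_succ (3 / 4 : ℝ)] at h4 ⊢
    nlinarith

theorem round_signs_of {C : ℝ} (hC : 0 < C) (h : Disc C) (η : ℝ) (hη : 0 < η) :
    ∃ ρ : ℝ, 0 < ρ ∧ ∀ (N : ℕ) (a : ℕ → ℝ), (∀ k < N, |a k| ≤ 1) →
      ∑ k ∈ range N, (1 - |a k|) ≤ ρ * N →
      ∃ c : ℕ → ℝ, (∀ k, c k = 1 ∨ c k = -1) ∧
        ∀ θ : ℝ, ‖∑ k ∈ range N, ((c k - a k : ℝ) : ℂ) * ee (k * θ)‖ ≤ η * Real.sqrt N := by
  set τ := η / (36 * C) with hτ
  have hτ0 : 0 < τ := by positivity
  refine ⟨τ ^ 4 / 4, by positivity, fun N a ha hsum => ?_⟩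
  rcases Nat.eq_zero_or_pos N with rfl | hN
  · exact ⟨fun _ => 1, fun _ => Or.inl rfl, fun θ => by simp⟩
  have hN' : (1 : ℝ) ≤ N := by exact_mod_cast hN
  have hsq : 1 ≤ Real.sqrt N := Real.one_le_sqrt.2 hN'
  obtain ⟨J, hJ⟩ := pow_unbounded_of_one_lt (4 * N / η) (show (1 : ℝ) < 2 by norm_num)
  set σ : ℕ → ℝ := fun k => if 0 ≤ a k then 1 else -1 with hσ
  have hσ1 : ∀ k, σ k = 1 ∨ σ k = -1 := fun k => by
    simp only [hσ]; split_ifs <;> simp
  have hσa : ∀ k, a k = σ k * |a k| := fun k => by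
    simp only [hσ]
    split_ifs with h1
    · rw [abs_of_nonneg h1, one_mul]
    · rw [abs_of_neg (not_le.1 h1)]; ring
  have hσabs : ∀ k, |σ k| = 1 := fun k => by rcases hσ1 k with h | h <;> simp [h]
  set B : ℕ → ℕ := fun k => ⌊2 ^ J * ((1 - |a k|) / 2)⌋₊ with hB
  have hBle : ∀ k < N, (B k : ℝ) ≤ 2 ^ J * ((1 - |a k|) / 2) := fun k hk =>
    Nat.floor_le (by have := ha k hk; have : 0 ≤ 1 - |a k| := by linarith
                     positivity)
  have hBlt : ∀ k, 2 ^ J * ((1 - |a k|) / 2) < (B k : ℝ) + 1 := fun k => Nat.lt_floor_add_one _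
  have hB1 : ∀ k < N, B k ≤ 2 ^ J := by
    intro k hk
    have h1 := hBle k hk
    have h2 : (2 : ℝ) ^ J * ((1 - |a k|) / 2) ≤ 2 ^ J :=
      mul_le_of_le_one_right (by positivity) (by linarith [abs_nonneg (a k)])
    exact_mod_cast h1.trans h2
  have hB2 : ∑ k ∈ range N, (B k : ℝ) ≤ 2 ^ J * (τ ^ 4 / 4 * N) := by
    calc ∑ k ∈ range N, (B k : ℝ) ≤ ∑ k ∈ range N, 2 ^ J * (1 - |a k|) :=
          Finset.sum_le_sum fun k hk => by
            have hk' := Finset.mem_range.1 hk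
            refine (hBle k hk').trans (mul_le_mul_of_nonneg_left ?_ (by positivity))
            linarith [ha k hk']
      _ ≤ _ := by
          rw [← Finset.mul_sum]
          exact mul_le_mul_of_nonneg_left hsum (by positivity)
  set v : Fin (2 * N) × Bool → ℕ → ℝ := fun i k =>
    σ k * (if i.2 then (ee (k * ((i.1 : ℕ) / (2 * N : ℕ) : ℝ))).re
      else (ee (k * ((i.1 : ℕ) / (2 * N : ℕ) : ℝ))).im) with hv
  have hv1 : ∀ i k, |v i k| ≤ 1 := by
    intro i k
    simp only [hv]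
    rw [abs_mul, hσabs, one_mul]
    split_ifs
    · exact (Complex.abs_re_le_norm _).trans (norm_ee _).le
    · exact (Complex.abs_im_le_norm _).trans (norm_ee _).le
  have hcard : Fintype.card (Fin (2 * N) × Bool) = 4 * N := by simp; ring
  obtain ⟨b, hb1, hb2⟩ := dyadic hC h (Fin (2 * N) × Bool) v hv1 N (by omega)
    (τ ^ 4 / 4 * N) (by positivity) J B hB1 hB2
  have hs : Real.sqrt (Real.sqrt (τ ^ 4 / 4 * N * Fintype.card (Fin (2 * N) × Bool))) =
      τ * Real.sqrt N := by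
    rw [hcard, show τ ^ 4 / 4 * N * ((4 * N : ℕ) : ℝ) = (τ ^ 2 * N) ^ 2 by push_cast; ring,
      Real.sqrt_sq (by positivity), Real.sqrt_mul (by positivity), Real.sqrt_sq hτ0.le]
  rw [hs] at hb2
  have hb3 : ∀ i, |∑ k ∈ range N, ((b k : ℝ) - B k / 2 ^ J) * v i k| ≤ η / 12 * Real.sqrt N := by
    intro i
    refine (hb2 i).trans ?_
    have e : 3 * C * (τ * Real.sqrt N) = η / 12 * Real.sqrt N := by
      rw [hτ]; field_simp; ring
    rw [e]
    exact mul_le_of_le_one_right (by positivity) (by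
      have : (0 : ℝ) ≤ (3 / 4) ^ J := by positivity
      linarith)
  refine ⟨fun k => if k < N then σ k * (1 - 2 * b k) else 1, fun k => ?_, fun θ => ?_⟩
  · simp only
    split_ifs with hk
    · have := hb1 k hk
      have h01 : b k = 0 ∨ b k = 1 := by omega
      rcases h01 with h0 | h0 <;> rcases hσ1 k with h1 | h1 <;> simp [h0, h1] <;> norm_num
    · exact Or.inl rfl
  have hg := Grid.grid_bound N hN (fun k => ((σ k * ((b k : ℝ) - B k / 2 ^ J) : ℝ) : ℂ))
    (η / 6 * Real.sqrt N) (fun i hi => by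
      refine (Complex.norm_le_abs_re_add_abs_im _).trans ?_
      have r1 := hb3 (⟨i, hi⟩, true)
      have r2 := hb3 (⟨i, hi⟩, false)
      simp only [hv, if_true, Bool.false_eq_true, if_false] at r1 r2
      rw [Complex.re_sum, Complex.im_sum]
      simp_rw [Complex.re_ofReal_mul, Complex.im_ofReal_mul]
      have e1 : ∀ (k : ℕ) (x : ℝ), σ k * ((b k : ℝ) - B k / 2 ^ J) * x =
          ((b k : ℝ) - B k / 2 ^ J) * (σ k * x) := fun k x => by ring
      simp_rw [e1]
      linarith) θ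
  have e : ∑ k ∈ range N,
      (((if k < N then σ k * (1 - 2 * b k) else 1) - a k : ℝ) : ℂ) * ee (k * θ) =
      -2 * ∑ k ∈ range N, ((σ k * ((b k : ℝ) - B k / 2 ^ J) : ℝ) : ℂ) * ee (k * θ) +
        ∑ k ∈ range N, ((2 * σ k * ((1 - |a k|) / 2 - B k / 2 ^ J) : ℝ) : ℂ) * ee (k * θ) := by
    rw [Finset.mul_sum, ← Finset.sum_add_distrib]
    refine Finset.sum_congr rfl fun k hk => ?_
    rw [if_pos (Finset.mem_range.1 hk)]
    have : σ k * (1 - 2 * b k) - a k = -2 * (σ k * ((b k : ℝ) - B k / 2 ^ J)) +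
        2 * σ k * ((1 - |a k|) / 2 - B k / 2 ^ J) := by
      nth_rewrite 1 [hσa k]
      ring
    rw [this]
    push_cast
    ring
  rw [e]
  have h2 : ‖∑ k ∈ range N,
      ((2 * σ k * ((1 - |a k|) / 2 - B k / 2 ^ J) : ℝ) : ℂ) * ee (k * θ)‖ ≤ η / 2 := by
    calc _ ≤ ∑ _k ∈ range N, 2 / (2 : ℝ) ^ J := by
          refine (norm_sum_le _ _).trans (Finset.sum_le_sum fun k hk => ?_)
          have hk' := Finset.mem_range.1 hk
          rw [norm_mul, norm_ee, mul_one, Complex.norm_real, Real.norm_eq_abs, abs_mul, abs_mul,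
            hσabs, mul_one, abs_two]
          have p : (0 : ℝ) < 2 ^ J := by positivity
          have e3 : (1 - |a k|) / 2 - B k / 2 ^ J = (2 ^ J * ((1 - |a k|) / 2) - B k) / 2 ^ J := by
            field_simp
          rw [e3, abs_div, abs_of_pos p, ← mul_div_assoc]
          refine div_le_div_of_nonneg_right ?_ p.le
          rw [abs_of_nonneg (by linarith [hBle k hk'])]
          linarith [hBlt k]
      _ = 2 * N / 2 ^ J := by simp; ring
      _ ≤ η / 2 := by
          rw [div_le_iff₀ (by positivity)]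
          rw [div_lt_iff₀ hη] at hJ
          linarith
  refine (norm_add_le _ _).trans ?_
  rw [norm_mul]
  have h3 : ‖(-2 : ℂ)‖ = 2 := by simp
  rw [h3]
  nlinarith

end Crest.Agent.R75.RoundCore
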