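import Crest.Agent.R75.Basic

/-!
Skeleton for result 75 (S0100): statements only. NOT imported by any final file.
Each theorem `Skel.foo` is to be proved as `Crest.Agent.R75.foo` (same statement) in its own file.
-/

set_option autoImplicit false

namespace Crest.Agent.R75.Skel

open Finset

/-- T1 (file R75/Round.lean): Spencer partial colouring + dyadic rounding + grid-to-circle. -/
theorem round_signs (η : ℝ) (hη : 0 < η) :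
    ∃ ρ : ℝ, 0 < ρ ∧ ∀ (N : ℕ) (a : ℕ → ℝ), (∀ k < N, |a k| ≤ 1) →
      ∑ k ∈ range N, (1 - |a k|) ≤ ρ * N →
      ∃ c : ℕ → ℝ, (∀ k, c k = 1 ∨ c k = -1) ∧
        ∀ θ : ℝ, ‖∑ k ∈ range N, ((c k - a k : ℝ) : ℂ) * ee (k * θ)‖ ≤ η * Real.sqrt N := by
  sorry

/-- T1a (file R75/Spencer.lean): Spencer-type discrepancy bound (polynomial form). -/
theorem spencer : ∃ C : ℝ, 0 < C ∧ ∀ (ι : Type) [Fintype ι] (v : ι → ℕ → ℝ) (S : Finset ℕ),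
    (∀ i k, |v i k| ≤ 1) → S.card ≤ Fintype.card ι →
    ∃ χ : ℕ → ℝ, (∀ k, χ k = 1 ∨ χ k = -1) ∧
      ∀ i, |∑ k ∈ S, χ k * v i k| ≤ C * Real.sqrt (Real.sqrt (S.card * Fintype.card ι)) := by
  sorry

/-- T2a (file R75/FirstDeriv.lean): first derivative test. -/
theorem first_deriv_test {f f1 f2 : ℝ → ℝ} {a b μ : ℝ} (hab : a ≤ b) (hμ : 0 < μ)
    (hf : ∀ x, HasDerivAt f (f1 x) x) (hf1 : ∀ x, HasDerivAt f1 (f2 x) x) (hc : Continuous f2)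
    (hneg : ∀ x ∈ Set.Icc a b, f2 x ≤ 0) (hμ' : ∀ x ∈ Set.Icc a b, μ ≤ |f1 x|) :
    ‖∫ x in a..b, ee (f x)‖ ≤ 1 / μ := by
  sorry

/-- T2b (file R75/Prof.lean): profiles with uniform stationary phase. -/
theorem prof_exists (bot top s h d η : ℝ) (hh : 0 < h) (hd : 0 < d) (hη : 0 < η)
    (h1 : bot + d ≤ s) (h2 : s + h + d ≤ top) :
    ∃ G T T1 w Φ : ℝ → ℝ, IsProf G T T1 bot top h ∧
      (∀ u, 0 ≤ w u ∧ w u ≤ 1 / Real.sqrt h) ∧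
      (∀ u, u ∉ Set.Icc (s - d) (s + h + d) → w u ≤ η) ∧
      ∃ A₀ : ℝ, ∀ A ≥ A₀, ∀ u : ℝ,
        ‖J G A u - ee (-1 / 8) * (w u : ℂ) * ee (A * Φ u)‖ ≤ η := by
  sorry

/-- T3 (file R75/InnerOne.lean): flat chirp sums concentrated on one cell. -/
theorem inner_one (L : ℕ) (hL : 4 ≤ L) (h η : ℝ) (hh : 0 < h) (hh1 : h < 1) (hη : 0 < η) :
    ∃ (cell : ℝ → ZMod L) (w Φ : ℝ → ℝ) (γ : ℕ → ℕ → ℝ) (A₀ : ℕ),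
      (∀ y, 0 ≤ w y ∧ w y ≤ 1 / Real.sqrt h) ∧
      ∀ A ≥ A₀, ∀ (y : ℝ) (r : ZMod L),
        ‖((1 / (L * Real.sqrt A) : ℝ) : ℂ) *
            ∑ m ∈ range (A * L), ee (γ A m + m * (y - (r.val : ℝ) / L))
          - (if cell y = r then (w y : ℂ) * ee (A * Φ y) else 0)‖ ≤ η := by
  sorry

/-- T4a (file R75/Kernel.lean): trapezoid kernel reproduces locally pure tones. -/
theorem kernel_approx (δ C ε : ℝ) (hδ : 0 < δ) (hε : 0 < ε) :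
    ∃ N₀ : ℕ, ∀ N ≥ N₀, ∃ v : ℕ → ℝ, (∀ k, 0 ≤ v k ∧ v k ≤ 1) ∧
      ∀ g : ℝ → ℂ, Continuous g → (∀ θ, g (θ + 1) = g θ) → (∀ θ, ‖g θ‖ ≤ 1) →
        (∀ θ, ∃ k₀ : ℕ, δ * N ≤ k₀ ∧ k₀ ≤ (1 - δ) * N ∧
          ∀ φ : ℝ, ‖g (θ + φ) - g θ * ee (k₀ * φ)‖ ≤ C * (N * φ ^ 2 + |φ|)) →
        ∀ θ : ℝ, ‖∑ k ∈ range N, (v k : ℂ) *
            (∫ s in (-1 / 2 : ℝ)..(1 / 2), g s * ee (-(k * s))) * ee (k * θ) - g θ‖ ≤ ε := by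
  sorry

/-- T4b (file R75/Outer.lean): the unimodular zigzag function and its Fourier coefficients. -/
theorem outer (P : ℕ) (x : ℕ → ℝ) (hP : 0 < P) (hx0 : x 0 = 0) (hxP : x P = 1 / 2)
    (hx : ∀ p < P, x p < x (p + 1)) (bot top : ℝ) (hbot : 0 < bot) (htop : top < 1)
    (G T T1 : ℕ → ℝ → ℝ) (h : ℕ → ℝ) (hh : ∀ p < P, 0 < h p)
    (hG : ∀ p < P, IsProf (G p) (T p) (T1 p) bot top (h p))
    (main : ℕ → Prop) (hm0 : ¬ main 0) (hmP : ¬ main (P - 1))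
    (hadj : ∀ p, main p → ¬ main (p + 1)) (ε : ℝ) (hε : 0 < ε) :
    ∃ (B : ℝ) (N₀ : ℕ), ∀ N ≥ N₀, ∀ c : ℕ → ℝ, ∃ v b c' : ℕ → ℝ,
      (∀ k, 0 ≤ v k ∧ v k ≤ 1) ∧ (∀ p < P, |b p| ≤ B) ∧
      (∀ p < P, main p → b p = 0 ∧ c' p = c p) ∧
      ∀ θ : ℝ, |‖∑ k ∈ range N,
          ((v k * ∑ p ∈ range P, pieceTerm x G N b c' k p : ℝ) : ℂ) * ee (k * θ)‖
            - Real.sqrt N| ≤ ε * Real.sqrt N := by
  sorry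

/-- T5a (file R75/Coloring.lean): approximately equivariant colouring of `ZMod q`. -/
theorem coloring {ι : Type} [Fintype ι] (α : ι → ℤ) (hα0 : ∀ i, α i ≠ 0)
    (hind : ∀ e e' : ι → ℕ, |∏ i, α i ^ e i| = |∏ i, α i ^ e' i| → e = e')
    {C : Type} [AddCommGroup C] (γ : ι → C) (ν : C) (hν : ν + ν = 0) (W : ℕ)
    (ε : ℝ) (hε : 0 < ε) :
    ∃ (q : ℕ) (_ : Fact q.Prime) (c : ZMod q → C) (Good : Finset (ZMod q)),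
      (∀ i, (α i : ZMod q) ≠ 0) ∧ (1 - ε) * q ≤ Good.card ∧
      ∀ g ∈ Good, ∀ i, ∀ j : ℤ, |j| ≤ W →
        c (α i * g + j) = c g + γ i ∧ c (-(α i * g) + j) = c g + γ i + ν := by
  sorry

/-- T5b (file R75/Packing.lean): near-perfect packing of the arcs swept by the lines. -/
theorem packing {ι : Type} [Fintype ι] (K : ℕ) (hK : 1 ≤ K) (n : ι → ℕ) (μ : ι → ℤ)
    (hn : ∀ i, 1 ≤ n i ∧ n i ≤ K)
    (hnp : ∀ i i', i ≠ i' → (n i : ℤ) * μ i' ≠ (n i' : ℤ) * μ i)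
    (ε : ℝ) (hε : 0 < ε) (hε1 : ε < 1)
    (hS : ((K * K.factorial : ℕ) : ℝ) ≤ ε * ∑ i, (n i : ℝ)) :
    ∃ (a : ℝ) (R : ℕ) (ω η : Fin R → ℝ) (l : Fin R × ι → ℝ) (up : Fin R × ι → Bool),
      0 < a ∧ 1 - 3 * ε ≤ 2 * R * (∑ i, (n i : ℝ)) * a ∧
      (∀ q, 0 < l q ∧ l q + n q.2 * a < 1 / 2) ∧
      (∀ q q', q ≠ q' → l q + n q.2 * a < l q' ∨ l q' + n q'.2 * a < l q) ∧
      (∀ q, up q = true → ∃ z : ℤ, l q = n q.2 * ω q.1 + μ q.2 * η q.1 + z) ∧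
      (∀ q, up q = false → ∃ z : ℤ, l q + n q.2 * a = -(n q.2 * ω q.1 + μ q.2 * η q.1) + z) := by
  sorry

/-- T6a (file R75/Gadget.lean): Gauss-sum gadget on `(ZMod l)^k ≃ F_{l^k}`. -/
theorem gauss_gadget (l k a : ℕ) [Fact l.Prime] (hk : 1 ≤ k) (ha : a ∣ l - 1) :
    ∃ c : (Fin k → ZMod l) → ℕ → ℂ, (∀ r, Contr (c r)) ∧ (∀ r n, ‖c r n‖ ≤ 1) ∧
      ∀ (n : ℕ) (s : Fin k → ZMod l),
        ‖∑ r : Fin k → ZMod l, c r n * ee (-∑ i, ((s i).val : ℝ) * ((r i).val : ℝ) / l)‖ ^ 2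
          = if a ∣ n then (if s = 0 then ((l : ℝ) ^ k) ^ 2 else 0)
            else (if s = 0 then 0 else (l : ℝ) ^ k) := by
  sorry

/-- T6b (file R75/Block.lean): one block of `k` torus dimensions. -/
theorem block (l k a : ℕ) (hl : l.Prime) (hl4 : 4 ≤ l) (hk : 1 ≤ k) (ha : a ∣ l - 1)
    (h η : ℝ) (hh : 0 < h) (hh1 : h < 1) (hη : 0 < η) :
    ∃ M₀ : ℕ, ∀ M ≥ M₀, ∃ (supp : ℕ → Finset (Fin k → ℤ)) (ψ : ℕ → (Fin k → ℤ) → ℝ),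
      (∀ n : ℕ, 1 ≤ n → ((supp n).card : ℝ)
        = ((n : ℝ) * M) ^ k * (if a ∣ n then 1 else (l : ℝ) ^ k - 1)) ∧
      (∀ n : ℕ, ∀ m ∈ supp n, (a ∣ n ↔ ∀ i, (l : ℤ) ∣ m i)) ∧
      ∀ y : Fin k → ℝ, ∃ c : ℕ → ℂ, Contr c ∧ (∀ n, ‖c n‖ ≤ 1) ∧ ∀ n : ℕ, 1 ≤ n →
        ‖((1 / Real.sqrt (((n : ℝ) * M) ^ k * (if a ∣ n then 1 else (l : ℝ) ^ k)) : ℝ) : ℂ) *
            ∑ m ∈ supp n, ee (ψ n m + ∑ i, (m i : ℝ) * y i)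
          - (((1 / Real.sqrt h) ^ k : ℝ) : ℂ) * c n‖ ≤ η := by
  sorry

/-- T7a (file R75/Square.lean): the square wave with weights `n^(-δ)`. -/
theorem square_wave (ε : ℝ) (hε : 0 < ε) :
    ∃ (δ : ℝ) (K : ℕ), 0 < δ ∧ δ < 1 ∧ 1 ≤ K ∧
      (∀ x : ℝ, |∑ n ∈ (Icc 1 K).filter Odd,
        4 / Real.pi * (n : ℝ) ^ (-1 - δ) * Real.sin (2 * Real.pi * (n * x))| ≤ 1 + ε) ∧
      1 - ε ≤ ∑ n ∈ (Icc 1 K).filter Odd, 8 / Real.pi ^ 2 * (n : ℝ) ^ (-2 - 2 * δ) := by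
  sorry

/-- T7b (file R75/TwoPrimes.lean): products of powers of two primes are multiplicatively dense. -/
theorem two_primes (l₁ l₂ : ℕ) (h₁ : l₁.Prime) (h₂ : l₂.Prime) (hne : l₁ ≠ l₂)
    (ε : ℝ) (hε : 0 < ε) :
    ∃ T₀ : ℝ, ∀ T ≥ T₀, ∃ k₁ k₂ : ℕ, 1 ≤ k₁ ∧ 1 ≤ k₂ ∧
      |k₁ * Real.log l₁ + k₂ * Real.log l₂ - T| ≤ ε := by
  sorry

/-- T7c (file R75/Inner.lean): the inner function. -/
theorem inner (ε : ℝ) (hε : 0 < ε) :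
    ∃ K : ℕ, 1 ≤ K ∧ ∀ S₀ : ℝ, ∃ (ι : Type) (_ : Fintype ι) (n : ι → ℕ) (μ : ι → ℤ) (φ : ι → ℝ),
      (∀ i, 1 ≤ n i ∧ n i ≤ K) ∧
      (∀ i i', i ≠ i' → (n i : ℤ) * μ i' ≠ (n i' : ℤ) * μ i) ∧
      S₀ ≤ ∑ i, (n i : ℝ) ∧
      ∀ x y : ℝ, |∑ i, Real.sqrt (n i) * Real.cos (2 * Real.pi * (n i * x + μ i * y + φ i))|
        ≤ (1 + ε) * Real.sqrt ((∑ i, (n i : ℝ)) / 2) := by
  sorry

/-- T8 (file R75/Flat.lean): bounded real coefficients with flat transform. -/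
theorem flat_real (ε : ℝ) (hε : 0 < ε) :
    ∃ N₀ : ℕ, ∀ N ≥ N₀, ∃ a : ℕ → ℝ, (∀ k < N, |a k| ≤ 1 + ε) ∧
      ∀ θ : ℝ, |‖∑ k ∈ range N, (a k : ℂ) * ee (k * θ)‖ - Real.sqrt N| ≤ ε * Real.sqrt N := by
  sorry

end Crest.Agent.R75.Skel
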