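import Mathlib
import Crest.Agent.R75.Basic

/-!
The square wave with weights `n ^ (-δ)` (task T7a of result 75).
-/

set_option autoImplicit false

namespace Crest.Agent.R75

open Finset

namespace Square

open MeasureTheory Filter Topology

/-- Fourier terms of the square wave. -/
noncomputable def cc (x : ℝ) (n : ℕ) : ℝ :=
  if Odd n then 4 / Real.pi * (1 / (n : ℝ)) * Real.sin (2 * Real.pi * (n * x)) else 0

theorem four_div_pi_le : 4 / Real.pi ≤ 2 := by
  rw [div_le_iff₀ Real.pi_pos]; linarith [Real.pi_gt_three]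

theorem abs_cc_le (x : ℝ) (n : ℕ) : |cc x n| ≤ 2 * (1 / (n : ℝ)) := by
  unfold cc
  split_ifs
  · rw [abs_mul, abs_of_nonneg (by positivity)]
    calc 4 / Real.pi * (1 / (n : ℝ)) * |Real.sin (2 * Real.pi * (n * x))|
        ≤ 2 * (1 / (n : ℝ)) * 1 := by
          gcongr
          · exact four_div_pi_le
          · exact Real.abs_sin_le_one _
      _ = _ := mul_one _
  · simp

theorem abs_arg_sub_le (z : ℂ) (hz : ‖z‖ < 1) :
    |Complex.arg (1 + z) - Complex.arg (1 - z)| ≤ Real.pi / 2 := by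
  have hre : |z.re| < 1 := (Complex.abs_re_le_norm z).trans_lt hz
  rw [abs_lt] at hre
  have r1 : 0 < (1 + z).re := by simp; linarith [hre.1]
  have r2 : 0 < (1 - z).re := by simp; linarith [hre.2]
  have n1 : 1 + z ≠ 0 := fun h => by rw [h] at r1; simp at r1
  have n2 : 1 - z ≠ 0 := fun h => by rw [h] at r2; simp at r2
  have a1 := Complex.abs_arg_lt_pi_div_two_iff.2 (Or.inl r1)
  have a2 := Complex.abs_arg_lt_pi_div_two_iff.2 (Or.inl r2)
  have hcos : 0 < Real.cos (Complex.arg (1 + z) - Complex.arg (1 - z)) := by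
    rw [Real.cos_sub, Complex.cos_arg n1, Complex.cos_arg n2, Complex.sin_arg, Complex.sin_arg]
    have p1 := norm_pos_iff.2 n1
    have p2 := norm_pos_iff.2 n2
    have h2 : z.re * z.re + z.im * z.im < 1 := by
      rw [← Complex.normSq_apply, Complex.normSq_eq_norm_sq]
      nlinarith [norm_nonneg z]
    have e : (1 + z).re / ‖1 + z‖ * ((1 - z).re / ‖1 - z‖)
        + (1 + z).im / ‖1 + z‖ * ((1 - z).im / ‖1 - z‖)
        = (1 - (z.re * z.re + z.im * z.im)) / (‖1 + z‖ * ‖1 - z‖) := by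
      simp; field_simp; ring
    rw [e]
    exact div_pos (by linarith) (by positivity)
  by_contra hcon
  push Not at hcon
  rw [← Real.cos_abs] at hcos
  have : |Complex.arg (1 + z) - Complex.arg (1 - z)| ≤ Real.pi + Real.pi / 2 := by
    have := abs_sub (Complex.arg (1 + z)) (Complex.arg (1 - z))
    linarith [Real.pi_pos]
  linarith [Real.cos_nonpos_of_pi_div_two_le_of_le hcon.le this]

theorem abel_le_one (x r : ℝ) (h0 : 0 ≤ r) (h1 : r < 1) : |∑' n, cc x n * r ^ n| ≤ 1 := by
  set z : ℂ := r * ee x with hz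
  have hz1 : ‖z‖ < 1 := by
    rw [hz, norm_mul, norm_ee, mul_one, Complex.norm_real, Real.norm_eq_abs, abs_of_nonneg h0]
    exact h1
  have s1 := (Complex.hasSum_taylorSeries_log hz1).add (Complex.hasSum_taylorSeries_neg_log hz1)
  have s2 := (Complex.hasSum_im s1).mul_left (2 / Real.pi)
  have e : ∀ n : ℕ, 2 / Real.pi * ((-1) ^ (n + 1) * z ^ n / n + z ^ n / n).im
      = cc x n * r ^ n := by
    intro n
    unfold cc
    split_ifs with h
    · have e1 : (-1 : ℂ) ^ (n + 1) * z ^ n / n + z ^ n / n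
          = ((2 * r ^ n / n : ℝ) : ℂ) * ee (n * x) := by
        rw [h.add_one.neg_one_pow, hz, mul_pow, ee_nat_mul]
        push_cast; ring
      rw [e1, Complex.im_ofReal_mul, ee_im]
      ring
    · have h' : Even n := Nat.not_odd_iff_even.1 h
      rw [h'.add_one.neg_one_pow]
      have : (-1 : ℂ) * z ^ n / n + z ^ n / n = 0 := by ring
      rw [this]; simp
  simp only [e] at s2
  rw [s2.tsum_eq, Complex.add_im, Complex.neg_im, Complex.log_im, Complex.log_im, abs_mul,
    abs_of_pos (by positivity : 0 < 2 / Real.pi), ← sub_eq_add_neg]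
  calc 2 / Real.pi * |Complex.arg (1 + z) - Complex.arg (1 - z)|
      ≤ 2 / Real.pi * (Real.pi / 2) := by gcongr; exact abs_arg_sub_le z hz1
    _ = 1 := by field_simp

theorem abel_le_small (x r : ℝ) (h0 : 0 ≤ r) (h1 : r ≤ 1 / 2) :
    |∑' n, cc x n * r ^ n| ≤ 4 * r := by
  have s1 : HasSum (fun n : ℕ => 2 * r ^ n - (if n = 0 then 2 else 0)) (2 * (1 - r)⁻¹ - 2) :=
    ((hasSum_geometric_of_lt_one h0 (by linarith)).mul_left 2).sub (hasSum_ite_eq 0 2)
  have := tsum_of_norm_bounded (f := fun n => cc x n * r ^ n) s1 (fun n => by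
    rw [Real.norm_eq_abs, abs_mul, abs_of_nonneg (pow_nonneg h0 n)]
    split_ifs with h
    · subst h; simp [cc]
    · have h2 : (1 : ℝ) ≤ n := by exact_mod_cast Nat.one_le_iff_ne_zero.2 h
      have h3 : 1 / (n : ℝ) ≤ 1 := by rw [div_le_one (by linarith)]; exact h2
      have h4 := abs_cc_le x n
      rw [sub_zero]
      gcongr
      linarith)
  rw [Real.norm_eq_abs] at this
  refine this.trans ?_
  have h2 : (1 - r)⁻¹ ≤ 1 + 2 * r := by
    rw [inv_le_iff_one_le_mul₀ (by linarith)]; nlinarith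
  linarith

theorem summable_maj (δ : ℝ) (hδ : 0 < δ) : Summable fun n : ℕ => 2 * (n : ℝ) ^ (-1 - δ) :=
  (Real.summable_nat_rpow.2 (by linarith)).mul_left 2

theorem abs_term_le (x δ : ℝ) (n : ℕ) :
    |cc x n * (1 / (n : ℝ)) ^ δ| ≤ 2 * (n : ℝ) ^ (-1 - δ) := by
  rcases Nat.eq_zero_or_pos n with rfl | hn
  · simp [cc]; positivity
  · have hn' : (0 : ℝ) < n := by exact_mod_cast hn
    rw [abs_mul, abs_of_nonneg (by positivity : 0 ≤ (1 / (n : ℝ)) ^ δ)]
    refine (mul_le_mul_of_nonneg_right (abs_cc_le x n) (by positivity)).trans (le_of_eq ?_)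
    rw [Real.rpow_sub hn', Real.rpow_neg_one, Real.div_rpow (by norm_num) hn'.le, Real.one_rpow]
    ring

theorem subord (x δ : ℝ) (hδ : 0 < δ) (hδ1 : δ < 1) :
    |∑' n, cc x n * (1 / (n : ℝ)) ^ δ| * Real.Gamma δ ≤ Real.Gamma δ + 4 := by
  have hG := Real.Gamma_pos_of_pos hδ
  let F : ℕ → ℝ → ℝ := fun n t => cc x n * (t ^ (δ - 1) * Real.exp (-(n * t)))
  have hint : ∀ n, Integrable (F n) (volume.restrict (Set.Ioi 0)) := by
    intro n
    rcases Nat.eq_zero_or_pos n with rfl | hn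
    · simp [F, cc]
    · have hn' : (0 : ℝ) < n := by exact_mod_cast hn
      have := integrableOn_rpow_mul_exp_neg_mul_rpow (p := 1) (s := δ - 1) (b := n)
        (by linarith) one_pos hn'
      simp only [Real.rpow_one, neg_mul] at this
      exact Integrable.const_mul this _
  have hval : ∀ (c : ℝ) (n : ℕ), (n = 0 → c = 0) →
      ∫ t in Set.Ioi (0 : ℝ), c * (t ^ (δ - 1) * Real.exp (-(n * t)))
        = c * (1 / (n : ℝ)) ^ δ * Real.Gamma δ := by
    intro c n hc
    rcases Nat.eq_zero_or_pos n with rfl | hn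
    · simp [hc rfl]
    · have hn' : (0 : ℝ) < n := by exact_mod_cast hn
      rw [integral_const_mul, Real.integral_rpow_mul_exp_neg_mul_Ioi hδ hn', mul_assoc]
  have hcc0 : ∀ n, n = 0 → cc x n = 0 := fun n h => by subst h; simp [cc]
  have hsum : Summable fun n => ∫ t in Set.Ioi (0 : ℝ), ‖F n t‖ := by
    refine Summable.of_nonneg_of_le (fun n => integral_nonneg fun _ => norm_nonneg _)
      (fun n => ?_) ((summable_maj δ hδ).mul_right (Real.Gamma δ))
    have e : ∫ t in Set.Ioi (0 : ℝ), ‖F n t‖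
        = ∫ t in Set.Ioi (0 : ℝ), |cc x n| * (t ^ (δ - 1) * Real.exp (-(n * t))) := by
      refine setIntegral_congr_fun measurableSet_Ioi fun t ht => ?_
      have ht' : 0 < t := ht
      simp only [F]
      rw [Real.norm_eq_abs, abs_mul, abs_of_nonneg (by positivity :
        0 ≤ t ^ (δ - 1) * Real.exp (-(n * t)))]
    rw [e, hval _ n (fun h => by rw [hcc0 n h, abs_zero])]
    have := abs_term_le x δ n
    rw [abs_mul, abs_of_nonneg (by positivity : 0 ≤ (1 / (n : ℝ)) ^ δ)] at this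
    gcongr
  have hs := hasSum_integral_of_summable_integral_norm hint hsum
  simp only [F, hval _ _ (hcc0 _)] at hs
  rw [← abs_of_pos hG, ← abs_mul, abs_of_pos hG, ← tsum_mul_right, hs.tsum_eq, ← Real.norm_eq_abs]
  have i1 := Real.GammaIntegral_convergent hδ
  have i2 := (integrableOn_exp_neg_Ioi 0).const_mul 4
  have hb := norm_integral_le_of_norm_le (μ := volume.restrict (Set.Ioi 0))
    (f := fun t => ∑' n, cc x n * (t ^ (δ - 1) * Real.exp (-(n * t)))) (i1.add i2) (by
      refine (ae_restrict_iff' measurableSet_Ioi).2 (Eventually.of_forall fun t ht => ?_)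
      have ht' : 0 < t := ht
      have e : ∑' n, cc x n * (t ^ (δ - 1) * Real.exp (-(n * t)))
          = t ^ (δ - 1) * ∑' n, cc x n * Real.exp (-t) ^ n := by
        rw [← tsum_mul_left]
        refine tsum_congr fun n => ?_
        rw [← Real.exp_nat_mul, mul_neg]; ring
      have hp : 0 < t ^ (δ - 1) := Real.rpow_pos_of_pos ht' _
      have he := Real.exp_pos (-t)
      have he1 : Real.exp (-t) < 1 := Real.exp_lt_one_iff.2 (by linarith)
      simp only [Pi.add_apply]
      rw [e, Real.norm_eq_abs, abs_mul, abs_of_pos hp]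
      by_cases h1 : t ≤ 1
      · have b1 := abel_le_one x _ he.le he1
        have b2 : 1 - t ≤ Real.exp (-t) := by linarith [Real.add_one_le_exp (-t)]
        have b3 : t ^ (δ - 1) * t ≤ 1 := by
          rw [← Real.rpow_add_one ht'.ne', sub_add_cancel]
          exact Real.rpow_le_one ht'.le h1 hδ.le
        have b4 : 1 ≤ 4 * Real.exp (-t) := by
          have c1 : Real.exp (-1) ≤ Real.exp (-t) := Real.exp_le_exp.2 (by linarith)
          have c2 : Real.exp (-1) * Real.exp 1 = 1 := by rw [← Real.exp_add]; simp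
          nlinarith [Real.exp_one_lt_three, Real.exp_pos (-1)]
        have b5 := mul_le_mul_of_nonneg_left b1 hp.le
        have b6 := mul_le_mul_of_nonneg_left b2 hp.le
        nlinarith
      · push Not at h1
        have b0 : Real.exp (-t) ≤ 1 / 2 := by
          rw [Real.exp_neg, ← one_div]
          exact one_div_le_one_div_of_le (by norm_num) (by linarith [Real.add_one_le_exp t])
        have b1 := abel_le_small x _ he.le b0
        have b2 : t ^ (δ - 1) ≤ 1 := Real.rpow_le_one_of_one_le_of_nonpos h1.le (by linarith)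
        have b3 := mul_le_mul b2 b1 (abs_nonneg _) zero_le_one
        have b4 : 0 ≤ Real.exp (-t) * t ^ (δ - 1) := by positivity
        linarith)
  refine hb.trans (le_of_eq ?_)
  simp only [Pi.add_apply]
  rw [integral_add i1 i2, integral_const_mul, integral_exp_neg_Ioi_zero,
    ← Real.Gamma_eq_integral hδ, mul_one]

theorem hasSum_odd : HasSum (fun n : ℕ => if Odd n then 8 / Real.pi ^ 2 * (n : ℝ) ^ (-2 : ℝ) else 0)
    1 := by
  have s1 := hasSum_zeta_two
  have s2 : HasSum (fun n : ℕ => if Even n then (1 : ℝ) / (n : ℝ) ^ 2 else 0)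
      (1 / 4 * (Real.pi ^ 2 / 6)) := by
    have hinj : Function.Injective fun m : ℕ => 2 * m := fun a b h => by simpa using h
    rw [← hinj.hasSum_iff]
    · have e : ((fun n : ℕ => if Even n then (1 : ℝ) / (n : ℝ) ^ 2 else 0) ∘ fun m : ℕ => 2 * m)
          = fun m : ℕ => 1 / 4 * ((1 : ℝ) / (m : ℝ) ^ 2) := by
        ext m
        simp only [Function.comp, even_two, Even.mul_right, if_true]
        push_cast; ring
      rw [e]
      exact s1.mul_left (1 / 4)
    · intro n hn
      rw [if_neg]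
      rintro ⟨m, hm⟩
      exact hn ⟨m, by simp only; omega⟩
  have s3 := (s1.sub s2).mul_left (8 / Real.pi ^ 2)
  have e1 : (fun n : ℕ => if Odd n then 8 / Real.pi ^ 2 * (n : ℝ) ^ (-2 : ℝ) else 0)
      = fun n : ℕ => 8 / Real.pi ^ 2
        * ((1 : ℝ) / (n : ℝ) ^ 2 - if Even n then (1 : ℝ) / (n : ℝ) ^ 2 else 0) := by
    ext n
    rcases Nat.even_or_odd n with h | h
    · rw [if_neg (Nat.not_odd_iff_even.2 h), if_pos h]; simp
    · rw [if_pos h, if_neg (Nat.not_even_iff_odd.2 h), Real.rpow_neg (Nat.cast_nonneg n)]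
      simp
  have e2 : 8 / Real.pi ^ 2 * (Real.pi ^ 2 / 6 - 1 / 4 * (Real.pi ^ 2 / 6)) = 1 := by
    have := Real.pi_pos
    field_simp; norm_num
  rw [e2] at s3
  rw [e1]
  exact s3

theorem sum_filter_odd (f : ℕ → ℝ) (K : ℕ) :
    ∑ n ∈ (Icc 1 K).filter Odd, f n = ∑ n ∈ range (K + 1), if Odd n then f n else 0 := by
  rw [← Finset.sum_filter]
  congr 1
  ext n
  simp only [Finset.mem_filter, Finset.mem_Icc, Finset.mem_range]
  constructor
  · exact fun h => ⟨by omega, h.2⟩
  · exact fun h => ⟨⟨h.2.pos, by omega⟩, h.2⟩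

theorem eventually_gamma (ε : ℝ) (hε : 0 < ε) :
    ∀ᶠ δ in 𝓝[>] (0 : ℝ), 4 ≤ ε * Real.Gamma δ := by
  have c1 : ContinuousAt Real.Gamma 1 :=
    (Real.differentiableAt_Gamma (fun m h => by
      have : (0 : ℝ) ≤ m := Nat.cast_nonneg m
      linarith)).continuousAt
  have c2 : Tendsto (fun δ : ℝ => ε * Real.Gamma (δ + 1) - 4 * δ) (𝓝 0)
      (𝓝 (ε * Real.Gamma (0 + 1) - 4 * 0)) := by
    refine Tendsto.sub (Tendsto.const_mul _ ?_) (tendsto_id.const_mul 4)
    refine Tendsto.comp (g := Real.Gamma) (by rw [zero_add]; exact c1) ?_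
    exact (show Continuous fun δ : ℝ => δ + 1 by fun_prop).tendsto' 0 _ (by simp)
  rw [zero_add, Real.Gamma_one, mul_one, mul_zero, sub_zero] at c2
  have c3 := (c2.eventually (lt_mem_nhds hε)).filter_mono (nhdsWithin_le_nhds (s := Set.Ioi 0))
  filter_upwards [c3, self_mem_nhdsWithin] with δ h1 h2
  have h3 : 0 < δ := h2
  rw [Real.Gamma_add_one h3.ne'] at h1
  have : δ * 4 < δ * (ε * Real.Gamma δ) := by linarith
  exact (lt_of_mul_lt_mul_left this h3.le).le

end Square

open Square Filter Topology in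
/-- T7a: the square wave with weights `n^(-δ)`. -/
theorem square_wave (ε : ℝ) (hε : 0 < ε) :
    ∃ (δ : ℝ) (K : ℕ), 0 < δ ∧ δ < 1 ∧ 1 ≤ K ∧
      (∀ x : ℝ, |∑ n ∈ (Icc 1 K).filter Odd,
        4 / Real.pi * (n : ℝ) ^ (-1 - δ) * Real.sin (2 * Real.pi * (n * x))| ≤ 1 + ε) ∧
      1 - ε ≤ ∑ n ∈ (Icc 1 K).filter Odd, 8 / Real.pi ^ 2 * (n : ℝ) ^ (-2 - 2 * δ) := by
  obtain ⟨K0, hK0⟩ : ∃ K0 : ℕ,
      1 - ε < ∑ n ∈ (Icc 1 K0).filter Odd, 8 / Real.pi ^ 2 * (n : ℝ) ^ (-2 : ℝ) := by
    have := hasSum_odd.tendsto_sum_nat.eventually (lt_mem_nhds (show 1 - ε < 1 by linarith))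
    obtain ⟨N, hN⟩ := eventually_atTop.1 this
    exact ⟨N, by rw [sum_filter_odd]; exact hN _ (by omega)⟩
  have ev1 : ∀ᶠ δ in 𝓝[>] (0 : ℝ),
      1 - ε < ∑ n ∈ (Icc 1 K0).filter Odd, 8 / Real.pi ^ 2 * (n : ℝ) ^ (-2 - 2 * δ) := by
    have c : Continuous fun δ : ℝ =>
        ∑ n ∈ (Icc 1 K0).filter Odd, 8 / Real.pi ^ 2 * (n : ℝ) ^ (-2 - 2 * δ) := by
      refine continuous_finsetSum _ fun n hn => continuous_const.mul ?_
      have : (n : ℝ) ≠ 0 := by
        have := (Finset.mem_filter.1 hn).2.pos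
        positivity
      exact Continuous.rpow continuous_const (by fun_prop) fun _ => Or.inl this
    have c2 := c.tendsto 0
    simp only [mul_zero, sub_zero] at c2
    exact (c2.eventually (lt_mem_nhds hK0)).filter_mono nhdsWithin_le_nhds
  have ev2 := eventually_gamma (ε / 2) (by linarith)
  have ev3 : ∀ᶠ δ in 𝓝[>] (0 : ℝ), δ < 1 :=
    (eventually_lt_nhds zero_lt_one).filter_mono nhdsWithin_le_nhds
  obtain ⟨δ, ⟨⟨h1, h2⟩, h3⟩, h4⟩ := (((ev1.and ev2).and ev3).and self_mem_nhdsWithin).exists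
  have hδ : 0 < δ := h4
  have t1 := (tendsto_sum_nat_add (fun n : ℕ => 2 * (n : ℝ) ^ (-1 - δ))).eventually
    (gt_mem_nhds (show 0 < ε / 2 by linarith))
  obtain ⟨N, hN⟩ := eventually_atTop.1 t1
  refine ⟨δ, K0 + N + 1, hδ, h3, by omega, fun x => ?_, h1.le.trans ?_⟩
  · have hG := Real.Gamma_pos_of_pos hδ
    have s1 : |∑' n, cc x n * (1 / (n : ℝ)) ^ δ| ≤ 1 + ε / 2 := by
      have := subord x δ hδ h3
      refine le_of_mul_le_mul_right (this.trans ?_) hG
      linarith
    have sm : Summable fun n : ℕ => cc x n * (1 / (n : ℝ)) ^ δ :=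
      Summable.of_norm_bounded (summable_maj δ hδ) (abs_term_le x δ)
    have e1 := sm.sum_add_tsum_nat_add (K0 + N + 1 + 1)
    have s2 := tsum_of_norm_bounded
      (f := fun n => cc x (n + (K0 + N + 1 + 1)) * (1 / ((n + (K0 + N + 1 + 1) : ℕ) : ℝ)) ^ δ)
      ((summable_nat_add_iff (K0 + N + 1 + 1)).2 (summable_maj δ hδ)).hasSum
      (fun n => abs_term_le x δ _)
    have s3 := hN (K0 + N + 1 + 1) (by omega)
    have e2 : ∑ n ∈ (Icc 1 (K0 + N + 1)).filter Odd,
        4 / Real.pi * (n : ℝ) ^ (-1 - δ) * Real.sin (2 * Real.pi * (n * x))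
        = ∑ n ∈ range (K0 + N + 1 + 1), cc x n * (1 / (n : ℝ)) ^ δ := by
      rw [sum_filter_odd]
      refine Finset.sum_congr rfl fun n _ => ?_
      unfold cc
      split_ifs with h
      · have hn' : (0 : ℝ) < n := by exact_mod_cast h.pos
        rw [Real.rpow_sub hn', Real.rpow_neg_one, Real.div_rpow (by norm_num) hn'.le,
          Real.one_rpow]
        ring
      · simp
    rw [e2, eq_sub_of_add_eq e1]
    rw [Real.norm_eq_abs] at s2
    refine (abs_sub _ _).trans ?_
    linarith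
  · refine Finset.sum_le_sum_of_subset_of_nonneg ?_ fun _ _ _ => by positivity
    exact Finset.filter_subset_filter _ (Finset.Icc_subset_Icc_right (by omega))

end Crest.Agent.R75
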