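import Mathlib
import Crest.Agent.R75.Basic

/-!
Products of powers of two primes are multiplicatively dense (task T7b of result 75).
-/

set_option autoImplicit false

namespace Crest.Agent.R75

namespace TwoPrimes

theorem pos_of_mul_pos_of_pos_right_aux {a b : ℝ} (h : 0 < a * b) (hb : 0 < b) : 0 < a := by
  by_contra h'
  push Not at h'
  nlinarith

theorem small_step (l₁ l₂ : ℕ) (h₁ : l₁.Prime) (h₂ : l₂.Prime) (hne : l₁ ≠ l₂)
    (ε : ℝ) (hε : 0 < ε) :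
    ∃ u v : ℤ, 0 < u * Real.log l₁ + v * Real.log l₂ ∧ u * Real.log l₁ + v * Real.log l₂ ≤ ε := by
  have ha : 0 < Real.log l₁ := Real.log_pos (by exact_mod_cast h₁.one_lt)
  have hb : 0 < Real.log l₂ := Real.log_pos (by exact_mod_cast h₂.one_lt)
  set a := Real.log l₁ with hadef
  set b := Real.log l₂ with hbdef
  obtain ⟨n, hn⟩ := exists_nat_gt (b / ε)
  have hn0 : 0 < n := by
    have : (0 : ℝ) < n := lt_trans (by positivity) hn
    exact_mod_cast this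
  obtain ⟨j, k, hk, -, h⟩ := Real.exists_int_int_abs_mul_sub_le (a / b) hn0
  have h1 : |k * a - j * b| ≤ ε := by
    have e : k * a - j * b = (k * (a / b) - j) * b := by field_simp
    rw [e, abs_mul, abs_of_pos hb]
    have h2 : b / (n + 1) ≤ ε := by
      rw [div_lt_iff₀ hε] at hn
      rw [div_le_iff₀ (by positivity)]; nlinarith
    calc |k * (a / b) - j| * b ≤ 1 / (n + 1) * b := by gcongr
      _ = b / (n + 1) := by ring
      _ ≤ ε := h2
  have h2 : k * a - j * b ≠ 0 := by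
    intro h0
    have hk' : (0 : ℝ) < k := by exact_mod_cast hk
    have hj : 0 < j := by
      have : (0 : ℝ) < j * b := by nlinarith
      have : (0 : ℝ) < j := pos_of_mul_pos_of_pos_right_aux this hb
      exact_mod_cast this
    obtain ⟨k', rfl⟩ := Int.eq_ofNat_of_zero_le hk.le
    obtain ⟨j', rfl⟩ := Int.eq_ofNat_of_zero_le hj.le
    have e : Real.log ((l₁ : ℝ) ^ k') = Real.log ((l₂ : ℝ) ^ j') := by
      rw [Real.log_pow, Real.log_pow]
      push_cast at h0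
      linarith
    have p1 : (0 : ℝ) < l₁ := by exact_mod_cast h₁.pos
    have p2 : (0 : ℝ) < l₂ := by exact_mod_cast h₂.pos
    have e2 := Real.log_injOn_pos (Set.mem_Ioi.2 (pow_pos p1 k')) (Set.mem_Ioi.2 (pow_pos p2 j')) e
    have e3 : l₁ ^ k' = l₂ ^ j' := by exact_mod_cast e2
    have : l₁ ∣ l₂ ^ j' := e3 ▸ dvd_pow_self l₁ (by omega)
    exact hne ((Nat.prime_dvd_prime_iff_eq h₁ h₂).1 (h₁.dvd_of_dvd_pow this))
  rw [abs_le] at h1
  rcases lt_or_gt_of_ne h2 with h3 | h3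
  · refine ⟨-k, j, ?_, ?_⟩ <;> push_cast <;> linarith [h1.1]
  · refine ⟨k, -j, ?_, ?_⟩ <;> push_cast <;> linarith [h1.2]

end TwoPrimes

/-- T7b: products of powers of two primes are multiplicatively dense. -/
theorem two_primes (l₁ l₂ : ℕ) (h₁ : l₁.Prime) (h₂ : l₂.Prime) (hne : l₁ ≠ l₂)
    (ε : ℝ) (hε : 0 < ε) :
    ∃ T₀ : ℝ, ∀ T ≥ T₀, ∃ k₁ k₂ : ℕ, 1 ≤ k₁ ∧ 1 ≤ k₂ ∧
      |k₁ * Real.log l₁ + k₂ * Real.log l₂ - T| ≤ ε := by
  obtain ⟨u, v, h0, h1⟩ := TwoPrimes.small_step l₁ l₂ h₁ h₂ hne ε hε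
  have ha : 0 < Real.log l₁ := Real.log_pos (by exact_mod_cast h₁.one_lt)
  set a := Real.log l₁ with hadef
  set b := Real.log l₂ with hbdef
  set s := u * a + v * b with hs
  set J : ℕ := ⌊a / s⌋₊ with hJ
  refine ⟨((J : ℤ) * |u| + 1 : ℤ) * a + ((J : ℤ) * |v| + 1 : ℤ) * b, fun T hT => ?_⟩
  set T₀ : ℝ := ((J : ℤ) * |u| + 1 : ℤ) * a + ((J : ℤ) * |v| + 1 : ℤ) * b with hT₀
  have hT' : 0 ≤ (T - T₀) / a := div_nonneg (by linarith) ha.le
  set m : ℕ := ⌊(T - T₀) / a⌋₊ with hm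
  have m1 : (m : ℝ) * a ≤ T - T₀ := by
    have := Nat.floor_le hT'
    rwa [le_div_iff₀ ha] at this
  have m2 : T - T₀ < (m + 1) * a := by
    have := Nat.lt_floor_add_one ((T - T₀) / a)
    rwa [div_lt_iff₀ ha] at this
  set r := T - T₀ - m * a with hr
  have hr0 : 0 ≤ r := by linarith
  set j : ℕ := ⌊r / s⌋₊ with hj
  have j1 : (j : ℝ) * s ≤ r := by
    have := Nat.floor_le (div_nonneg hr0 h0.le)
    rwa [le_div_iff₀ h0] at this
  have j2 : r < (j + 1) * s := by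
    have := Nat.lt_floor_add_one (r / s)
    rwa [div_lt_iff₀ h0] at this
  have hjJ : j ≤ J := Nat.floor_le_floor (by gcongr; linarith)
  have hjJ' : (j : ℤ) ≤ J := by exact_mod_cast hjJ
  have k1 : (1 : ℤ) ≤ (J : ℤ) * |u| + 1 + m + j * u := by
    have := neg_abs_le u
    have := abs_nonneg u
    have : (0 : ℤ) ≤ j := by positivity
    have : (0 : ℤ) ≤ m := by positivity
    nlinarith
  have k2 : (1 : ℤ) ≤ (J : ℤ) * |v| + 1 + j * v := by
    have := neg_abs_le v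
    have := abs_nonneg v
    have : (0 : ℤ) ≤ j := by positivity
    nlinarith
  obtain ⟨k₁, hk₁⟩ := Int.eq_ofNat_of_zero_le (zero_le_one.trans k1)
  obtain ⟨k₂, hk₂⟩ := Int.eq_ofNat_of_zero_le (zero_le_one.trans k2)
  refine ⟨k₁, k₂, by omega, by omega, ?_⟩
  have e1 : (k₁ : ℝ) = (((J : ℤ) * |u| + 1 : ℤ) : ℝ) + m + j * u := by
    have : ((k₁ : ℤ) : ℝ) = (((J : ℤ) * |u| + 1 + m + j * u : ℤ) : ℝ) := by rw [hk₁]
    push_cast at this ⊢
    linarith
  have e2 : (k₂ : ℝ) = (((J : ℤ) * |v| + 1 : ℤ) : ℝ) + j * v := by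
    have : ((k₂ : ℤ) : ℝ) = (((J : ℤ) * |v| + 1 + j * v : ℤ) : ℝ) := by rw [hk₂]
    push_cast at this ⊢
    linarith
  have e3 : k₁ * a + k₂ * b - T = j * s - r := by
    rw [e1, e2, hr, hT₀, hs]; ring
  rw [e3, abs_le]
  constructor <;> linarith

end Crest.Agent.R75
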